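import Vale.Agent.P141.H841.Lay
import Vale.Agent.P141.H210.Shift
import Vale.Agent.P141.H922.TieSum
import Vale.Agent.P141.H498.ColM

/-!
# P141, line (A), [F18] (T): the tail of the affected moving mass on a shifted grid

`AF k i a b` : affected at scale `k`, the cell `i` of `x₀`, the cells `a` of `x₁` and `b` of `x₃` of
the shifted grid.  Points `(x, y)` in shifted coordinates, true points `(x + α, y + β)`.

* `cnA` : the number of affected scales at and above a cell, `cnA_pt` : at a point;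
* `tail_sum` : the sum over the deep affected cells by their measure;
* `mass_sh` : the mass of a shifted square by the masses of the standard squares;
* `mass_sst` : the mass of the squares which are not stopped;
* `Rs_cap` : the averages of the moving slot keep its cap;
* `tail_T` : the tail of the affected moving mass.
-/

namespace Vale.Agent.P141.H550

open Finset Matrix
open Vale.Agent.P141.PL (Pt iv ix mem_iv ix_ix card_iv)
open Vale.Agent.P141.H922 (iv_iv)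
open Vale.Agent.P141.H43 (nsq nsq_nonneg)
open Vale.Agent.P141.H210 (two sum_two sum_cell_le)

noncomputable section

open scoped Classical

/-! ### The number of affected scales -/

/-- the number of affected scales at and above the cell `(i, a, b)` of scale `k` -/
def cnA (AF : ℕ → ℤ → ℤ → ℤ → Prop) (n k : ℕ) (i a b : ℤ) : ℕ :=
  ((Ico k n).filter fun l => AF l (ix (l - k) i) (ix (l - k) a) (ix (l - k) b)).card

variable {AF : ℕ → ℤ → ℤ → ℤ → Prop} {n : ℕ}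

theorem cnA_pt (k : ℕ) (x0 x y : ℤ) : cnA AF n k (ix k x0) (ix k x) (ix k y) =
    ((Ico k n).filter fun l => AF l (ix l x0) (ix l x) (ix l y)).card := by
  unfold cnA
  congr 1
  refine filter_congr fun l hl => ?_
  rw [mem_Ico] at hl
  rw [ix_ix, ix_ix, ix_ix, Nat.add_sub_cancel' hl.1]

/-! ### The sum over the deep affected cells -/

/-- a triple sum over the root as a sum over the cells -/
theorem iv_iv3 {k n : ℕ} (hk : k ≤ n) (T R S : ℤ) (f : ℤ → ℤ → ℤ → ℝ) :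
    ∑ x0 ∈ iv n T, ∑ x ∈ iv n R, ∑ y ∈ iv n S, f x0 x y =
      ∑ i ∈ iv (n - k) T, ∑ a ∈ iv (n - k) R, ∑ b ∈ iv (n - k) S,
        ∑ x0 ∈ iv k i, ∑ x ∈ iv k a, ∑ y ∈ iv k b, f x0 x y := by
  rw [← iv_iv hk]
  refine sum_congr rfl fun i _ => ?_
  have e1 : ∀ x0, ∑ x ∈ iv n R, ∑ y ∈ iv n S, f x0 x y =
      ∑ a ∈ iv (n - k) R, ∑ b ∈ iv (n - k) S, ∑ x ∈ iv k a, ∑ y ∈ iv k b, f x0 x y := by
    intro x0
    rw [← iv_iv hk]
    refine sum_congr rfl fun a _ => ?_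
    rw [sum_comm]
    rw [← iv_iv hk]
    refine sum_congr rfl fun b _ => ?_
    rw [sum_comm]
  simp only [e1]
  rw [sum_comm]
  refine sum_congr rfl fun a _ => ?_
  rw [sum_comm]

/-- **The deep affected cells.** -/
theorem tail_sum {T R S : ℤ} {lam : ℕ} {P m : ℝ} {F : ℕ → ℤ → ℤ → ℤ → ℝ} (hm0 : 0 ≤ m)
    (hX : ∀ x0 ∈ iv n T, ∑ k ∈ range n, ∑ a ∈ iv (n - k) R, ∑ b ∈ iv (n - k) S,
      (if AF k (ix k x0) a b ∧ lam < cnA AF n k (ix k x0) a b then (4 : ℝ) ^ k else 0) ≤ P)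
    (hm : ∀ k < n, ∀ i ∈ iv (n - k) T, ∀ a ∈ iv (n - k) R, ∀ b ∈ iv (n - k) S, AF k i a b →
      ∑ x0 ∈ iv k i, ∑ x ∈ iv k a, ∑ y ∈ iv k b, F k x0 x y ≤ m * 8 ^ k) :
    ∑ k ∈ range n, ∑ x0 ∈ iv n T, ∑ x ∈ iv n R, ∑ y ∈ iv n S,
      (if AF k (ix k x0) (ix k x) (ix k y) ∧ lam < cnA AF n k (ix k x0) (ix k x) (ix k y) then
        F k x0 x y else 0) ≤ m * P * 2 ^ n := by
  have h1 : ∀ k ∈ range n, ∑ x0 ∈ iv n T, ∑ x ∈ iv n R, ∑ y ∈ iv n S,
      (if AF k (ix k x0) (ix k x) (ix k y) ∧ lam < cnA AF n k (ix k x0) (ix k x) (ix k y) then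
        F k x0 x y else 0) ≤
      m * ∑ x0 ∈ iv n T, ∑ a ∈ iv (n - k) R, ∑ b ∈ iv (n - k) S,
        (if AF k (ix k x0) a b ∧ lam < cnA AF n k (ix k x0) a b then (4 : ℝ) ^ k else 0) := by
    intro k hk
    have hk' := mem_range.1 hk
    rw [iv_iv3 hk'.le, ← iv_iv hk'.le T, mul_sum]
    refine sum_le_sum fun i hi => ?_
    have e2 : ∑ x0 ∈ iv k i, ∑ a ∈ iv (n - k) R, ∑ b ∈ iv (n - k) S,
        (if AF k (ix k x0) a b ∧ lam < cnA AF n k (ix k x0) a b then (4 : ℝ) ^ k else 0) =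
        2 ^ k * ∑ a ∈ iv (n - k) R, ∑ b ∈ iv (n - k) S,
          (if AF k i a b ∧ lam < cnA AF n k i a b then (4 : ℝ) ^ k else 0) := by
      rw [sum_congr rfl fun x0 hx0 => by rw [mem_iv.1 hx0], sum_const, card_iv, nsmul_eq_mul]
      push_cast
      rfl
    rw [e2, ← mul_assoc, mul_sum]
    refine sum_le_sum fun a ha => ?_
    rw [mul_sum]
    refine sum_le_sum fun b hb => ?_
    have e3 : ∑ x0 ∈ iv k i, ∑ x ∈ iv k a, ∑ y ∈ iv k b,
        (if AF k (ix k x0) (ix k x) (ix k y) ∧ lam < cnA AF n k (ix k x0) (ix k x) (ix k y) then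
          F k x0 x y else 0) =
        if AF k i a b ∧ lam < cnA AF n k i a b then
          ∑ x0 ∈ iv k i, ∑ x ∈ iv k a, ∑ y ∈ iv k b, F k x0 x y else 0 := by
      have e4 : ∀ x0 ∈ iv k i, ∀ x ∈ iv k a, ∀ y ∈ iv k b,
          (if AF k (ix k x0) (ix k x) (ix k y) ∧ lam < cnA AF n k (ix k x0) (ix k x) (ix k y) then
            F k x0 x y else 0) =
          if AF k i a b ∧ lam < cnA AF n k i a b then F k x0 x y else 0 := by
        intro x0 h0 x h1 y h2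
        rw [mem_iv.1 h0, mem_iv.1 h1, mem_iv.1 h2]
      rw [sum_congr rfl fun x0 h0 => sum_congr rfl fun x h1 => sum_congr rfl fun y h2 =>
        e4 x0 h0 x h1 y h2]
      split_ifs
      · rfl
      · simp
    rw [e3]
    split_ifs with hc
    · refine (hm k hk' i hi a ha b hb hc.1).trans (le_of_eq ?_)
      have e5 : (8 : ℝ) ^ k = 2 ^ k * 4 ^ k := by rw [← mul_pow]; norm_num
      rw [e5]
      ring
    · rw [mul_zero]
  refine (sum_le_sum h1).trans ?_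
  rw [← mul_sum, sum_comm, mul_assoc]
  refine mul_le_mul_of_nonneg_left ?_ hm0
  refine (sum_le_sum hX).trans (le_of_eq ?_)
  rw [sum_const, card_iv, nsmul_eq_mul]
  push_cast
  ring

/-! ### The mass -/

/-- **The mass of a shifted square.** -/
theorem mass_sh {g : ℤ → ℤ → ℝ} (hg : ∀ x y, 0 ≤ g x y) {M : ℝ} {k : ℕ}
    (h : ∀ I J : ℤ, ∑ x ∈ iv k I, ∑ y ∈ iv k J, g x y ≤ M) (α β a b : ℤ) :
    ∑ x ∈ iv k a, ∑ y ∈ iv k b, g (x + α) (y + β) ≤ 4 * M := by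
  have h1 : ∑ x ∈ iv k a, ∑ y ∈ iv k b, g (x + α) (y + β) ≤
      ∑ I ∈ two (a + ix k α), ∑ x ∈ iv k I, ∑ J ∈ two (b + ix k β), ∑ y ∈ iv k J, g x y := by
    refine (sum_le_sum fun x _ => sum_cell_le k b β (hg (x + α))).trans ?_
    exact sum_cell_le k a α (g := fun x => ∑ J ∈ two (b + ix k β), ∑ y ∈ iv k J, g x y)
      fun x => sum_nonneg fun _ _ => sum_nonneg fun _ _ => hg _ _
  refine h1.trans ?_
  have h2 : ∀ I, ∑ x ∈ iv k I, ∑ J ∈ two (b + ix k β), ∑ y ∈ iv k J, g x y ≤ 2 * M := by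
    intro I
    rw [sum_comm, sum_two]
    linarith [h I (b + ix k β), h I (b + ix k β + 1)]
  rw [sum_two]
  linarith [h2 (a + ix k α), h2 (a + ix k α + 1)]

variable {ι : Type*} [Fintype ι]

/-- alive for the square of the root at the time `k + 1` -/
def alR (Λ : ℝ) (g : ℤ × ℤ → ℝ) (K : ℕ) (R0 S0 : ℤ) (k : ℕ) (x y : ℤ) : Prop :=
  ix K x = R0 ∧ ix K y = S0 ∧ ¬ H48.sst Λ g K (k + 1) x y

/-- **The mass of a square which is not stopped**, at the time `k + 1`. -/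
theorem mass_sst {Λ A : ℝ} {g : ℤ × ℤ → ℝ} {K k : ℕ} {R0 S0 : ℤ} {v : ℤ → ℤ → ι → ℝ}
    (hk : k + 1 ≤ K) (hΛ : 0 ≤ Λ) (hA0 : 0 ≤ A)
    (hv : ∀ x ∈ iv K R0, ∀ y ∈ iv K S0, nsq (v x y) ≤ g (x, y) ^ 2)
    (hA : ∀ x ∈ iv K R0, ∀ y ∈ iv K S0, PL.H315.A2 K g x y ≤ A) (I J : ℤ) :
    ∑ x ∈ iv k I, ∑ y ∈ iv k J, (if alR Λ g K R0 S0 k x y then nsq (v x y) else 0) ≤
      4 * (Λ * A) * 4 ^ k := by
  have hkK : k ≤ K := by omega
  have e0 : ∀ {x I : ℤ}, x ∈ iv k I → ix k (2 ^ k * I) = ix k x := by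
    intro x I hx
    rw [mem_iv.1 hx]
    exact mem_iv.1 (H498.iv_corner k I ▸ PL.H315.self_mem_iv k (2 ^ k * I))
  have e1 : ∀ {x I : ℤ} {j : ℕ}, k ≤ j → x ∈ iv k I → ix j (2 ^ k * I) = ix j x := by
    intro x I j hj hx
    have h := congrArg (ix (j - k)) (e0 hx)
    rw [ix_ix, ix_ix, Nat.add_sub_cancel' hj] at h
    exact h
  have e2 : ∀ x ∈ iv k I, ∀ y ∈ iv k J,
      (alR Λ g K R0 S0 k x y ↔ alR Λ g K R0 S0 k (2 ^ k * I) (2 ^ k * J)) := by
    intro x hx y hy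
    unfold alR
    rw [e1 hkK hx, e1 hkK hy, H48.sst_congr g (e1 (Nat.le_succ k) hx) (e1 (Nat.le_succ k) hy)]
  by_cases h : alR Λ g K R0 S0 k (2 ^ k * I) (2 ^ k * J)
  · have h1 : ∑ x ∈ iv k I, ∑ y ∈ iv k J, (if alR Λ g K R0 S0 k x y then nsq (v x y) else 0) ≤
        ∑ x ∈ iv k I, ∑ y ∈ iv k J, g (x, y) ^ 2 := by
      refine sum_le_sum fun x hx => sum_le_sum fun y hy => ?_
      rw [if_pos ((e2 x hx y hy).2 h)]
      refine hv x ?_ y ?_
      · rw [mem_iv, ← e1 hkK hx]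
        exact h.1
      · rw [mem_iv, ← e1 hkK hy]
        exact h.2.1
    have h2 : PL.H315.A2 k g (2 ^ k * I) (2 ^ k * J) =
        (4 ^ k : ℝ)⁻¹ * ∑ x ∈ iv k I, ∑ y ∈ iv k J, g (x, y) ^ 2 := by
      unfold Vale.Agent.P141.PL.H315.A2 Vale.Agent.P141.PL.H315.avg
      rw [H498.iv_corner, H498.iv_corner, sum_product, card_product, card_iv, card_iv]
      congr 1
      push_cast
      rw [← mul_pow]
      norm_num
    have h3 := H498.A2_quarter k g (2 ^ k * I) (2 ^ k * J)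
    have h4 := (H579.not_sst h.2.2 le_rfl hk).1
    have h5 := hA _ (mem_iv.2 h.1) _ (mem_iv.2 h.2.1)
    have h6 := mul_le_mul_of_nonneg_left h5 hΛ
    have h7 : PL.H315.A2 k g (2 ^ k * I) (2 ^ k * J) ≤ 4 * (Λ * A) := by linarith
    rw [h2, inv_mul_le_iff₀ (by positivity)] at h7
    linarith
  · rw [sum_congr rfl fun x hx => sum_congr rfl fun y hy =>
      if_neg (fun h' => h ((e2 x hx y hy).1 h'))]
    simp only [sum_const_zero]
    positivity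

/-! ### The cap of the averages -/

/-- **The averages of the moving slot keep its cap.** -/
theorem Rs_cap {Mx : ℕ → ℤ → Matrix ι ι ℝ} {o x1 : ℤ} {s : ℕ → ℤ → ℤ → ℝ} {x0 : ℤ} {c : ℝ}
    {w : ι → ℝ} (sh : ℤ) (k : ℕ) (m : ℤ)
    (h : ∀ p ∈ iv k m, nsq (H841.Rm Mx o x1 s n 0 x0 (p + sh) *ᵥ w) ≤ c) :
    nsq (H841.Rs Mx o x1 s n sh k x0 m *ᵥ w) ≤ c := by
  unfold H841.Rs H43.avv
  rw [smul_mulVec, Matrix.sum_mulVec]
  unfold PL.iv at h ⊢
  exact H841.nsq_avg_le k (2 ^ k * m) _ h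

/-! ### The tail -/

/-- **The tail of the affected moving mass.** -/
theorem tail_T {T R S α β : ℤ} {lam : ℕ} {P M e c : ℝ} {W : ℕ → ℤ → ℤ → ℤ → ℝ}
    {Z : ℕ → ℤ → ℤ → ℤ → Matrix ι ι ℝ} {v : ℤ → ℤ → ι → ℝ} {al : ℕ → ℤ → ℤ → Prop}
    (hM0 : 0 ≤ M) (he0 : 0 ≤ e) (hc0 : 0 ≤ c)
    (hX : ∀ x0 ∈ iv n T, ∑ k ∈ range n, ∑ a ∈ iv (n - k) R, ∑ b ∈ iv (n - k) S,
      (if AF k (ix k x0) a b ∧ lam < cnA AF n k (ix k x0) a b then (4 : ℝ) ^ k else 0) ≤ P)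
    (hW0 : ∀ k x0 x y, 0 ≤ W k x0 x y)
    (hW : ∀ k < n, ∀ i x y, ∑ x0 ∈ iv k i, W k x0 x y ≤ e * 2 ^ k)
    (hal : ∀ k < n, ∀ x0 x y, ¬ al k (x + α) (y + β) → W k x0 x y = 0)
    (hcap : ∀ k < n, ∀ x0 ∈ iv n T, ∀ x ∈ iv n R, ∀ y ∈ iv n S,
      AF k (ix k x0) (ix k x) (ix k y) → W k x0 x y ≠ 0 →
      nsq (Z k x0 x y *ᵥ v (x + α) (y + β)) ≤ c * nsq (v (x + α) (y + β)))
    (hM : ∀ k < n, ∀ I J : ℤ, ∑ x ∈ iv k I, ∑ y ∈ iv k J,
      (if al k x y then nsq (v x y) else 0) ≤ M * 4 ^ k) :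
    ∑ k ∈ range n, ∑ x0 ∈ iv n T, ∑ x ∈ iv n R, ∑ y ∈ iv n S,
      (if AF k (ix k x0) (ix k x) (ix k y) ∧ lam < cnA AF n k (ix k x0) (ix k x) (ix k y) then
        W k x0 x y * nsq (Z k x0 x y *ᵥ v (x + α) (y + β)) else 0) ≤
      4 * c * e * M * P * 2 ^ n := by
  refine (tail_sum (m := 4 * c * e * M) (by positivity) hX ?_)
  intro k hk i hi a ha b hb hAF
  have up : ∀ {q r x : ℤ}, q ∈ iv (n - k) r → x ∈ iv k q → x ∈ iv n r := by
    intro q r x h1 h2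
    rw [mem_iv] at h1 h2 ⊢
    rw [← h1, ← h2, ix_ix, Nat.add_sub_cancel' hk.le]
  have h1 : ∀ x0 ∈ iv k i, ∀ x ∈ iv k a, ∀ y ∈ iv k b,
      W k x0 x y * nsq (Z k x0 x y *ᵥ v (x + α) (y + β)) ≤
        c * (W k x0 x y * (if al k (x + α) (y + β) then nsq (v (x + α) (y + β)) else 0)) := by
    intro x0 h0 x hx y hy
    by_cases hz : W k x0 x y = 0
    · rw [hz, zero_mul, zero_mul, mul_zero]
    · have hAF' : AF k (ix k x0) (ix k x) (ix k y) := by
        rw [mem_iv.1 h0, mem_iv.1 hx, mem_iv.1 hy]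
        exact hAF
      have h3 := hcap k hk x0 (up hi h0) x (up ha hx) y (up hb hy) hAF' hz
      have h4 : al k (x + α) (y + β) := by
        by_contra h
        exact hz (hal k hk x0 x y h)
      rw [if_pos h4]
      have h5 := mul_le_mul_of_nonneg_left h3 (hW0 k x0 x y)
      linarith
  refine (sum_le_sum fun x0 h0 => sum_le_sum fun x hx => sum_le_sum fun y hy =>
    h1 x0 h0 x hx y hy).trans ?_
  have h2 : ∑ x0 ∈ iv k i, ∑ x ∈ iv k a, ∑ y ∈ iv k b,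
      c * (W k x0 x y * (if al k (x + α) (y + β) then nsq (v (x + α) (y + β)) else 0)) =
      c * ∑ x ∈ iv k a, ∑ y ∈ iv k b, (∑ x0 ∈ iv k i, W k x0 x y) *
        (if al k (x + α) (y + β) then nsq (v (x + α) (y + β)) else 0) := by
    rw [sum_comm, mul_sum]
    refine sum_congr rfl fun x _ => ?_
    rw [sum_comm, mul_sum]
    refine sum_congr rfl fun y _ => ?_
    rw [sum_mul, mul_sum]
  rw [h2]
  have h3 : ∑ x ∈ iv k a, ∑ y ∈ iv k b, (∑ x0 ∈ iv k i, W k x0 x y) *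
        (if al k (x + α) (y + β) then nsq (v (x + α) (y + β)) else 0) ≤
      e * 2 ^ k * ∑ x ∈ iv k a, ∑ y ∈ iv k b,
        (if al k (x + α) (y + β) then nsq (v (x + α) (y + β)) else 0) := by
    rw [mul_sum]
    refine sum_le_sum fun x _ => ?_
    rw [mul_sum]
    refine sum_le_sum fun y _ => mul_le_mul_of_nonneg_right (hW k hk i x y) ?_
    split_ifs
    · exact nsq_nonneg _
    · exact le_rfl
  have h4 := mass_sh (g := fun x y => if al k x y then nsq (v x y) else 0) (fun x y => by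
    show (0 : ℝ) ≤ if al k x y then nsq (v x y) else 0
    split_ifs
    · exact nsq_nonneg _
    · exact le_rfl) (hM k hk) α β a b
  have e8 : (8 : ℝ) ^ k = 2 ^ k * 4 ^ k := by rw [← mul_pow]; norm_num
  calc c * ∑ x ∈ iv k a, ∑ y ∈ iv k b, (∑ x0 ∈ iv k i, W k x0 x y) *
        (if al k (x + α) (y + β) then nsq (v (x + α) (y + β)) else 0) ≤
      c * (e * 2 ^ k * (4 * (M * 4 ^ k))) :=
        mul_le_mul_of_nonneg_left (h3.trans (mul_le_mul_of_nonneg_left h4 (by positivity))) hc0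
    _ = 4 * c * e * M * 8 ^ k := by rw [e8]; ring

end

end Vale.Agent.P141.H550
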