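import Vale.Agent.P141.H550.Pair

/-!
# P141, line W: caps of (composite) slices

`G` is `δ`-uniform on a box `A × B × C` (edge weights `Nm e`), all line averages of `G ^ 2` are at
most `Λ`.  For a vector valued function `u l x y` (`l : ι` any finite index set, `ι = Unit` is the
scalar case) the matrices `((x, l), y) ↦ u l x y * G (x, y, z)` have norm at most `τ` for all `z`
outside a set of small measure: the exceptional set has relative measure at most
`max ((2 s U / τ)²) ((2 δ U^(1-e) / τ)^(1/e) W⁵ Λ³ / (τ⁴ s²))`, `s > 0` free.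
-/

namespace Vale.Agent.P141.H550

noncomputable section

open scoped BigOperators
open Vale.Agent.P141.PL.H315 Vale.Agent.P141.H315

theorem avg_sum {X ι : Type*} (Q : Finset X) (s : Finset ι) (f : ι → X → ℝ) :
    (avg Q fun x => ∑ l ∈ s, f l x) = ∑ l ∈ s, avg Q (f l) := by
  unfold avg
  rw [Finset.sum_comm, Finset.mul_sum]

/-- Cauchy–Schwarz with square roots. -/
theorem avg_mul_le_sqrt {X : Type*} (Q : Finset X) (f g : X → ℝ) :
    (avg Q fun x => f x * g x) ≤
      Real.sqrt (avg Q fun x => f x ^ 2) * Real.sqrt (avg Q fun x => g x ^ 2) := by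
  rw [← Real.sqrt_mul (avg_nonneg fun _ _ => sq_nonneg _)]
  exact Real.le_sqrt_of_sq_le (avg_mul_sq_le Q f g)

/-- One good pair of test vectors for a bilinear form evaluated at a composite vector. -/
theorem pick {ι : Type*} [Fintype ι] {B C : Finset ℤ}
    {M : ℤ → ℤ → ℝ} {R s0 : ℝ} (hR : 0 ≤ R) (hs : 0 < s0)
    (hM1 : ∀ y ∈ B, (avg C fun z => M y z ^ 2) ≤ R ^ 2)
    (hM2 : ∀ z ∈ C, (avg B fun y => M y z ^ 2) ≤ R ^ 2) (u b : ι → ℤ → ℝ) :
    ∃ f g : ℤ → ℝ, (avg B fun y => f y ^ 2) ≤ 1 ∧ (avg C fun z => g z ^ 2) ≤ 1 ∧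
      (∀ y ∈ B, |f y| ≤ R / s0) ∧ (∀ z ∈ C, |g z| ≤ R / s0) ∧
      0 ≤ (avg B fun y => avg C fun z => M y z * (f y * g z)) ∧
      (avg B fun y => avg C fun z => M y z * ∑ l, u l y * b l z) ≤
        Real.sqrt (avg B fun y => ∑ l, u l y ^ 2) * Real.sqrt (avg C fun z => ∑ l, b l z ^ 2) *
          (s0 + avg B fun y => avg C fun z => M y z * (f y * g z)) := by
  classical
  set P : ℝ := Real.sqrt (avg B fun y => ∑ l, u l y ^ 2) with hP
  set Q : ℝ := Real.sqrt (avg C fun z => ∑ l, b l z ^ 2) with hQ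
  set X : ℝ := avg B fun y => avg C fun z => M y z * ∑ l, u l y * b l z with hX
  have hP0 : 0 ≤ P := Real.sqrt_nonneg _
  have hQ0 : 0 ≤ Q := Real.sqrt_nonneg _
  have hRs : 0 ≤ R / s0 := div_nonneg hR hs.le
  by_cases hsmall : X ≤ P * Q * s0
  · refine ⟨fun _ => 0, fun _ => 0, ?_, ?_, ?_, ?_, ?_, ?_⟩
    · simp [avg]
    · simp [avg]
    · intro y _; simpa using hRs
    · intro z _; simpa using hRs
    · simp [avg]
    · have h0 : (avg B fun y => avg C fun z => M y z * ((fun _ : ℤ => (0 : ℝ)) y *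
          (fun _ : ℤ => (0 : ℝ)) z)) = 0 := by simp [avg]
      rw [h0, add_zero]; exact hsmall
  rw [not_le] at hsmall
  have hXpos : 0 < X := lt_of_le_of_lt (by positivity) hsmall
  set nu : ι → ℝ := fun l => Real.sqrt (avg B fun y => u l y ^ 2) with hnu
  set nb : ι → ℝ := fun l => Real.sqrt (avg C fun z => b l z ^ 2) with hnb
  have hnu0 : ∀ l, 0 ≤ nu l := fun l => Real.sqrt_nonneg _
  have hnb0 : ∀ l, 0 ≤ nb l := fun l => Real.sqrt_nonneg _
  set w : ι → ℤ → ℝ := fun l y => avg C fun z => M y z * b l z with hw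
  set Xl : ι → ℝ := fun l => avg B fun y => u l y * w l y with hXl
  have hXsum : X = ∑ l, Xl l := by
    rw [hX, ← avg_sum]
    refine avg_congr fun y _ => ?_
    have e1 : ∀ z ∈ C, M y z * ∑ l, u l y * b l z = ∑ l, u l y * (M y z * b l z) := by
      intro z _
      rw [Finset.mul_sum]
      exact Finset.sum_congr rfl fun l _ => by ring
    rw [avg_congr e1, avg_sum]
    refine Finset.sum_congr rfl fun l _ => ?_
    show avg C (fun z => u l y * (M y z * b l z)) = u l y * w l y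
    rw [avg_mul_left]
  have hwsq : ∀ l, ∀ y ∈ B, w l y ^ 2 ≤ (R * nb l) ^ 2 := by
    intro l y hy
    have h1 := avg_mul_sq_le C (fun z => M y z) (fun z => b l z)
    have h2 : nb l ^ 2 = avg C fun z => b l z ^ 2 :=
      Real.sq_sqrt (avg_nonneg fun _ _ => sq_nonneg _)
    calc w l y ^ 2 ≤ (avg C fun z => M y z ^ 2) * avg C fun z => b l z ^ 2 := h1
      _ ≤ R ^ 2 * avg C fun z => b l z ^ 2 :=
          mul_le_mul_of_nonneg_right (hM1 y hy) (avg_nonneg fun _ _ => sq_nonneg _)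
      _ = _ := by rw [mul_pow, h2]
  have hXl_le : ∀ l, Xl l ≤ nu l * Real.sqrt (avg B fun y => w l y ^ 2) := fun l =>
    avg_mul_le_sqrt B _ _
  have hXl0 : ∀ l, nu l * nb l = 0 → Xl l ≤ 0 := by
    intro l h0
    rcases mul_eq_zero.mp h0 with h | h
    · have := hXl_le l
      rwa [h, zero_mul] at this
    · have h1 : ∀ y ∈ B, u l y * w l y = 0 := by
        intro y hy
        have h2 := hwsq l y hy
        rw [h, mul_zero] at h2
        have h3 : w l y = 0 := by nlinarith [sq_nonneg (w l y)]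
        rw [h3, mul_zero]
      have h4 : Xl l = 0 := by
        show avg B (fun y => u l y * w l y) = 0
        rw [avg_congr h1]; simp [avg]
      exact h4.le
  have hPsq : P ^ 2 = ∑ l, nu l ^ 2 := by
    rw [hP, Real.sq_sqrt (avg_nonneg fun _ _ => Finset.sum_nonneg fun _ _ => sq_nonneg _),
      avg_sum]
    exact Finset.sum_congr rfl fun l _ => (Real.sq_sqrt (avg_nonneg fun _ _ => sq_nonneg _)).symm
  have hQsq : Q ^ 2 = ∑ l, nb l ^ 2 := by
    rw [hQ, Real.sq_sqrt (avg_nonneg fun _ _ => Finset.sum_nonneg fun _ _ => sq_nonneg _),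
      avg_sum]
    exact Finset.sum_congr rfl fun l _ => (Real.sq_sqrt (avg_nonneg fun _ _ => sq_nonneg _)).symm
  have hCS : ∑ l, nu l * nb l ≤ P * Q := by
    have h1 := Finset.sum_mul_sq_le_sq_mul_sq Finset.univ nu nb
    rw [← hPsq, ← hQsq, ← mul_pow] at h1
    exact le_of_sq_le_sq h1 (by positivity)
  -- the good index
  have hex : ∃ l, 0 < nu l * nb l ∧ X * (nu l * nb l) ≤ Xl l * (P * Q) := by
    by_contra hno
    push Not at hno
    have h1 : ∀ l, Xl l * (P * Q) ≤ X * (nu l * nb l) := by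
      intro l
      rcases (mul_nonneg (hnu0 l) (hnb0 l)).eq_or_lt with h | h
      · rw [← h, mul_zero]
        exact mul_nonpos_of_nonpos_of_nonneg (hXl0 l h.symm) (by positivity)
      · exact (hno l h).le
    have h2 : ∃ l, 0 < nu l * nb l := by
      by_contra h3
      push Not at h3
      have h4 : X ≤ 0 := by
        rw [hXsum]
        exact Finset.sum_nonpos fun l _ =>
          hXl0 l (le_antisymm (h3 l) (mul_nonneg (hnu0 l) (hnb0 l)))
      linarith
    obtain ⟨l0, hl0⟩ := h2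
    have h3 : ∑ l, Xl l * (P * Q) < ∑ l, X * (nu l * nb l) :=
      Finset.sum_lt_sum (fun l _ => h1 l) ⟨l0, Finset.mem_univ _, hno l0 hl0⟩
    rw [← Finset.sum_mul, ← hXsum, ← Finset.mul_sum] at h3
    have h4 := mul_le_mul_of_nonneg_left hCS hXpos.le
    linarith
  obtain ⟨l, hl0, hl⟩ := hex
  have hnul : 0 < nu l := by
    rcases (hnu0 l).eq_or_lt with h | h
    · rw [← h, zero_mul] at hl0; exact absurd hl0 (lt_irrefl _)
    · exact h
  have hnbl : 0 < nb l := by
    rcases (hnb0 l).eq_or_lt with h | h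
    · rw [← h, mul_zero] at hl0; exact absurd hl0 (lt_irrefl _)
    · exact h
  have hPQ : 0 < P * Q := lt_of_lt_of_le hl0 ((Finset.single_le_sum
    (f := fun l => nu l * nb l) (fun l _ => mul_nonneg (hnu0 l) (hnb0 l))
    (Finset.mem_univ l)).trans hCS)
  set ρ : ℝ := X / (P * Q) with hρ
  have hρs : s0 < ρ := by
    rw [hρ, lt_div_iff₀ hPQ]; linarith
  have hρ0 : 0 < ρ := hs.trans hρs
  have hlρ : ρ * (nu l * nb l) ≤ Xl l := by
    rw [hρ, div_mul_eq_mul_div, div_le_iff₀ hPQ]; exact hl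
  -- first vector
  set nw : ℝ := Real.sqrt (avg B fun y => w l y ^ 2) with hnw
  have hnwsq : nw ^ 2 = avg B fun y => w l y ^ 2 :=
    Real.sq_sqrt (avg_nonneg fun _ _ => sq_nonneg _)
  have hnw1 : ρ * nb l ≤ nw := by
    have h1 := hlρ.trans (hXl_le l)
    have h2 : nu l * (ρ * nb l) ≤ nu l * nw := by
      calc nu l * (ρ * nb l) = ρ * (nu l * nb l) := by ring
        _ ≤ _ := h1
    exact le_of_mul_le_mul_left h2 hnul
  have hnw0 : 0 < nw := lt_of_lt_of_le (by positivity) hnw1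
  let f : ℤ → ℝ := fun y => w l y / nw
  have hf1 : (avg B fun y => f y ^ 2) = 1 := by
    have e1 : ∀ y ∈ B, f y ^ 2 = (nw ^ 2)⁻¹ * w l y ^ 2 := by
      intro y _
      simp only [f]
      rw [div_pow]; ring
    rw [avg_congr e1, avg_mul_left, ← hnwsq, inv_mul_cancel₀ (by positivity)]
  have hfsup : ∀ y ∈ B, |f y| ≤ R / s0 := by
    intro y hy
    have h1 : |w l y| ≤ R * nb l := abs_le_of_sq_le_sq (hwsq l y hy) (by positivity)
    simp only [f]
    rw [abs_div, abs_of_pos hnw0, div_le_div_iff₀ hnw0 hs]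
    have h2 : nb l * s0 ≤ nw := by
      have := mul_le_mul_of_nonneg_left hρs.le hnbl.le
      linarith
    calc |w l y| * s0 ≤ R * nb l * s0 := mul_le_mul_of_nonneg_right h1 hs.le
      _ = R * (nb l * s0) := by ring
      _ ≤ R * nw := mul_le_mul_of_nonneg_left h2 hR
  -- second vector
  set v : ℤ → ℝ := fun z => avg B fun y => M y z * f y with hv
  set nv : ℝ := Real.sqrt (avg C fun z => v z ^ 2) with hnv
  have hnvsq : nv ^ 2 = avg C fun z => v z ^ 2 :=
    Real.sq_sqrt (avg_nonneg fun _ _ => sq_nonneg _)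
  have hvb : (avg C fun z => v z * b l z) = nw := by
    have e1 : (avg C fun z => v z * b l z) = avg B fun y => f y * w l y := by
      have e2 : ∀ z ∈ C, v z * b l z = avg B fun y => M y z * f y * b l z := by
        intro z _
        rw [← avg_mul_right]
      rw [avg_congr e2, avg_comm]
      refine avg_congr fun y _ => ?_
      show _ = f y * avg C fun z => M y z * b l z
      rw [← avg_mul_left]
      exact avg_congr fun z _ => by ring
    rw [e1]
    have e3 : ∀ y ∈ B, f y * w l y = nw⁻¹ * w l y ^ 2 := by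
      intro y _
      simp only [f]; field_simp
    rw [avg_congr e3, avg_mul_left, ← hnwsq]
    field_simp
  have hnv1 : ρ ≤ nv := by
    have h1 : nw ≤ nv * nb l := by
      rw [← hvb]; exact avg_mul_le_sqrt C _ _
    have h2 : ρ * nb l ≤ nv * nb l := hnw1.trans h1
    exact le_of_mul_le_mul_right h2 hnbl
  have hnv0 : 0 < nv := hρ0.trans_le hnv1
  let g : ℤ → ℝ := fun z => v z / nv
  have hg1 : (avg C fun z => g z ^ 2) = 1 := by
    have e1 : ∀ z ∈ C, g z ^ 2 = (nv ^ 2)⁻¹ * v z ^ 2 := by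
      intro z _
      simp only [g]
      rw [div_pow]; ring
    rw [avg_congr e1, avg_mul_left, ← hnvsq, inv_mul_cancel₀ (by positivity)]
  have hgsup : ∀ z ∈ C, |g z| ≤ R / s0 := by
    intro z hz
    have h1 : v z ^ 2 ≤ R ^ 2 := by
      have h2 := avg_mul_sq_le B (fun y => M y z) f
      rw [hf1, mul_one] at h2
      exact h2.trans (hM2 z hz)
    have h2 : |v z| ≤ R := abs_le_of_sq_le_sq h1 hR
    simp only [g]
    rw [abs_div, abs_of_pos hnv0, div_le_div_iff₀ hnv0 hs]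
    calc |v z| * s0 ≤ R * s0 := mul_le_mul_of_nonneg_right h2 hs.le
      _ ≤ R * nv := mul_le_mul_of_nonneg_left (hρs.le.trans hnv1) hR
  have hfg : (avg B fun y => avg C fun z => M y z * (f y * g z)) = nv := by
    have e1 : (avg B fun y => avg C fun z => M y z * (f y * g z)) =
        avg C fun z => v z * g z := by
      rw [avg_comm]
      refine avg_congr fun z _ => ?_
      show _ = (avg B fun y => M y z * f y) * g z
      rw [← avg_mul_right]
      exact avg_congr fun y _ => by ring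
    rw [e1]
    have e3 : ∀ z ∈ C, v z * g z = nv⁻¹ * v z ^ 2 := by
      intro z _
      simp only [g]; field_simp
    rw [avg_congr e3, avg_mul_left, ← hnvsq]
    field_simp
  refine ⟨f, g, hf1.le, hg1.le, hfsup, hgsup, ?_, ?_⟩
  · rw [hfg]; exact hnv0.le
  · rw [hfg]
    have h1 : X = P * Q * ρ := (mul_div_cancel₀ X hPQ.ne').symm
    rw [h1]
    exact mul_le_mul_of_nonneg_left (by linarith) hPQ.le

/-- The measure bound for the exceptional slices. -/
def capMu (δ e Λ W U s0 τ : ℝ) : ℝ :=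
  max ((2 * s0 * U / τ) ^ 2)
    ((2 * δ * U ^ (1 - e) / τ) ^ (1 / e) * (W ^ 5 * Λ ^ 3 / (τ ^ 4 * s0 ^ 2)))

theorem capMu_nonneg {δ e Λ W U s0 τ : ℝ} : 0 ≤ capMu δ e Λ W U s0 τ :=
  le_max_of_le_left (sq_nonneg _)

/-- The exceptional slices of a composite function: measure bound. -/
theorem comp_bad {ι : Type*} [Fintype ι] {δ e Λ W U s0 τ : ℝ} (hδ : 0 ≤ δ) (he0 : 0 < e)
    (he1 : e ≤ 1) (hΛ : 0 ≤ Λ) (hW : 0 ≤ W) (hU0 : 0 ≤ U) (hs : 0 < s0) (hτ : 0 < τ)
    {A B C : Finset ℤ} (hA : A.Nonempty) (hB : B.Nonempty) (hC : C.Nonempty)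
    {G : ℤ × ℤ × ℤ → ℝ} (hU : UnifBox δ e A B C G)
    (hx : ∀ y ∈ B, ∀ z ∈ C, (avg A fun x => G (x, y, z) ^ 2) ≤ Λ)
    (hy : ∀ x ∈ A, ∀ z ∈ C, (avg B fun y => G (x, y, z) ^ 2) ≤ Λ)
    (hz : ∀ x ∈ A, ∀ y ∈ B, (avg C fun z => G (x, y, z) ^ 2) ≤ Λ)
    (u : ι → ℤ → ℤ → ℝ) (hw : ∀ x ∈ A, ∀ y ∈ B, ∑ l, u l x y ^ 2 ≤ W ^ 2)
    (hUu : (avg A fun x => avg B fun y => ∑ l, u l x y ^ 2) ≤ U ^ 2)
    (Z : Finset ℤ) (hZ : Z ⊆ C) (φ : ℤ → ℤ → ℝ)
    (h1 : ∀ z ∈ Z, (avg B fun y => φ z y ^ 2) ≤ 1)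
    (h2 : ∀ z ∈ Z, τ ^ 2 ≤
      avg A fun x => ∑ l, (avg B fun y => φ z y * (u l x y * G (x, y, z))) ^ 2) :
    (Z.card : ℝ) / C.card ≤ capMu δ e Λ W U s0 τ := by
  classical
  have hCc : (0 : ℝ) < C.card := by exact_mod_cast Finset.card_pos.mpr hC
  rcases Z.eq_empty_or_nonempty with rfl | hZne
  · simp only [Finset.card_empty, Nat.cast_zero, zero_div]
    exact capMu_nonneg
  set β : ℝ := (Z.card : ℝ) / C.card with hβ
  have hZc : (0 : ℝ) < Z.card := by exact_mod_cast Finset.card_pos.mpr hZne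
  have hβ0 : 0 < β := div_pos hZc hCc
  have havZ1 : avg C (fun z => if z ∈ Z then (1 : ℝ) else 0) = β := by
    unfold avg
    rw [← Finset.sum_filter, Finset.filter_mem_eq_inter, Finset.inter_eq_right.mpr hZ,
      Finset.sum_const, nsmul_eq_mul, mul_one, hβ, div_eq_inv_mul]
  -- the composite vector
  set c : ι → ℤ → ℤ → ℝ := fun l x z => avg B fun y => φ z y * (u l x y * G (x, y, z)) with hc
  set N : ℤ → ℝ := fun z => Real.sqrt (avg A fun x => ∑ l, c l x z ^ 2) with hN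
  have hN1 : ∀ z ∈ Z, τ ≤ N z := fun z hz' => Real.le_sqrt_of_sq_le (h2 z hz')
  have hNsq : ∀ z, N z ^ 2 = avg A fun x => ∑ l, c l x z ^ 2 := fun z =>
    Real.sq_sqrt (avg_nonneg fun _ _ => Finset.sum_nonneg fun _ _ => sq_nonneg _)
  have hN0 : ∀ z ∈ Z, 0 < N z := fun z hz' => hτ.trans_le (hN1 z hz')
  set b : ι → ℤ → ℤ → ℝ := fun l x z => if z ∈ Z then c l x z / N z else 0 with hb
  have hbZ : ∀ l x, ∀ z ∈ Z, b l x z = c l x z / N z := fun l x z hz' => by
    simp only [hb, if_pos hz']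
  have hbn : ∀ l x z, z ∉ Z → b l x z = 0 := fun l x z hz' => by simp only [hb, if_neg hz']
  have hb1 : ∀ z ∈ Z, (avg A fun x => ∑ l, b l x z ^ 2) = 1 := by
    intro z hz'
    have e1 : ∀ x ∈ A, ∑ l, b l x z ^ 2 = (N z ^ 2)⁻¹ * ∑ l, c l x z ^ 2 := by
      intro x _
      rw [Finset.mul_sum]
      refine Finset.sum_congr rfl fun l _ => ?_
      rw [hbZ l x z hz', div_pow]; ring
    have h0 := hN0 z hz'
    rw [avg_congr e1, avg_mul_left, ← hNsq, inv_mul_cancel₀ (by positivity)]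
  have hbsup : ∀ x ∈ A, ∀ z ∈ C, ∑ l, b l x z ^ 2 ≤ W ^ 2 * Λ / τ ^ 2 := by
    intro x hx' z hz'
    by_cases hzZ : z ∈ Z
    · have h3 : ∑ l, c l x z ^ 2 ≤ W ^ 2 * Λ := by
        have h4 : ∀ l, c l x z ^ 2 ≤ avg B fun y => (u l x y * G (x, y, z)) ^ 2 := by
          intro l
          have h5 := avg_mul_sq_le B (fun y => φ z y) (fun y => u l x y * G (x, y, z))
          refine h5.trans ?_
          have h6 : 0 ≤ avg B fun y => (u l x y * G (x, y, z)) ^ 2 :=
            avg_nonneg fun _ _ => sq_nonneg _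
          nlinarith [h1 z hzZ]
        calc ∑ l, c l x z ^ 2 ≤ ∑ l, avg B fun y => (u l x y * G (x, y, z)) ^ 2 :=
              Finset.sum_le_sum fun l _ => h4 l
          _ = avg B fun y => ∑ l, (u l x y * G (x, y, z)) ^ 2 := (avg_sum _ _ _).symm
          _ ≤ avg B fun y => W ^ 2 * G (x, y, z) ^ 2 := by
              refine avg_mono fun y hy' => ?_
              have e1 : ∑ l, (u l x y * G (x, y, z)) ^ 2 = (∑ l, u l x y ^ 2) * G (x, y, z) ^ 2 := by
                rw [Finset.sum_mul]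
                exact Finset.sum_congr rfl fun l _ => by ring
              rw [e1]
              exact mul_le_mul_of_nonneg_right (hw x hx' y hy') (sq_nonneg _)
          _ = W ^ 2 * avg B fun y => G (x, y, z) ^ 2 := avg_mul_left _ _ _
          _ ≤ W ^ 2 * Λ := mul_le_mul_of_nonneg_left (hy x hx' z hz') (sq_nonneg _)
      have e1 : ∑ l, b l x z ^ 2 = (∑ l, c l x z ^ 2) / N z ^ 2 := by
        rw [Finset.sum_div]
        exact Finset.sum_congr rfl fun l _ => by rw [hbZ l x z hzZ, div_pow]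
      rw [e1]
      exact div_le_div₀ (by positivity) h3 (by positivity)
        (pow_le_pow_left₀ hτ.le (hN1 z hzZ) 2)
    · have e1 : ∑ l, b l x z ^ 2 = 0 := Finset.sum_eq_zero fun l _ => by
        rw [hbn l x z hzZ]; ring
      rw [e1]; positivity
  -- the second step of the power iteration
  set v : ℤ → ℤ → ℝ := fun y z => avg A fun x => ∑ l, b l x z * (u l x y * G (x, y, z)) with hv
  set N' : ℤ → ℝ := fun z => Real.sqrt (avg B fun y => v y z ^ 2) with hN'
  have hN'sq : ∀ z, N' z ^ 2 = avg B fun y => v y z ^ 2 := fun z =>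
    Real.sq_sqrt (avg_nonneg fun _ _ => sq_nonneg _)
  have hN'1 : ∀ z ∈ Z, τ ≤ N' z := by
    intro z hz'
    refine (hN1 z hz').trans ?_
    have e1 : (avg B fun y => φ z y * v y z) = N z := by
      have e2 : ∀ y ∈ B, φ z y * v y z =
          avg A fun x => ∑ l, b l x z * (φ z y * (u l x y * G (x, y, z))) := by
        intro y _
        rw [← avg_mul_left]
        refine avg_congr fun x _ => ?_
        rw [Finset.mul_sum]
        exact Finset.sum_congr rfl fun l _ => by ring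
      rw [avg_congr e2, avg_comm]
      have e3 : ∀ x ∈ A, (avg B fun y => ∑ l, b l x z * (φ z y * (u l x y * G (x, y, z)))) =
          (N z)⁻¹ * ∑ l, c l x z ^ 2 := by
        intro x _
        rw [avg_sum, Finset.mul_sum]
        refine Finset.sum_congr rfl fun l _ => ?_
        rw [avg_mul_left, hbZ l x z hz']
        show c l x z / N z * c l x z = _
        rw [div_eq_mul_inv]; ring
      have h0 := hN0 z hz'
      rw [avg_congr e3, avg_mul_left, ← hNsq]
      field_simp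
    rw [← e1]
    refine (avg_mul_le_sqrt B _ _).trans ?_
    have h3 : Real.sqrt (avg B fun y => φ z y ^ 2) ≤ 1 := Real.sqrt_le_one.mpr (h1 z hz')
    calc _ ≤ 1 * N' z := mul_le_mul_of_nonneg_right h3 (Real.sqrt_nonneg _)
      _ = N' z := one_mul _
  have hN'0 : ∀ z ∈ Z, 0 < N' z := fun z hz' => hτ.trans_le (hN'1 z hz')
  have hvsup : ∀ y ∈ B, ∀ z ∈ Z, |v y z| ≤ W * Real.sqrt Λ := by
    intro y hy' z hz'
    refine abs_le_of_sq_le_sq ?_ (by positivity)
    have h3 : v y z ^ 2 ≤ (avg A fun x => ∑ l, b l x z ^ 2) *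
        avg A fun x => ∑ l, (u l x y * G (x, y, z)) ^ 2 := by
      have h4 : ∀ x ∈ A, ∑ l, b l x z * (u l x y * G (x, y, z)) ≤
          Real.sqrt (∑ l, b l x z ^ 2) * Real.sqrt (∑ l, (u l x y * G (x, y, z)) ^ 2) := by
        intro x _
        rw [← Real.sqrt_mul (Finset.sum_nonneg fun _ _ => sq_nonneg _)]
        exact Real.le_sqrt_of_sq_le (Finset.sum_mul_sq_le_sq_mul_sq _ _ _)
      have h4' : ∀ x ∈ A, |∑ l, b l x z * (u l x y * G (x, y, z))| ≤
          Real.sqrt (∑ l, b l x z ^ 2) * Real.sqrt (∑ l, (u l x y * G (x, y, z)) ^ 2) := by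
        intro x _
        rw [← Real.sqrt_mul (Finset.sum_nonneg fun _ _ => sq_nonneg _)]
        exact Real.abs_le_sqrt (Finset.sum_mul_sq_le_sq_mul_sq _ _ _)
      have h5 : |v y z| ≤ avg A fun x => Real.sqrt (∑ l, b l x z ^ 2) *
          Real.sqrt (∑ l, (u l x y * G (x, y, z)) ^ 2) :=
        (abs_avg_le A _).trans (avg_mono h4')
      have h6 : v y z ^ 2 ≤ (avg A fun x => Real.sqrt (∑ l, b l x z ^ 2) *
          Real.sqrt (∑ l, (u l x y * G (x, y, z)) ^ 2)) ^ 2 := by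
        rw [← sq_abs]; exact pow_le_pow_left₀ (abs_nonneg _) h5 2
      refine h6.trans ((avg_mul_sq_le A _ _).trans (le_of_eq ?_))
      congr 1
      · exact avg_congr fun x _ => Real.sq_sqrt (Finset.sum_nonneg fun _ _ => sq_nonneg _)
      · exact avg_congr fun x _ => Real.sq_sqrt (Finset.sum_nonneg fun _ _ => sq_nonneg _)
    rw [hb1 z hz', one_mul] at h3
    refine h3.trans ?_
    calc (avg A fun x => ∑ l, (u l x y * G (x, y, z)) ^ 2)
        ≤ avg A fun x => W ^ 2 * G (x, y, z) ^ 2 := by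
          refine avg_mono fun x hx' => ?_
          have e1 : ∑ l, (u l x y * G (x, y, z)) ^ 2 = (∑ l, u l x y ^ 2) * G (x, y, z) ^ 2 := by
            rw [Finset.sum_mul]
            exact Finset.sum_congr rfl fun l _ => by ring
          rw [e1]
          exact mul_le_mul_of_nonneg_right (hw x hx' y hy') (sq_nonneg _)
      _ = W ^ 2 * avg A fun x => G (x, y, z) ^ 2 := avg_mul_left _ _ _
      _ ≤ W ^ 2 * Λ := mul_le_mul_of_nonneg_left (hx y hy' z (hZ hz')) (sq_nonneg _)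
      _ = (W * Real.sqrt Λ) ^ 2 := by rw [mul_pow, Real.sq_sqrt hΛ]
  set E : ℝ := W * Real.sqrt Λ / τ with hE
  have hE0 : 0 ≤ E := by positivity
  set ee : ℤ → ℤ → ℝ := fun y z => if z ∈ Z then v y z / N' z else 0 with hee
  have heesup : ∀ y ∈ B, ∀ z, |ee y z| ≤ E := by
    intro y hy' z
    by_cases hzZ : z ∈ Z
    · simp only [hee, if_pos hzZ]
      rw [abs_div, abs_of_pos (hN'0 z hzZ)]
      exact div_le_div₀ (by positivity) (hvsup y hy' z hzZ) hτ (hN'1 z hzZ)
    · simp only [hee, if_neg hzZ, abs_zero]; exact hE0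
  have hee1 : ∀ z ∈ Z, (avg B fun y => ee y z ^ 2) = 1 := by
    intro z hz'
    have e1 : ∀ y ∈ B, ee y z ^ 2 = (N' z ^ 2)⁻¹ * v y z ^ 2 := by
      intro y _
      simp only [hee, if_pos hz']
      rw [div_pow]; ring
    have h0 := hN'0 z hz'
    rw [avg_congr e1, avg_mul_left, ← hN'sq, inv_mul_cancel₀ (by positivity)]
  have hee0 : ∀ y z, z ∉ Z → ee y z = 0 := fun y z hz' => by simp only [hee, if_neg hz']
  -- the bilinear forms at fixed `x`
  set R : ℝ := E * Real.sqrt Λ with hR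
  have hR0 : 0 ≤ R := by positivity
  have hM1 : ∀ x ∈ A, ∀ y ∈ B, (avg C fun z => (ee y z * G (x, y, z)) ^ 2) ≤ R ^ 2 := by
    intro x hx' y hy'
    calc (avg C fun z => (ee y z * G (x, y, z)) ^ 2)
        ≤ avg C fun z => E ^ 2 * G (x, y, z) ^ 2 := by
          refine avg_mono fun z _ => ?_
          rw [mul_pow]
          refine mul_le_mul_of_nonneg_right ?_ (sq_nonneg _)
          rw [← sq_abs (ee y z)]
          exact pow_le_pow_left₀ (abs_nonneg _) (heesup y hy' z) 2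
      _ = E ^ 2 * avg C fun z => G (x, y, z) ^ 2 := avg_mul_left _ _ _
      _ ≤ E ^ 2 * Λ := mul_le_mul_of_nonneg_left (hz x hx' y hy') (sq_nonneg _)
      _ = R ^ 2 := by rw [hR, mul_pow, Real.sq_sqrt hΛ]
  have hM2 : ∀ x ∈ A, ∀ z ∈ C, (avg B fun y => (ee y z * G (x, y, z)) ^ 2) ≤ R ^ 2 := by
    intro x hx' z hz'
    calc (avg B fun y => (ee y z * G (x, y, z)) ^ 2)
        ≤ avg B fun y => E ^ 2 * G (x, y, z) ^ 2 := by
          refine avg_mono fun y hy' => ?_
          rw [mul_pow]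
          refine mul_le_mul_of_nonneg_right ?_ (sq_nonneg _)
          rw [← sq_abs (ee y z)]
          exact pow_le_pow_left₀ (abs_nonneg _) (heesup y hy' z) 2
      _ = E ^ 2 * avg B fun y => G (x, y, z) ^ 2 := avg_mul_left _ _ _
      _ ≤ E ^ 2 * Λ := mul_le_mul_of_nonneg_left (hy x hx' z hz') (sq_nonneg _)
      _ = R ^ 2 := by rw [hR, mul_pow, Real.sq_sqrt hΛ]
  set X : ℤ → ℝ := fun x => avg B fun y => avg C fun z =>
    (ee y z * G (x, y, z)) * ∑ l, u l x y * b l x z with hX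
  have hlow : τ * β ≤ avg A X := by
    have e1 : avg A X = avg C fun z => if z ∈ Z then N' z else 0 := by
      have e2 : ∀ x ∈ A, X x = avg C fun z => avg B fun y =>
          (ee y z * G (x, y, z)) * ∑ l, u l x y * b l x z := fun x _ => avg_comm _ _ _
      rw [avg_congr e2, avg_comm]
      refine avg_congr fun z hz' => ?_
      rw [avg_comm]
      by_cases hzZ : z ∈ Z
      · rw [if_pos hzZ]
        have e3 : ∀ y ∈ B, (avg A fun x => (ee y z * G (x, y, z)) * ∑ l, u l x y * b l x z) =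
            (N' z)⁻¹ * v y z ^ 2 := by
          intro y _
          have e4 : ∀ x ∈ A, (ee y z * G (x, y, z)) * ∑ l, u l x y * b l x z =
              ee y z * ∑ l, b l x z * (u l x y * G (x, y, z)) := by
            intro x _
            rw [Finset.mul_sum, Finset.mul_sum]
            exact Finset.sum_congr rfl fun l _ => by ring
          rw [avg_congr e4, avg_mul_left]
          show ee y z * v y z = _
          simp only [hee, if_pos hzZ]
          ring
        have h0 := hN'0 z hzZ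
        rw [avg_congr e3, avg_mul_left, ← hN'sq]
        field_simp
      · rw [if_neg hzZ]
        have e3 : ∀ y ∈ B, (avg A fun x => (ee y z * G (x, y, z)) * ∑ l, u l x y * b l x z) = 0 := by
          intro y _
          have e4 : ∀ x ∈ A, (ee y z * G (x, y, z)) * ∑ l, u l x y * b l x z = 0 := by
            intro x _
            rw [hee0 y z hzZ]; ring
          rw [avg_congr e4, avg_const hA]
        rw [avg_congr e3, avg_const hB]
    rw [e1, ← havZ1, ← avg_mul_left]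
    refine avg_mono fun z _ => ?_
    by_cases hzZ : z ∈ Z
    · rw [if_pos hzZ, if_pos hzZ, mul_one]; exact hN'1 z hzZ
    · rw [if_neg hzZ, if_neg hzZ, mul_zero]
  set p : ℤ → ℝ := fun x => Real.sqrt (avg B fun y => ∑ l, u l x y ^ 2) with hp
  set q : ℤ → ℝ := fun x => Real.sqrt (avg C fun z => ∑ l, b l x z ^ 2) with hq
  have hp0 : ∀ x, 0 ≤ p x := fun x => Real.sqrt_nonneg _
  have hq0 : ∀ x, 0 ≤ q x := fun x => Real.sqrt_nonneg _
  have hpsq : ∀ x, p x ^ 2 = avg B fun y => ∑ l, u l x y ^ 2 := fun x =>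
    Real.sq_sqrt (avg_nonneg fun _ _ => Finset.sum_nonneg fun _ _ => sq_nonneg _)
  have hqsq : ∀ x, q x ^ 2 = avg C fun z => ∑ l, b l x z ^ 2 := fun x =>
    Real.sq_sqrt (avg_nonneg fun _ _ => Finset.sum_nonneg fun _ _ => sq_nonneg _)
  have hpick : ∀ x ∈ A, ∃ f g : ℤ → ℝ, (avg B fun y => f y ^ 2) ≤ 1 ∧
      (avg C fun z => g z ^ 2) ≤ 1 ∧
      (∀ y ∈ B, |f y| ≤ R / s0) ∧ (∀ z ∈ C, |g z| ≤ R / s0) ∧
      0 ≤ (avg B fun y => avg C fun z => (ee y z * G (x, y, z)) * (f y * g z)) ∧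
      X x ≤ p x * q x *
        (s0 + avg B fun y => avg C fun z => (ee y z * G (x, y, z)) * (f y * g z)) :=
    fun x hx' => pick hR0 hs (hM1 x hx') (hM2 x hx') (fun l y => u l x y) (fun l z => b l x z)
  choose! f g hf1 hg1 hfs hgs hfg0 hXle using hpick
  let u12 : ℤ × ℤ → ℝ := fun r => p r.1 * f r.1 r.2
  let u13 : ℤ × ℤ → ℝ := fun r => q r.1 * g r.1 r.2
  let u23 : ℤ × ℤ → ℝ := fun r => ee r.1 r.2
  have hpair : avg (A ×ˢ B ×ˢ C) (fun r => G r * atm (u12, u13, u23) r) =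
      avg A fun x => p x * q x *
        (avg B fun y => avg C fun z => (ee y z * G (x, y, z)) * (f x y * g x z)) := by
    rw [avg_prod]
    refine avg_congr fun x _ => ?_
    rw [avg_prod, ← avg_mul_left]
    refine avg_congr fun y _ => ?_
    rw [← avg_mul_left]
    refine avg_congr fun z _ => ?_
    simp only [atm, e12, e13, e23, u12, u13, u23]
    ring
  have hp2 : (avg A fun x => p x ^ 2) ≤ U ^ 2 := by
    rw [avg_congr fun x _ => hpsq x]; exact hUu
  have hq2 : (avg A fun x => q x ^ 2) ≤ β := by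
    rw [avg_congr fun x _ => hqsq x, avg_comm, ← havZ1]
    refine avg_mono fun z _ => ?_
    by_cases hzZ : z ∈ Z
    · rw [if_pos hzZ, hb1 z hzZ]
    · rw [if_neg hzZ]
      have e3 : ∀ x ∈ A, ∑ l, b l x z ^ 2 = 0 := by
        intro x _
        exact Finset.sum_eq_zero fun l _ => by rw [hbn l x z hzZ]; ring
      rw [avg_congr e3, avg_const hA]
  have hpq : (avg A fun x => p x * q x) ≤ U * Real.sqrt β := by
    refine (avg_mul_le_sqrt A _ _).trans ?_
    have h3 : Real.sqrt (avg A fun x => p x ^ 2) ≤ U := by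
      rw [← Real.sqrt_sq hU0]; exact Real.sqrt_le_sqrt hp2
    exact mul_le_mul h3 (Real.sqrt_le_sqrt hq2) (Real.sqrt_nonneg _) hU0
  -- the three norms
  have hN12 : Nm e (A ×ˢ B) u12 ≤ (U ^ 2) ^ ((1 - e) / 2) * (W * (R / s0)) ^ e := by
    refine Nm_le he0.le he1 (by positivity) ?_ ?_
    · rw [avg_prod]
      refine le_trans (avg_mono fun x hx' => ?_) hp2
      have e3 : ∀ y ∈ B, u12 (x, y) ^ 2 = p x ^ 2 * f x y ^ 2 := fun y _ => by
        simp only [u12]; ring
      rw [avg_congr e3, avg_mul_left]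
      have := mul_le_mul_of_nonneg_left (hf1 x hx') (sq_nonneg (p x))
      linarith
    · rintro ⟨x, y⟩ hr
      rw [Finset.mem_product] at hr
      simp only [u12]
      rw [abs_mul, abs_of_nonneg (hp0 x)]
      refine mul_le_mul ?_ (hfs x hr.1 y hr.2) (abs_nonneg _) hW
      refine abs_le_of_sq_le_sq' ?_ hW |>.2
      rw [hpsq]
      calc (avg B fun y => ∑ l, u l x y ^ 2) ≤ avg B fun _ => W ^ 2 :=
            avg_mono fun y hy' => hw x hr.1 y hy'
        _ = W ^ 2 := avg_const hB _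
  have hqsup : ∀ x ∈ A, q x ≤ W * Real.sqrt Λ / τ := by
    intro x hx'
    refine abs_le_of_sq_le_sq' ?_ (by positivity) |>.2
    rw [hqsq]
    calc (avg C fun z => ∑ l, b l x z ^ 2) ≤ avg C fun _ => W ^ 2 * Λ / τ ^ 2 :=
          avg_mono fun z hz' => hbsup x hx' z hz'
      _ = W ^ 2 * Λ / τ ^ 2 := avg_const hC _
      _ = (W * Real.sqrt Λ / τ) ^ 2 := by rw [div_pow, mul_pow, Real.sq_sqrt hΛ]
  have hN13 : Nm e (A ×ˢ C) u13 ≤ β ^ ((1 - e) / 2) * (E * (R / s0)) ^ e := by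
    refine Nm_le he0.le he1 (by positivity) ?_ ?_
    · rw [avg_prod]
      refine le_trans (avg_mono fun x hx' => ?_) hq2
      have e3 : ∀ z ∈ C, u13 (x, z) ^ 2 = q x ^ 2 * g x z ^ 2 := fun z _ => by
        simp only [u13]; ring
      rw [avg_congr e3, avg_mul_left]
      have := mul_le_mul_of_nonneg_left (hg1 x hx') (sq_nonneg (q x))
      linarith
    · rintro ⟨x, z⟩ hr
      rw [Finset.mem_product] at hr
      simp only [u13]
      rw [abs_mul, abs_of_nonneg (hq0 x)]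
      exact mul_le_mul (hqsup x hr.1) (hgs x hr.1 z hr.2) (abs_nonneg _) hE0
  have hN23 : Nm e (B ×ˢ C) u23 ≤ β ^ ((1 - e) / 2) * E ^ e := by
    refine Nm_le he0.le he1 hE0 ?_ ?_
    · rw [avg_prod, avg_comm, ← havZ1]
      refine avg_mono fun z _ => ?_
      by_cases hzZ : z ∈ Z
      · rw [if_pos hzZ]; exact (hee1 z hzZ).le
      · rw [if_neg hzZ]
        have e3 : ∀ y ∈ B, u23 (y, z) ^ 2 = 0 := fun y _ => by
          simp only [u23]; rw [hee0 y z hzZ]; ring
        rw [avg_congr e3, avg_const hB]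
    · rintro ⟨y, z⟩ hr
      rw [Finset.mem_product] at hr
      exact heesup y hr.1 z
  -- conclusion
  have key : τ * β ≤ s0 * (U * Real.sqrt β) +
      δ * (((U ^ 2) ^ ((1 - e) / 2) * (W * (R / s0)) ^ e) *
        (β ^ ((1 - e) / 2) * (E * (R / s0)) ^ e) * (β ^ ((1 - e) / 2) * E ^ e)) := by
    have h3 : avg A X ≤ s0 * (avg A fun x => p x * q x) +
        avg (A ×ˢ B ×ˢ C) (fun r => G r * atm (u12, u13, u23) r) := by
      rw [hpair, ← avg_mul_left, ← avg_add]
      refine avg_mono fun x hx' => (hXle x hx').trans (le_of_eq ?_)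
      ring
    have h4 := hU (u12, u13, u23)
    have h5 : avg (A ×ˢ B ×ˢ C) (fun r => G r * atm (u12, u13, u23) r) ≤
        δ * (((U ^ 2) ^ ((1 - e) / 2) * (W * (R / s0)) ^ e) *
        (β ^ ((1 - e) / 2) * (E * (R / s0)) ^ e) * (β ^ ((1 - e) / 2) * E ^ e)) := by
      refine (le_abs_self _).trans (h4.trans ?_)
      refine mul_le_mul_of_nonneg_left ?_ hδ
      have p1 := Nm_nonneg e (A ×ˢ B) u12
      have p2 := Nm_nonneg e (A ×ˢ C) u13
      have p3 := Nm_nonneg e (B ×ˢ C) u23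
      exact mul_le_mul (mul_le_mul hN12 hN13 p2 (p1.trans hN12)) hN23 p3
        (mul_nonneg (p1.trans hN12) (p2.trans hN13))
    have h6 := mul_le_mul_of_nonneg_left hpq hs.le
    linarith
  have hsb : 0 < Real.sqrt β := Real.sqrt_pos.mpr hβ0
  have hsb2 : Real.sqrt β * Real.sqrt β = β := Real.mul_self_sqrt hβ0.le
  unfold capMu
  rcases le_or_gt (τ * β) (2 * (s0 * (U * Real.sqrt β))) with hc1 | hc1
  · refine le_max_of_le_left ?_
    have h3 : Real.sqrt β ≤ 2 * s0 * U / τ := by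
      rw [le_div_iff₀ hτ]
      have h4 : Real.sqrt β * τ * Real.sqrt β ≤ 2 * s0 * U * Real.sqrt β := by
        calc Real.sqrt β * τ * Real.sqrt β = τ * (Real.sqrt β * Real.sqrt β) := by ring
          _ = τ * β := by rw [hsb2]
          _ ≤ _ := hc1
          _ = _ := by ring
      exact le_of_mul_le_mul_right h4 hsb
    calc β = Real.sqrt β ^ 2 := (Real.sq_sqrt hβ0.le).symm
      _ ≤ _ := pow_le_pow_left₀ hsb.le h3 2
  · refine le_max_of_le_right ?_
    have hβp : β ^ ((1 - e) / 2) * β ^ ((1 - e) / 2) = β ^ (1 - e) := by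
      rw [← Real.rpow_add hβ0]; congr 1; ring
    have hUp : (U ^ 2) ^ ((1 - e) / 2) = U ^ (1 - e) := by
      rw [← Real.rpow_natCast, ← Real.rpow_mul hU0]; congr 1; push_cast; ring
    have hprod : (W * (R / s0)) ^ e * (E * (R / s0)) ^ e * E ^ e =
        (W ^ 5 * Λ ^ 3 / (τ ^ 4 * s0 ^ 2)) ^ e := by
      rw [← Real.mul_rpow (by positivity) (by positivity),
        ← Real.mul_rpow (by positivity) (by positivity)]
      congr 1
      rw [hR, hE]
      have h7 : Real.sqrt Λ ^ 6 = Λ ^ 3 := by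
        calc Real.sqrt Λ ^ 6 = (Real.sqrt Λ ^ 2) ^ 3 := by ring
          _ = Λ ^ 3 := by rw [Real.sq_sqrt hΛ]
      rw [← h7]
      field_simp
    have key2 : τ * β ≤ (2 * δ * U ^ (1 - e)) *
        (W ^ 5 * Λ ^ 3 / (τ ^ 4 * s0 ^ 2)) ^ e * β ^ (1 - e) := by
      have h3 : τ * β ≤ 2 * (δ * (((U ^ 2) ^ ((1 - e) / 2) * (W * (R / s0)) ^ e) *
        (β ^ ((1 - e) / 2) * (E * (R / s0)) ^ e) * (β ^ ((1 - e) / 2) * E ^ e))) := by linarith
      calc τ * β ≤ _ := h3
        _ = (2 * δ * (U ^ 2) ^ ((1 - e) / 2)) *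
            ((W * (R / s0)) ^ e * (E * (R / s0)) ^ e * E ^ e) *
            (β ^ ((1 - e) / 2) * β ^ ((1 - e) / 2)) := by ring
        _ = _ := by rw [hβp, hprod, hUp]
    have hβe : β = β ^ e * β ^ (1 - e) := by
      rw [← Real.rpow_add hβ0]
      simp
    have hβe0 : 0 < β ^ (1 - e) := Real.rpow_pos_of_pos hβ0 _
    have hS0 : 0 ≤ W ^ 5 * Λ ^ 3 / (τ ^ 4 * s0 ^ 2) := by positivity
    have hD0 : 0 ≤ 2 * δ * U ^ (1 - e) := by positivity
    have key3 : β ^ e ≤ (2 * δ * U ^ (1 - e) / τ) * (W ^ 5 * Λ ^ 3 / (τ ^ 4 * s0 ^ 2)) ^ e := by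
      have h3 : τ * β ^ e * β ^ (1 - e) ≤ (2 * δ * U ^ (1 - e)) *
        (W ^ 5 * Λ ^ 3 / (τ ^ 4 * s0 ^ 2)) ^ e * β ^ (1 - e) := by
        calc τ * β ^ e * β ^ (1 - e) = τ * β := by rw [mul_assoc, ← hβe]
          _ ≤ _ := key2
      have h4 := le_of_mul_le_mul_right h3 hβe0
      rw [div_mul_eq_mul_div, le_div_iff₀ hτ, mul_comm (β ^ e)]
      exact h4
    have h5 : β = (β ^ e) ^ (1 / e) := by
      rw [← Real.rpow_mul hβ0.le, mul_one_div_cancel he0.ne', Real.rpow_one]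
    calc β = (β ^ e) ^ (1 / e) := h5
      _ ≤ ((2 * δ * U ^ (1 - e) / τ) * (W ^ 5 * Λ ^ 3 / (τ ^ 4 * s0 ^ 2)) ^ e) ^ (1 / e) :=
          Real.rpow_le_rpow (Real.rpow_nonneg hβ0.le _) key3 (by positivity)
      _ = (2 * δ * U ^ (1 - e) / τ) ^ (1 / e) * (W ^ 5 * Λ ^ 3 / (τ ^ 4 * s0 ^ 2)) := by
          rw [Real.mul_rpow (by positivity) (Real.rpow_nonneg hS0 _), ← Real.rpow_mul hS0,
            mul_one_div_cancel he0.ne', Real.rpow_one]

/-- **Caps of composite slices**: outside a set `Z` of slices of small measure the slices have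
norm at most `τ`. -/
theorem comp_cap {ι : Type*} [Fintype ι] {δ e Λ W U s0 τ : ℝ} (hδ : 0 ≤ δ) (he0 : 0 < e)
    (he1 : e ≤ 1) (hΛ : 0 ≤ Λ) (hW : 0 ≤ W) (hU0 : 0 ≤ U) (hs : 0 < s0) (hτ : 0 < τ)
    {A B C : Finset ℤ} (hA : A.Nonempty) (hB : B.Nonempty) (hC : C.Nonempty)
    {G : ℤ × ℤ × ℤ → ℝ} (hU : UnifBox δ e A B C G)
    (hx : ∀ y ∈ B, ∀ z ∈ C, (avg A fun x => G (x, y, z) ^ 2) ≤ Λ)
    (hy : ∀ x ∈ A, ∀ z ∈ C, (avg B fun y => G (x, y, z) ^ 2) ≤ Λ)
    (hz : ∀ x ∈ A, ∀ y ∈ B, (avg C fun z => G (x, y, z) ^ 2) ≤ Λ)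
    (u : ι → ℤ → ℤ → ℝ) (hw : ∀ x ∈ A, ∀ y ∈ B, ∑ l, u l x y ^ 2 ≤ W ^ 2)
    (hUu : (avg A fun x => avg B fun y => ∑ l, u l x y ^ 2) ≤ U ^ 2) :
    ∃ Z ⊆ C, (Z.card : ℝ) / C.card ≤ capMu δ e Λ W U s0 τ ∧
      ∀ z ∈ C, z ∉ Z → ∀ φ : ℤ → ℝ,
        (avg A fun x => ∑ l, (avg B fun y => φ y * (u l x y * G (x, y, z))) ^ 2) ≤
          τ ^ 2 * avg B fun y => φ y ^ 2 := by
  classical
  let P : ℤ → Prop := fun z => ∃ φ : ℤ → ℝ, (avg B fun y => φ y ^ 2) ≤ 1 ∧
    τ ^ 2 ≤ avg A fun x => ∑ l, (avg B fun y => φ y * (u l x y * G (x, y, z))) ^ 2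
  have hch : ∀ z, ∃ φ : ℤ → ℝ, P z → (avg B fun y => φ y ^ 2) ≤ 1 ∧
      τ ^ 2 ≤ avg A fun x => ∑ l, (avg B fun y => φ y * (u l x y * G (x, y, z))) ^ 2 := by
    intro z
    by_cases h : P z
    · obtain ⟨φ, h1, h2⟩ := h
      exact ⟨φ, fun _ => ⟨h1, h2⟩⟩
    · exact ⟨fun _ => 0, fun h' => absurd h' h⟩
  choose φ hφ using hch
  refine ⟨C.filter P, Finset.filter_subset _ _, ?_, ?_⟩
  · exact comp_bad hδ he0 he1 hΛ hW hU0 hs hτ hA hB hC hU hx hy hz u hw hUu (C.filter P)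
      (Finset.filter_subset _ _) φ
      (fun z hz' => (hφ z (Finset.mem_filter.mp hz').2).1)
      (fun z hz' => (hφ z (Finset.mem_filter.mp hz').2).2)
  · intro z hz' hzn ψ
    have hnP : ¬ P z := fun h => hzn (Finset.mem_filter.mpr ⟨hz', h⟩)
    by_contra hcon
    rw [not_le] at hcon
    have hn0 : 0 ≤ avg B fun y => ψ y ^ 2 := avg_nonneg fun _ _ => sq_nonneg _
    rcases hn0.eq_or_lt with h0 | hpos
    · -- `ψ = 0` on `B`
      have hψ : ∀ y ∈ B, ψ y = 0 := by
        have hBc : (0 : ℝ) < B.card := by exact_mod_cast Finset.card_pos.mpr hB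
        have h3 : ∑ y ∈ B, ψ y ^ 2 = 0 := by
          unfold avg at h0
          rcases mul_eq_zero.mp h0.symm with h | h
          · exact absurd h (inv_ne_zero hBc.ne')
          · exact h
        intro y hy'
        have h4 := (Finset.sum_eq_zero_iff_of_nonneg fun _ _ => sq_nonneg _).mp h3 y hy'
        exact pow_eq_zero_iff (two_ne_zero) |>.mp h4
      have h5 : ∀ x ∈ A, ∑ l, (avg B fun y => ψ y * (u l x y * G (x, y, z))) ^ 2 = 0 := by
        intro x _
        refine Finset.sum_eq_zero fun l _ => ?_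
        have h6 : ∀ y ∈ B, ψ y * (u l x y * G (x, y, z)) = 0 := fun y hy' => by
          rw [hψ y hy', zero_mul]
        rw [avg_congr h6, avg_const hB]; ring
      rw [avg_congr h5, avg_const hA, ← h0, mul_zero] at hcon
      exact lt_irrefl _ hcon
    · set n : ℝ := Real.sqrt (avg B fun y => ψ y ^ 2) with hn
      have hn1 : 0 < n := Real.sqrt_pos.mpr hpos
      have hnsq : n ^ 2 = avg B fun y => ψ y ^ 2 := Real.sq_sqrt hn0
      refine hnP ⟨fun y => ψ y / n, ?_, ?_⟩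
      · have e1 : ∀ y ∈ B, (ψ y / n) ^ 2 = (n ^ 2)⁻¹ * ψ y ^ 2 := fun y _ => by
          rw [div_pow]; ring
        rw [avg_congr e1, avg_mul_left, ← hnsq, inv_mul_cancel₀ (by positivity)]
      · have e1 : ∀ x ∈ A, ∑ l, (avg B fun y => ψ y / n * (u l x y * G (x, y, z))) ^ 2 =
            (n ^ 2)⁻¹ * ∑ l, (avg B fun y => ψ y * (u l x y * G (x, y, z))) ^ 2 := by
          intro x _
          rw [Finset.mul_sum]
          refine Finset.sum_congr rfl fun l _ => ?_
          have e2 : ∀ y ∈ B, ψ y / n * (u l x y * G (x, y, z)) =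
              n⁻¹ * (ψ y * (u l x y * G (x, y, z))) := fun y _ => by ring
          rw [avg_congr e2, avg_mul_left, mul_pow, inv_pow]
        rw [avg_congr e1, avg_mul_left]
        rw [← hnsq] at hcon
        rw [← div_eq_inv_mul, le_div_iff₀ (by positivity)]
        exact hcon.le

end

end Vale.Agent.P141.H550
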