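import Vale.Agent.P141.H258.NbPack
import Vale.Agent.P141.H460.PBle
import Vale.Agent.P141.H811.NumPM
import Vale.Agent.P141.H816.FDat
import Vale.Agent.P141.H43.SeamPM
import Vale.Agent.P141.H677.SlotX

/-!
# P141, line (A), flow part, hub `x3`: the fields `cross` and `born` of the numbers of the stack

One slot, the grid shifted by `w`, one plane, any corner. `SP` : the square of one of the three
families at the point changes; `SP_Q` : then the standard cube of the point is near an affected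
square; `static_SP` : the mass of the function on these points; `cross_born`.
-/

namespace Vale.Agent.P141.H550.CrZ

open Finset Matrix
open Vale.Agent.P141.PL (Pt iv ix cb cx mem_iv mem_cb)
open Vale.Agent.P141.PL.H315 (Tri A2)
open Vale.Agent.P141.H48 (BSl sst)
open Vale.Agent.P141.H103 (GW)
open Vale.Agent.P141.H460 (GPack QPack nAff nA1 nA3)
open Vale.Agent.P141.H258 (nbQ)
open Vale.Agent.P141.H576 (QD Dd_sst QD_pack agree_kD)
open Vale.Agent.P141.H677 (rt kF)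
open Vale.Agent.P141.H677.Sk
open Vale.Agent.P141.H747 (sft shA shB shC RgS)
open Vale.Agent.P141.H795 (ys)
open Vale.Agent.P141.H505.Sk1 (Ch W3 eT)
open Vale.Agent.P141.H235.S1 (mW trW3)
open Vale.Agent.P141.H43 (nsq nsq_nonneg)
open Vale.Agent.P141.H43.Seam (WQ)

noncomputable section

open scoped Classical

set_option linter.unusedSectionVars false

/-! ### Sums -/

/-- translation into a set -/
theorem sum_tr (A B : Finset ℤ) (a : ℤ) {h G : ℤ → ℝ} (hG : ∀ x, 0 ≤ G x)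
    (hh : ∀ x, h x ≤ if x + a ∈ B then G (x + a) else 0) :
    ∑ x ∈ A, h x ≤ ∑ x ∈ B, G x := by
  calc ∑ x ∈ A, h x ≤ ∑ x ∈ A, (if x + a ∈ B then G (x + a) else 0) :=
        sum_le_sum fun x _ => hh x
    _ = ∑ x ∈ A.filter (fun x => x + a ∈ B), G (x + a) := (sum_filter _ _).symm
    _ = ∑ y ∈ (A.filter (fun x => x + a ∈ B)).image (fun x => x + a), G y := by
        rw [sum_image]
        intro x _ y _ hxy
        simpa using hxy
    _ ≤ ∑ x ∈ B, G x := by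
        refine sum_le_sum_of_subset_of_nonneg ?_ fun x _ _ => hG x
        intro y hy
        obtain ⟨x, hx, rfl⟩ := mem_image.1 hy
        exact (mem_filter.1 hx).2

theorem sum_tr2 (A A' B B' : Finset ℤ) (a b : ℤ) {h G : ℤ → ℤ → ℝ} (hG : ∀ x z, 0 ≤ G x z)
    (hh : ∀ x z, h x z ≤ if x + a ∈ B ∧ z + b ∈ B' then G (x + a) (z + b) else 0) :
    ∑ x ∈ A, ∑ z ∈ A', h x z ≤ ∑ x ∈ B, ∑ z ∈ B', G x z := by
  refine sum_tr A B a (h := fun x => ∑ z ∈ A', h x z) (G := fun x => ∑ z ∈ B', G x z)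
    (fun x => sum_nonneg fun z _ => hG x z) fun x => ?_
  split_ifs with hx
  · refine sum_tr A' B' b (hG _) fun z => ?_
    refine (hh x z).trans ?_
    by_cases hz : z + b ∈ B'
    · rw [if_pos ⟨hx, hz⟩, if_pos hz]
    · rw [if_neg (fun h => hz h.2), if_neg hz]
  · refine sum_nonpos fun z _ => (hh x z).trans (le_of_eq (if_neg fun h => hx h.1))

theorem sft_ne {E : Type*} [Zero E] {N : ℕ} {R S a b : ℤ} {f g : ℤ → ℤ → E} {x y : ℤ}
    (h : sft N R S a b f x y ≠ sft N R S a b g x y) : f (x + a) (y + b) ≠ g (x + a) (y + b) := by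
  intro e
  apply h
  unfold H747.sft
  rw [e]

/-! ### The marked points -/

variable {ι : Type} [Fintype ι] [DecidableEq ι]

/-- the near affected nodes -/
def nf (q : H401.Num) (U : Tri) (K : ℕ) (Q1 Q2 Q3 : ℕ → Pt → Prop) (o : ℤ) : ℕ → Pt → Prop :=
  nAff o (nbQ 6 fun k m => QD (fun k x y => sst q.Lm U.2.2 K k x y) Q1 k m.1 m.2.1 m.2.2)
    (nbQ 6 fun k m => QD (fun k x y => sst q.Lm U.2.1 K k x y) Q2 k m.1 m.2.1 m.2.2)
    (nbQ 6 fun k m => QD (fun k x y => sst q.Lm U.1 K k x y) Q3 k m.1 m.2.1 m.2.2)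

/-- the packing number -/
def PN (cP : ℝ) : ℝ := 28561 * (7 * (cP + 2))

theorem nf_pack {q : H401.Num} {n : ℕ} {e1 e2 e3 cP : ℝ} {F1 F2 F3 : ℕ → Pt → ℝ} {U : Tri}
    {K : ℕ} {Q1 Q2 Q3 : ℕ → Pt → Prop} (h1 : BSl n e1 cP F1 Q1) (h2 : BSl n e2 cP F2 Q2)
    (h3 : BSl n e3 cP F3 Q3) (hK : K ≤ n) {o : ℤ} (ho : o = 1 ∨ o = -1) :
    GPack (nf q U K Q1 Q2 Q3 o) K (PN cP) := by
  have a1 : QPack n (fun k m => QD (fun k x y => sst q.Lm U.2.2 K k x y) Q1 k m.1 m.2.1 m.2.2)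
      (cP + 2) := fun x0 K' hK' a b => QD_pack (Dd_sst q.Lm U.2.2 K) h1 x0 hK' a b
  have a2 : QPack n (fun k m => QD (fun k x y => sst q.Lm U.2.1 K k x y) Q2 k m.1 m.2.1 m.2.2)
      (cP + 2) := fun x0 K' hK' a b => QD_pack (Dd_sst q.Lm U.2.1 K) h2 x0 hK' a b
  have a3 : QPack n (fun k m => QD (fun k x y => sst q.Lm U.1 K k x y) Q3 k m.1 m.2.1 m.2.2)
      (cP + 2) := fun x0 K' hK' a b => QD_pack (Dd_sst q.Lm U.1 K) h3 x0 hK' a b
  have h := H258.gpack_nb a1 a2 a3 6 ho hK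
  have e : PN cP = ((2 * (6 : ℕ) + 1 : ℝ)) ^ 4 * (3 * (cP + 2) + (cP + 2) + 3 * (cP + 2)) := by
    unfold PN
    push_cast
    ring
  rw [e]
  exact h

/-- one of the three squares of the node of the point changes at the time `k` -/
def SP (ez : ℝ) (K : ℕ) (M w : Pt) (j : ℤ) (A : FamA) (b C : FamV ι) (k : ℕ) (y : Pt) : Prop :=
  Ch (fun k y' z => shA K M w (A y.1) (min k K) z y') k
      (ix k (ys (-y.1) w) - j - ix k (y.2.2 - w.2.2) - ix k (y.2.1 - w.1))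
      (ix k (y.2.2 - w.2.2)) ∨
    Ch (fun k x y' => shB K M w (b y.1) (min k K) x y') k (ix k (y.2.1 - w.1))
      (ix k (ys (-y.1) w) - j - ix k (y.2.2 - w.2.2) - ix k (y.2.1 - w.1)) ∨
    Ch (fun k x z => (√ez)⁻¹ • shC K M w (C y.1) (min k K) z x) k (ix k (y.2.1 - w.1))
      (ix k (y.2.2 - w.2.2))

variable {q : H401.Num} {n : ℕ} {ez : ℝ} {F1 F2 F3 : ℕ → Pt → ℝ} {K : ℕ} {x : Pt} {s r : ℝ}
  {U : Tri} {g : ℤ → ℤ → ℝ} {u v : ℤ → ℤ → ι → ℝ} {A : FamA} {b C : FamV ι}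
  {Q1 Q2 Q3 : ℕ → Pt → Prop} {v' : ℤ → ℤ → ι → ℝ}

/-- **A marked point lies over a near affected node.** -/
theorem SP_Q (h : FDs q n ez F1 F2 F3 K x s r U g u v A b C Q1 Q2 Q3 v') (hK : K ≤ n)
    {o : ℤ} (ho : o = 1 ∨ o = -1) {j : ℤ} (hj : 0 ≤ j) (hj2 : j ≤ 2) (w : Pt) {k : ℕ}
    (hk : k < K) {y : Pt} (hS : SP ez K (cx K x) w j A b C k y) :
    nf q U K Q1 Q2 Q3 o k (cx k y) := by
  have m1 : min (k + 1) K = k + 1 := min_eq_left hk
  have m2 : min k K = k := min_eq_left hk.le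
  have ey : cx k y = (ix k y.1, ix k (y.2.1 - w.1 + w.1), ix k (y.2.2 - w.2.2 + w.2.2)) := by
    rw [sub_add_cancel, sub_add_cancel]
    rfl
  rw [ey]
  rcases hS with hS | hS | hS
  · obtain ⟨y2, hy2, y3, hy3, hne⟩ := hS
    simp only [m1, m2] at hne
    have hne' := sft_ne hne
    refine Or.inl (H258.near1 (y2' := y2) (y3' := y3) hj hj2 ho ?_ (mem_iv.1 hy3) ?_)
    · rw [mem_iv.1 hy2]
      ring
    · by_contra hc
      exact hne' (h.agA y.1 k hk (ix k (y3 + w.2.2)) (ix k (y2 + w.2.1)) hc _ (mem_iv.2 rfl) _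
        (mem_iv.2 rfl))
  · obtain ⟨y1, hy1, y2, hy2, hne⟩ := hS
    simp only [m1, m2] at hne
    have hne' := sft_ne hne
    refine Or.inr (Or.inr (H258.near3 (y1' := y1) (y2' := y2) hj hj2 ho ?_ (mem_iv.1 hy1) ?_))
    · rw [mem_iv.1 hy2]
      ring
    · by_contra hc
      exact hne' (h.agb y.1 k hk (ix k (y1 + w.1)) (ix k (y2 + w.2.1)) hc _ (mem_iv.2 rfl) _
        (mem_iv.2 rfl))
  · obtain ⟨y1, hy1, y3, hy3, hne⟩ := hS
    simp only [m1, m2] at hne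
    have hne1 : shC K (cx K x) w (C y.1) (k + 1) y3 y1 ≠ shC K (cx K x) w (C y.1) k y3 y1 := by
      intro e
      apply hne
      rw [e]
    have hne' := sft_ne hne1
    refine Or.inr (Or.inl (H258.near2 (mem_iv.1 hy1) (mem_iv.1 hy3) ?_))
    by_contra hc
    apply hne'
    have h1 := agree_kD (Dd_sst q.Lm U.2.1 K) h.B2 (hk.trans_le hK) hc
      (x := y1 + w.1) (y := y3 + w.2.2) (mem_iv.2 rfl) (mem_iv.2 rfl)
    have h2 : kF q.Lm U.2.1 K F2 (k + 1) (y.1, y1 + w.1, y3 + w.2.2) =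
        kF q.Lm U.2.1 K F2 k (y.1, y1 + w.1, y3 + w.2.2) := h1
    rw [h.C_eq, h.C_eq, h2]

/-- **The mass of the function on the marked points.** -/
theorem static_SP {P : ℝ} (h : FDs q n ez F1 F2 F3 K x s r U g u v A b C Q1 Q2 Q3 v')
    (hC : H305.Cls K x s r P U g u v) (hez : 0 ≤ ez) (hΛ : 0 ≤ q.Lm) (hs : 0 ≤ s) (hK : K ≤ n)
    {o : ℤ} (ho : o = 1 ∨ o = -1) {j : ℤ} (hj : 0 ≤ j) (hj2 : j ≤ 2) (w : Pt) (t : ℤ) :
    ∑ k ∈ range K, ∑ y ∈ cb K (t, (cx K x).1, (cx K x).2.2),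
      (if SP ez K (cx K x) w j A b C k y then nsq (C y.1 (k + 1) y.2.2 y.2.1) else 0) ≤
    4 * ez * q.Lm * s * (PN q.cP * 8 ^ K) := by
  refine H782.static_any (nf_pack (q := q) (U := U) h.B1 h.B2 h.B3 hK ho)
    (D := fun _ _ => False) _ (fun k hk y _ hS => SP_Q h hK ho hj hj2 w hk hS)
    (f := fun k y => nsq (C y.1 (k + 1) y.2.2 y.2.1)) (fun k y => nsq_nonneg _)
    (fun k _ y _ hf => hf.elim) (by positivity) ?_
  intro k hk y hy _ _
  rw [mem_cb] at hy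
  have e1 : ix K y.2.1 = ix K x.1 := congrArg (fun p : Pt => p.2.1) hy
  have e3 : ix K y.2.2 = ix K x.2.2 := congrArg (fun p : Pt => p.2.2) hy
  have hr : ix k y.2.1 ∈ iv (K - k) (ix K x.1) := by
    rw [mem_iv, PL.ix_ix, Nat.add_sub_cancel' hk.le]
    exact e1
  have hm : ix k y.2.2 ∈ iv (K - k) (ix K x.2.2) := by
    rw [mem_iv, PL.ix_ix, Nat.add_sub_cancel' hk.le]
    exact e3
  have hmass := H816.mass_kF (X := x.1) (Y := x.2.2) h.B2 hez hΛ hs hK U.2.1 hC.U_v2 hk (ix k y.1)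
    hr hm
  refine le_trans (le_of_eq_of_le (b := ∑ y0 ∈ iv k (ix k y.1), ∑ y1 ∈ iv k (ix k y.2.1),
    ∑ y3 ∈ iv k (ix k y.2.2), nsq (C y0 (k + 1) y3 y1)) ?_ ?_) hmass
  · unfold PL.cb
    rw [sum_product]
    refine sum_congr rfl fun y0 _ => ?_
    rw [sum_product]
    rfl
  · refine sum_le_sum fun y0 _ => sum_le_sum fun y1 hy1 => sum_le_sum fun y3 hy3 => ?_
    have r1 : y1 ∈ iv K (ix K x.1) := H576.root_mem hk.le hr hy1
    have r3 : y3 ∈ iv K (ix K x.2.2) := H576.root_mem hk.le hm hy3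
    have hv : nsq (v' y1 y3) ≤ U.2.1 (y1, y3) ^ 2 := by
      rcases h.v_or y1 y3 with e | e
      · rw [e]
        exact hC.v_le y1 r1 y3 r3
      · rw [e]
        unfold H43.nsq
        rw [dotProduct_zero]
        exact sq_nonneg _
    rw [h.C_eq]
    unfold H43.nsq at hv ⊢
    rw [smul_dotProduct, dotProduct_smul, smul_eq_mul, smul_eq_mul, ← mul_assoc, ← sq]
    exact mul_le_mul_of_nonneg_left hv (sq_nonneg _)

/-! ### The fields -/

/-- the energy of the stack at a point -/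
theorem eT_pt (R : Slt ι) (C : FamV ι) (hez : 0 ≤ ez) (M w : Pt) (ε : ℝ) (x0 : ℤ) (k m : ℕ)
    (x1 z : ℤ) :
    eT (fun x z => (√ez)⁻¹ • shC K M w (C x0) m z x) (WQ ε (RgS R w.2.2 w.1 x0)) k x1 z =
      if x1 + w.1 ∈ iv K M.1 ∧ z + w.2.2 ∈ iv K M.2.2 then
        ez⁻¹ * (ε ^ 2 * nsq (C x0 m (z + w.2.2) (x1 + w.1)) +
          nsq (av R w.2.2 x0 k (z + w.2.2) (x1 + w.1) *ᵥ C x0 m (z + w.2.2) (x1 + w.1)))
      else 0 := by
  unfold H505.Sk1.eT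
  simp only
  rw [← H43.Seam.WQ_form ε (RgS R w.2.2 w.1 x0) x1 k (ix k z), sumElim_dotProduct_sumElim,
    ← H747.av_RgS]
  have hq : (√ez)⁻¹ * (√ez)⁻¹ = ez⁻¹ := by
    rw [← mul_inv, Real.mul_self_sqrt hez]
  unfold H747.shC H747.sft
  by_cases hx : x1 + w.1 ∈ iv K M.1 ∧ z + w.2.2 ∈ iv K M.2.2
  · have hc : ix K (z + w.2.2) = M.2.2 ∧ ix K (x1 + w.1) = M.1 :=
      ⟨mem_iv.1 hx.2, mem_iv.1 hx.1⟩
    rw [if_pos hx, if_pos hc]
    unfold H43.nsq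
    simp only [mulVec_smul, smul_dotProduct, dotProduct_smul, smul_eq_mul]
    rw [← hq]
    ring
  · have hc : ¬ (ix K (z + w.2.2) = M.2.2 ∧ ix K (x1 + w.1) = M.1) := fun h =>
      hx ⟨mem_iv.2 h.2, mem_iv.2 h.1⟩
    rw [if_neg hx, if_neg hc]
    simp only [smul_zero, mulVec_zero, dotProduct_zero, add_zero]

/-- the charge of a marked point -/
def gp (ez : ℝ) (K : ℕ) (M w : Pt) (j : ℤ) (A : FamA) (b C : FamV ι) (R : Slt ι) (ε : ℝ)
    (x0 : ℤ) (k : ℕ) (x z : ℤ) : ℝ :=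
  if SP ez K M w j A b C k (x0, x, z) then
    ez⁻¹ * (ε ^ 2 * nsq (C x0 (k + 1) z x) + nsq (av R w.2.2 x0 k z x *ᵥ C x0 (k + 1) z x)) else 0

theorem gp_nonneg (hez : 0 ≤ ez) (M w : Pt) (j : ℤ) (A : FamA) (b C : FamV ι) (R : Slt ι)
    (ε : ℝ) (x0 : ℤ) (k : ℕ) (x z : ℤ) : 0 ≤ gp ez K M w j A b C R ε x0 k x z := by
  unfold gp
  split_ifs
  · exact mul_nonneg (inv_nonneg.2 hez) (add_nonneg (mul_nonneg (sq_nonneg _) (nsq_nonneg _))
      (nsq_nonneg _))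
  · exact le_rfl

/-- a marked node of the plane of the shifted grid as marked points -/
theorem pt_le (hez : 0 ≤ ez) (M w e : Pt) (j : ℤ) (A : FamA) (b C : FamV ι) (R : Slt ι) (ε : ℝ)
    (x0 : ℤ) {k : ℕ} (hk : k < K) {p : ℤ → ℤ → Prop} [∀ a b, Decidable (p a b)]
    (hp : ∀ x1 z, p x1 z → SP ez K M w j A b C k (x0, x1 + w.1, z + w.2.2)) :
    ∑ x1 ∈ iv K (M.1 - e.1), ∑ z ∈ iv K (M.2.2 - e.2.2), (if p x1 z then
      eT (fun x z => (√ez)⁻¹ • shC K M w (C x0) (min (k + 1) K) z x)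
        (WQ ε (RgS R w.2.2 w.1 x0)) k x1 z else 0) ≤
    ∑ x ∈ iv K M.1, ∑ z ∈ iv K M.2.2, gp ez K M w j A b C R ε x0 k x z := by
  refine sum_tr2 _ _ _ _ w.1 w.2.2 (fun x z => gp_nonneg hez M w j A b C R ε x0 k x z)
    fun x1 z => ?_
  have hnn := gp_nonneg hez M w j A b C R ε x0 k (x1 + w.1) (z + w.2.2) (K := K)
  rw [min_eq_left (show k + 1 ≤ K from hk), eT_pt R C hez M w ε x0 k (k + 1) x1 z]
  by_cases h1 : x1 + w.1 ∈ iv K M.1 ∧ z + w.2.2 ∈ iv K M.2.2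
  · rw [if_pos h1, if_pos h1]
    by_cases h2 : p x1 z
    · rw [if_pos h2]
      unfold gp
      rw [if_pos (hp x1 z h2)]
    · rw [if_neg h2]
      exact hnn
  · rw [if_neg h1, if_neg h1, ite_self]

/-- the charge of one `x₀` -/
def Ecr (ez : ℝ) (K : ℕ) (M w : Pt) (j : ℤ) (A : FamA) (b C : FamV ι) (R : Slt ι) (ε : ℝ)
    (x0 : ℤ) : ℝ :=
  ∑ k ∈ range K, ∑ x ∈ iv K M.1, ∑ z ∈ iv K M.2.2, gp ez K M w j A b C R ε x0 k x z

/-- **`cross` at one `x₀`.** -/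
theorem cross_le (hez : 0 ≤ ez) (M w e : Pt) (j : ℤ) (A : FamA) (b C : FamV ι) (R : Slt ι)
    (ε : ℝ) (x0 : ℤ) :
    ∑ k ∈ Ico 0 K, GW K (M.2.1 - e.2.1) (M.2.2 - e.2.2) (M.1 - e.1) k
      (ix k (ys (-x0) w) - j) (fun n2 n1 m =>
        if Ch (fun k y z => shA K M w (A x0) (min k K) z y) k n2 m ∨
            Ch (fun k x y => shB K M w (b x0) (min k K) x y) k n1 n2 ∨
            Ch (fun k x z => (√ez)⁻¹ • shC K M w (C x0) (min k K) z x) k n1 m then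
          (W3 (fun x z => (√ez)⁻¹ • shC K M w (C x0) (min (k + 1) K) z x)
            (WQ ε (RgS R w.2.2 w.1 x0)) k k n1 m).trace else 0) ≤
      Ecr ez K M w j A b C R ε x0 := by
  unfold Ecr
  rw [← range_eq_Ico]
  refine sum_le_sum fun k hk => ?_
  have hk' := mem_range.1 hk
  simp only [trW3]
  rw [H811.cross_pt (M.1 - e.1) (M.2.1 - e.2.1) (M.2.2 - e.2.2) hk'.le (ix k (ys (-x0) w) - j)
    (fun n2 n1 m => Ch (fun k y z => shA K M w (A x0) (min k K) z y) k n2 m ∨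
            Ch (fun k x y => shB K M w (b x0) (min k K) x y) k n1 n2 ∨
            Ch (fun k x z => (√ez)⁻¹ • shC K M w (C x0) (min k K) z x) k n1 m)]
  refine pt_le hez M w e j A b C R ε x0 hk' fun x1 z hp => ?_
  unfold SP
  simp only [add_sub_cancel_right]
  exact hp.2

/-- **`born` at one `x₀`.** -/
theorem born_le (hez : 0 ≤ ez) (M w e : Pt) (j : ℤ) (A : FamA) (b C : FamV ι) (R : Slt ι)
    (ε : ℝ) (x0 : ℤ) :
    ∑ k ∈ Ico 0 K, ∑ x1 ∈ iv K (M.1 - e.1), ∑ z ∈ iv K (M.2.2 - e.2.2),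
      (if Ch (fun k x z => (√ez)⁻¹ • shC K M w (C x0) (min k K) z x) k (ix k x1) (ix k z) then
        eT (fun x z => (√ez)⁻¹ • shC K M w (C x0) (min (k + 1) K) z x)
          (WQ ε (RgS R w.2.2 w.1 x0)) k x1 z else 0) ≤
      Ecr ez K M w j A b C R ε x0 := by
  unfold Ecr
  rw [← range_eq_Ico]
  refine sum_le_sum fun k hk => ?_
  have hk' := mem_range.1 hk
  refine pt_le hez M w e j A b C R ε x0 hk' fun x1 z hp => ?_
  unfold SP
  simp only [add_sub_cancel_right]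
  exact Or.inr (Or.inr hp)

/-- **The sum over `x₀`.** -/
theorem Ecr_sum {P : ℝ} (h : FDs q n ez F1 F2 F3 K x s r U g u v A b C Q1 Q2 Q3 v')
    (hC : H305.Cls K x s r P U g u v) (hez : 0 < ez) (hΛ : 0 ≤ q.Lm) (hs : 0 ≤ s)
    (hcP : 0 ≤ q.cP) (hK : K ≤ n) {o : ℤ} (ho : o = 1 ∨ o = -1) {j : ℤ} (hj : 0 ≤ j)
    (hj2 : j ≤ 2) (w : Pt) {R : Slt ι} {X : ℝ} (hN : NumX K (cx K x) R C w X) (ε : ℝ) :
    ∑ t ∈ rt (cx K x), ∑ x0 ∈ iv K t, Ecr ez K (cx K x) w j A b C R ε x0 ≤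
      ez⁻¹ * ((1 + PN q.cP) * X) + ε ^ 2 * (12 * (q.Lm * s) * (PN q.cP * 8 ^ K)) := by
  have hP : 0 ≤ PN q.cP := by
    unfold PN
    positivity
  have ha := hN.af (SP ez K (cx K x) w j A b C) (nf q U K Q1 Q2 Q3 o) (PN q.cP) hP
    (nf_pack h.B1 h.B2 h.B3 hK ho) (fun k hk y hS => SP_Q h hK ho hj hj2 w hk hS)
  have hst : ∑ t ∈ rt (cx K x), ∑ x0 ∈ iv K t, ∑ k ∈ range K, ∑ x1 ∈ iv K (cx K x).1,
      ∑ z ∈ iv K (cx K x).2.2, (if SP ez K (cx K x) w j A b C k (x0, x1, z) then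
        nsq (C x0 (k + 1) z x1) else 0) ≤ 3 * (4 * ez * q.Lm * s * (PN q.cP * 8 ^ K)) := by
    have hc : (rt (cx K x)).card = 3 := by
      unfold H677.rt
      rw [Int.card_Icc]
      omega
    refine (sum_le_sum (g := fun _ => 4 * ez * q.Lm * s * (PN q.cP * 8 ^ K))
      fun t _ => ?_).trans (le_of_eq ?_)
    · refine le_trans (le_of_eq ?_) (static_SP h hC hez.le hΛ hs hK ho hj hj2 w t)
      rw [sum_comm]
      refine sum_congr rfl fun k _ => ?_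
      unfold PL.cb
      rw [sum_product]
      refine sum_congr rfl fun y0 _ => ?_
      rw [sum_product]
    · rw [sum_const, hc, nsmul_eq_mul]
      norm_num
  have e : ∑ t ∈ rt (cx K x), ∑ x0 ∈ iv K t, Ecr ez K (cx K x) w j A b C R ε x0 =
      ez⁻¹ * (∑ t ∈ rt (cx K x), ∑ x0 ∈ iv K t, ∑ k ∈ range K, ∑ x1 ∈ iv K (cx K x).1,
        ∑ z ∈ iv K (cx K x).2.2, (if SP ez K (cx K x) w j A b C k (x0, x1, z) then
          nsq (av R w.2.2 x0 k z x1 *ᵥ C x0 (k + 1) z x1) else 0)) +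
      ez⁻¹ * ε ^ 2 * (∑ t ∈ rt (cx K x), ∑ x0 ∈ iv K t, ∑ k ∈ range K, ∑ x1 ∈ iv K (cx K x).1,
        ∑ z ∈ iv K (cx K x).2.2, (if SP ez K (cx K x) w j A b C k (x0, x1, z) then
          nsq (C x0 (k + 1) z x1) else 0)) := by
    simp only [mul_sum, ← sum_add_distrib]
    refine sum_congr rfl fun t _ => sum_congr rfl fun x0 _ => ?_
    unfold Ecr
    refine sum_congr rfl fun k _ => sum_congr rfl fun x1 _ => sum_congr rfl fun z _ => ?_
    unfold gp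
    split_ifs
    · ring
    · ring
  rw [e]
  have hi : 0 < ez⁻¹ := inv_pos.2 hez
  have h1 := mul_le_mul_of_nonneg_left ha hi.le
  have h2 := mul_le_mul_of_nonneg_left hst (by positivity : 0 ≤ ez⁻¹ * ε ^ 2)
  have e2 : ez⁻¹ * ε ^ 2 * (3 * (4 * ez * q.Lm * s * (PN q.cP * 8 ^ K))) =
      ε ^ 2 * (12 * (q.Lm * s) * (PN q.cP * 8 ^ K)) := by
    have e3 : ez⁻¹ * ez = 1 := inv_mul_cancel₀ hez.ne'
    calc ez⁻¹ * ε ^ 2 * (3 * (4 * ez * q.Lm * s * (PN q.cP * 8 ^ K))) =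
          (ez⁻¹ * ez) * (ε ^ 2 * (12 * (q.Lm * s) * (PN q.cP * 8 ^ K))) := by ring
      _ = _ := by rw [e3, one_mul]
  rw [e2] at h2
  exact add_le_add h1 h2

/-- **The fields `cross` and `born` of the numbers of the stack**, hub `x3`, one slot, the grid
shifted by `w`, the plane `j`, the corner `e`, every `x₀`. -/
theorem cross_born {P : ℝ} (h : FDs q n ez F1 F2 F3 K x s r U g u v A b C Q1 Q2 Q3 v')
    (hC : H305.Cls K x s r P U g u v) (hez : 0 < ez) (hΛ : 0 ≤ q.Lm) (hs : 0 ≤ s)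
    (hcP : 0 ≤ q.cP) (hK : K ≤ n) {o : ℤ} (ho : o = 1 ∨ o = -1) {j : ℤ} (hj : 0 ≤ j)
    (hj2 : j ≤ 2) (w e : Pt) {R : Slt ι} {X : ℝ} (hN : NumX K (cx K x) R C w X) (ε : ℝ) :
    ∃ Ec : ℤ → ℝ, (∀ x0, 0 ≤ Ec x0) ∧
      ∑ t ∈ rt (cx K x), ∑ x0 ∈ iv K t, Ec x0 ≤
        ez⁻¹ * ((1 + PN q.cP) * X) + ε ^ 2 * (12 * (q.Lm * s) * (PN q.cP * 8 ^ K)) ∧
      ∀ x0 : ℤ,
        ∑ k ∈ Ico 0 K, GW K ((cx K x).2.1 - e.2.1) ((cx K x).2.2 - e.2.2) ((cx K x).1 - e.1) k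
          (ix k (ys (-x0) w) - j) (fun n2 n1 m =>
            if Ch (fun k y z => shA K (cx K x) w (A x0) (min k K) z y) k n2 m ∨
                Ch (fun k x1 y => shB K (cx K x) w (b x0) (min k K) x1 y) k n1 n2 ∨
                Ch (fun k x1 z => (√ez)⁻¹ • shC K (cx K x) w (C x0) (min k K) z x1) k n1 m then
              (W3 (fun x1 z => (√ez)⁻¹ • shC K (cx K x) w (C x0) (min (k + 1) K) z x1)
                (WQ ε (RgS R w.2.2 w.1 x0)) k k n1 m).trace else 0) ≤ Ec x0 ∧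
        ∑ k ∈ Ico 0 K, ∑ x1 ∈ iv K ((cx K x).1 - e.1), ∑ z ∈ iv K ((cx K x).2.2 - e.2.2),
          (if Ch (fun k x1 z => (√ez)⁻¹ • shC K (cx K x) w (C x0) (min k K) z x1) k
              (ix k x1) (ix k z) then
            eT (fun x1 z => (√ez)⁻¹ • shC K (cx K x) w (C x0) (min (k + 1) K) z x1)
              (WQ ε (RgS R w.2.2 w.1 x0)) k x1 z else 0) ≤ Ec x0 := by
  refine ⟨Ecr ez K (cx K x) w j A b C R ε, fun x0 => ?_, Ecr_sum h hC hez hΛ hs hcP hK ho hj hj2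
    w hN ε, fun x0 => ⟨cross_le hez.le (cx K x) w e j A b C R ε x0,
    born_le hez.le (cx K x) w e j A b C R ε x0⟩⟩
  exact sum_nonneg fun k _ => sum_nonneg fun x1 _ => sum_nonneg fun z _ =>
    gp_nonneg hez.le _ _ _ _ _ _ _ _ _ _ _ _

end

end Vale.Agent.P141.H550.CrZ
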