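import Vale.Agent.P141.PL.H315.Export

/-!
# P141, line W: PAIR

A face function which is `δ`-uniform (weights `Nm e`, `e` fixed) on a box `A × B × C`, bounded by
`M`, with `L²` energy at most `Λ` on the sections of `B`: the slice products
`G (x,y,z) G (x,c,z)` (matrices in `x, z`) have norm at most `τ` up to an error which is a high
power of `δ` when `τ = δ ^ (1 - c)` and `e` is small.  Quadratic form with weights `w`.
-/

namespace Vale.Agent.P141.H550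

noncomputable section

open scoped BigOperators
open Vale.Agent.P141.PL.H315 Vale.Agent.P141.H315

section avg

variable {X Y Z : Type*}

theorem avg_congr {Q : Finset X} {f g : X → ℝ} (h : ∀ x ∈ Q, f x = g x) : avg Q f = avg Q g := by
  unfold avg; rw [Finset.sum_congr rfl h]

theorem avg_mono {Q : Finset X} {f g : X → ℝ} (h : ∀ x ∈ Q, f x ≤ g x) : avg Q f ≤ avg Q g :=
  mul_le_mul_of_nonneg_left (Finset.sum_le_sum h) (inv_nonneg.mpr (Nat.cast_nonneg _))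

theorem avg_const {Q : Finset X} (hQ : Q.Nonempty) (c : ℝ) : avg Q (fun _ => c) = c := by
  have : (Q.card : ℝ) ≠ 0 := by exact_mod_cast (Finset.card_pos.mpr hQ).ne'
  unfold avg
  rw [Finset.sum_const, nsmul_eq_mul, ← mul_assoc, inv_mul_cancel₀ this, one_mul]

theorem avg_mul_left (Q : Finset X) (c : ℝ) (f : X → ℝ) :
    avg Q (fun x => c * f x) = c * avg Q f := by
  unfold avg
  rw [← Finset.mul_sum]; ring

theorem avg_mul_right (Q : Finset X) (c : ℝ) (f : X → ℝ) :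
    avg Q (fun x => f x * c) = avg Q f * c := by
  unfold avg
  rw [← Finset.sum_mul]; ring

theorem avg_add (Q : Finset X) (f g : X → ℝ) :
    avg Q (fun x => f x + g x) = avg Q f + avg Q g := by
  unfold avg
  rw [Finset.sum_add_distrib]; ring

theorem avg_prod (A : Finset X) (B : Finset Y) (f : X × Y → ℝ) :
    avg (A ×ˢ B) f = avg A fun x => avg B fun y => f (x, y) := by
  unfold avg
  rw [Finset.card_product, Finset.sum_product, Finset.mul_sum, Finset.mul_sum]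
  refine Finset.sum_congr rfl fun x _ => ?_
  push_cast
  rw [mul_inv]; ring

theorem avg_comm (A : Finset X) (B : Finset Y) (f : X → Y → ℝ) :
    (avg A fun x => avg B fun y => f x y) = avg B fun y => avg A fun x => f x y := by
  unfold avg
  simp only [Finset.mul_sum]
  rw [Finset.sum_comm]
  refine Finset.sum_congr rfl fun y _ => Finset.sum_congr rfl fun x _ => ?_
  ring

theorem abs_avg_le (Q : Finset X) (f : X → ℝ) : |avg Q f| ≤ avg Q fun x => |f x| := by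
  unfold avg
  rw [abs_mul, abs_of_nonneg (inv_nonneg.mpr (Nat.cast_nonneg Q.card))]
  exact mul_le_mul_of_nonneg_left (Finset.abs_sum_le_sum_abs _ _)
    (inv_nonneg.mpr (Nat.cast_nonneg _))

theorem abs_avg_le_of {Q : Finset X} (hQ : Q.Nonempty) {f : X → ℝ} {c : ℝ}
    (h : ∀ x ∈ Q, |f x| ≤ c) : |avg Q f| ≤ c :=
  (abs_avg_le Q f).trans ((avg_mono h).trans_eq (avg_const hQ c))

/-- Cauchy–Schwarz for averages. -/
theorem avg_mul_sq_le (Q : Finset X) (f g : X → ℝ) :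
    (avg Q fun x => f x * g x) ^ 2 ≤ (avg Q fun x => f x ^ 2) * avg Q fun x => g x ^ 2 := by
  unfold avg
  have h := Finset.sum_mul_sq_le_sq_mul_sq Q f g
  have hc : 0 ≤ ((Q.card : ℝ)⁻¹) ^ 2 := sq_nonneg _
  calc ((Q.card : ℝ)⁻¹ * ∑ x ∈ Q, f x * g x) ^ 2
      = ((Q.card : ℝ)⁻¹) ^ 2 * (∑ x ∈ Q, f x * g x) ^ 2 := by ring
    _ ≤ ((Q.card : ℝ)⁻¹) ^ 2 * ((∑ x ∈ Q, f x ^ 2) * ∑ x ∈ Q, g x ^ 2) :=
        mul_le_mul_of_nonneg_left h hc
    _ = _ := by ring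

theorem avg_sq_le (Q : Finset X) (hQ : Q.Nonempty) (f : X → ℝ) :
    (avg Q f) ^ 2 ≤ avg Q fun x => f x ^ 2 := by
  have h := avg_mul_sq_le Q f (fun _ => 1)
  simpa [avg_const hQ] using h

end avg

/-- The norm `Nm` is at most the bound from an energy bound and a sup bound. -/
theorem Nm_le {X : Type*} {e : ℝ} (h0 : 0 ≤ e) (h1 : e ≤ 1) {Q : Finset X} {f : X → ℝ}
    {a m : ℝ} (hm : 0 ≤ m) (ha : avg Q (fun x => f x ^ 2) ≤ a)
    (hb : ∀ x ∈ Q, |f x| ≤ m) : Nm e Q f ≤ a ^ ((1 - e) / 2) * m ^ e := by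
  unfold Nm
  have hav : 0 ≤ avg Q fun x => f x ^ 2 := avg_nonneg fun _ _ => sq_nonneg _
  refine mul_le_mul (Real.rpow_le_rpow hav ha (by linarith))
    (Real.rpow_le_rpow (mx_nonneg _ _) (mx_le hm hb) h0)
    (Real.rpow_nonneg (mx_nonneg _ _) _) (Real.rpow_nonneg (hav.trans ha) _)

/-- The uniformity of a function on a box, in edge form. -/
def UnifBox (δ e : ℝ) (A B C : Finset ℤ) (G : ℤ × ℤ × ℤ → ℝ) : Prop :=
  ∀ u : Tri, |avg (A ×ˢ B ×ˢ C) (fun q => G q * atm u q)| ≤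
    δ * (Nm e (A ×ˢ B) u.1 * Nm e (A ×ˢ C) u.2.1 * Nm e (B ×ˢ C) u.2.2)

theorem unifBox_of_cube {δ e : ℝ} {k : ℕ} {p : ℤ × ℤ × ℤ} {G : ℤ × ℤ × ℤ → ℝ}
    (h : ∀ u : Tri, |avg (cube3 k p) (fun q => G q * atm u q)| ≤ wN δ e k p u) :
    UnifBox δ e (iv k p.1) (iv k p.2.1) (iv k p.2.2) G := by
  intro u
  have h1 := h u
  unfold wN at h1
  rw [Nm_e12, Nm_e13, Nm_e23] at h1
  exact h1

/-- The measure bound of PAIR. -/
def pairMu (δ e Λ M κ τ : ℝ) : ℝ :=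
  (δ / τ * Λ ^ ((1 - e) / 2)) ^ (1 / e) * (M ^ 3 / (τ * κ ^ 2))

theorem pairMu_nonneg {δ e Λ M κ τ : ℝ} (hδ : 0 ≤ δ) (hΛ : 0 ≤ Λ) (hM : 0 ≤ M)
    (hτ : 0 ≤ τ) : 0 ≤ pairMu δ e Λ M κ τ := by
  unfold pairMu
  exact mul_nonneg (Real.rpow_nonneg (mul_nonneg (div_nonneg hδ hτ) (Real.rpow_nonneg hΛ _)) _)
    (div_nonneg (pow_nonneg hM 3) (mul_nonneg hτ (sq_nonneg κ)))

/-- The measure of the bad `y` for one center `c`. -/
theorem pair_bad {δ e Λ M κ τ : ℝ} (hδ : 0 ≤ δ) (he0 : 0 < e) (he1 : e ≤ 1) (hM : 0 < M)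
    (hΛ : 0 ≤ Λ)
    (hκ : 0 < κ) (hτ : 0 < τ) {A B C : Finset ℤ} (hA : A.Nonempty) (hB : B.Nonempty)
    (hC : C.Nonempty) {G : ℤ × ℤ × ℤ → ℝ} (hU : UnifBox δ e A B C G)
    (hG : ∀ x ∈ A, ∀ y ∈ B, ∀ z ∈ C, |G (x, y, z)| ≤ M) {c : ℤ} (hc : c ∈ B)
    (hE : (avg A fun x => avg C fun z => G (x, c, z) ^ 2) ≤ Λ)
    (w : ℤ → ℤ → ℝ) (hw : ∀ y ∈ B, ∀ x ∈ A, |w y x| ≤ 1) (S : Finset ℤ) (hS : S ⊆ B)
    (h1 : ∀ y ∈ S, κ ^ 2 ≤ avg A fun x => w y x ^ 2)
    (h2 : ∀ y ∈ S, τ ^ 2 * (avg A fun x => w y x ^ 2) ≤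
      avg C fun z => (avg A fun x => w y x * (G (x, y, z) * G (x, c, z))) ^ 2) :
    (S.card : ℝ) / B.card ≤ pairMu δ e Λ M κ τ := by
  classical
  have hBc : (0 : ℝ) < B.card := by exact_mod_cast Finset.card_pos.mpr hB
  rcases S.eq_empty_or_nonempty with rfl | hSne
  · simp only [Finset.card_empty, Nat.cast_zero, zero_div]
    exact pairMu_nonneg hδ hΛ hM.le hτ.le
  set ν : ℝ := (S.card : ℝ) / B.card with hν
  have hSc : (0 : ℝ) < S.card := by exact_mod_cast Finset.card_pos.mpr hSne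
  have hν0 : 0 < ν := div_pos hSc hBc
  -- the average over `B` of a function supported on `S`
  have havS : ∀ f : ℤ → ℝ, avg B (fun y => if y ∈ S then f y else 0) =
      (B.card : ℝ)⁻¹ * ∑ y ∈ S, f y := by
    intro f
    unfold avg
    rw [← Finset.sum_filter, Finset.filter_mem_eq_inter, Finset.inter_eq_right.mpr hS]
  have havS1 : avg B (fun y => if y ∈ S then (1 : ℝ) else 0) = ν := by
    rw [havS, Finset.sum_const, nsmul_eq_mul, mul_one, hν, div_eq_inv_mul]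
  set n : ℤ → ℝ := fun y => avg A fun x => w y x ^ 2 with hn
  set h : ℤ → ℤ → ℝ := fun y z => avg A fun x => w y x * (G (x, y, z) * G (x, c, z)) with hh
  set m : ℤ → ℝ := fun y => avg C fun z => h y z ^ 2 with hm
  have hn_pos : ∀ y ∈ S, 0 < n y := fun y hy => lt_of_lt_of_le (by positivity) (h1 y hy)
  have hm_lb : ∀ y ∈ S, τ ^ 2 * κ ^ 2 ≤ m y := fun y hy =>
    (mul_le_mul_of_nonneg_left (h1 y hy) (sq_nonneg τ)).trans (h2 y hy)
  have hm_pos : ∀ y ∈ S, 0 < m y := fun y hy => lt_of_lt_of_le (by positivity) (hm_lb y hy)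
  have hsn : ∀ y ∈ S, κ ≤ Real.sqrt (n y) := fun y hy => Real.le_sqrt_of_sq_le (h1 y hy)
  have hsm : ∀ y ∈ S, τ * κ ≤ Real.sqrt (m y) := fun y hy =>
    Real.le_sqrt_of_sq_le (by rw [mul_pow]; exact hm_lb y hy)
  -- the test functions
  let u12 : ℤ × ℤ → ℝ := fun q => if q.2 ∈ S then w q.2 q.1 / Real.sqrt (n q.2) else 0
  let u13 : ℤ × ℤ → ℝ := fun q => G (q.1, c, q.2)
  let u23 : ℤ × ℤ → ℝ := fun q => if q.1 ∈ S then h q.1 q.2 / Real.sqrt (m q.1) else 0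
  have hh_le : ∀ y ∈ B, ∀ z ∈ C, |h y z| ≤ M ^ 2 := by
    intro y hy z hz
    refine abs_avg_le_of hA fun x hx => ?_
    rw [abs_mul, abs_mul]
    have e1 := hw y hy x hx
    have e2 := hG x hx y hy z hz
    have e3 := hG x hx c hc z hz
    calc |w y x| * (|G (x, y, z)| * |G (x, c, z)|) ≤ 1 * (M * M) :=
          mul_le_mul e1 (mul_le_mul e2 e3 (abs_nonneg _) hM.le) (by positivity) (by positivity)
      _ = M ^ 2 := by ring
  -- the pairing
  have hpair : avg (A ×ˢ B ×ˢ C) (fun q => G q * atm (u12, u13, u23) q) =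
      avg B (fun y => if y ∈ S then Real.sqrt (m y) / Real.sqrt (n y) else 0) := by
    rw [avg_prod]
    have e1 : ∀ x ∈ A, avg (B ×ˢ C) (fun q => G (x, q) * atm (u12, u13, u23) (x, q)) =
        avg B fun y => avg C fun z => G (x, y, z) * atm (u12, u13, u23) (x, y, z) := by
      intro x _
      rw [avg_prod]
    rw [avg_congr e1, avg_comm]
    refine avg_congr fun y hy => ?_
    rw [avg_comm]
    by_cases hyS : y ∈ S
    · rw [if_pos hyS]
      have hm0 := hm_pos y hyS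
      have hn0 := hn_pos y hyS
      have hsm0 : 0 < Real.sqrt (m y) := Real.sqrt_pos.mpr hm0
      have hsn0 : 0 < Real.sqrt (n y) := Real.sqrt_pos.mpr hn0
      have e2 : ∀ z ∈ C, (avg A fun x => G (x, y, z) * atm (u12, u13, u23) (x, y, z)) =
          (Real.sqrt (n y) * Real.sqrt (m y))⁻¹ * h y z ^ 2 := by
        intro z _
        have e3 : ∀ x ∈ A, G (x, y, z) * atm (u12, u13, u23) (x, y, z) =
            (Real.sqrt (n y) * Real.sqrt (m y))⁻¹ * h y z *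
              (w y x * (G (x, y, z) * G (x, c, z))) := by
          intro x _
          simp only [atm, e12, e13, e23, u12, u13, u23, if_pos hyS]
          field_simp
        rw [avg_congr e3, avg_mul_left]
        show _ * h y z * h y z = _
        ring
      rw [avg_congr e2, avg_mul_left]
      show (Real.sqrt (n y) * Real.sqrt (m y))⁻¹ * m y = _
      have e4 : m y = Real.sqrt (m y) * Real.sqrt (m y) := (Real.mul_self_sqrt hm0.le).symm
      rw [mul_inv, div_eq_mul_inv]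
      calc (Real.sqrt (n y))⁻¹ * (Real.sqrt (m y))⁻¹ * m y
          = (Real.sqrt (n y))⁻¹ * ((Real.sqrt (m y))⁻¹ * (Real.sqrt (m y) * Real.sqrt (m y))) := by
            rw [← e4, mul_assoc]
        _ = Real.sqrt (m y) * (Real.sqrt (n y))⁻¹ := by
            rw [← mul_assoc (Real.sqrt (m y))⁻¹, inv_mul_cancel₀ hsm0.ne', one_mul, mul_comm]
    · rw [if_neg hyS]
      have e2 : ∀ z ∈ C, (avg A fun x => G (x, y, z) * atm (u12, u13, u23) (x, y, z)) = 0 := by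
        intro z _
        have e3 : ∀ x ∈ A, G (x, y, z) * atm (u12, u13, u23) (x, y, z) = 0 := by
          intro x _
          simp only [atm, e12, u12, if_neg hyS]
          ring
        rw [avg_congr e3, avg_const hA]
      rw [avg_congr e2, avg_const hC]
  have hlow : τ * ν ≤ avg B (fun y => if y ∈ S then Real.sqrt (m y) / Real.sqrt (n y) else 0) := by
    rw [← havS1, ← avg_mul_left]
    refine avg_mono fun y _ => ?_
    by_cases hyS : y ∈ S
    · rw [if_pos hyS, if_pos hyS, mul_one, le_div_iff₀ (Real.sqrt_pos.mpr (hn_pos y hyS))]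
      refine Real.le_sqrt_of_sq_le ?_
      rw [mul_pow, Real.sq_sqrt (hn_pos y hyS).le]
      exact h2 y hyS
    · rw [if_neg hyS, if_neg hyS, mul_zero]
  -- the three norms
  have hN12 : Nm e (A ×ˢ B) u12 ≤ ν ^ ((1 - e) / 2) * (κ⁻¹) ^ e := by
    refine Nm_le he0.le he1 (inv_nonneg.mpr hκ.le) ?_ ?_
    · rw [avg_prod, avg_comm, ← havS1]
      refine avg_mono fun y _ => ?_
      by_cases hyS : y ∈ S
      · rw [if_pos hyS]
        have hn0 := hn_pos y hyS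
        have e1 : ∀ x ∈ A, u12 (x, y) ^ 2 = (n y)⁻¹ * w y x ^ 2 := by
          intro x _
          simp only [u12, if_pos hyS]
          rw [div_pow, Real.sq_sqrt hn0.le]; field_simp
        rw [avg_congr e1, avg_mul_left]
        show (n y)⁻¹ * n y ≤ 1
        rw [inv_mul_cancel₀ hn0.ne']
      · rw [if_neg hyS]
        have e1 : ∀ x ∈ A, u12 (x, y) ^ 2 = 0 := by
          intro x _
          simp only [u12, if_neg hyS]; ring
        rw [avg_congr e1, avg_const hA]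
    · rintro ⟨x, y⟩ hq
      rw [Finset.mem_product] at hq
      by_cases hyS : y ∈ S
      · simp only [u12, if_pos hyS]
        rw [abs_div, abs_of_nonneg (Real.sqrt_nonneg _), inv_eq_one_div]
        exact div_le_div₀ zero_le_one (hw y hq.2 x hq.1) hκ (hsn y hyS)
      · simp only [u12, if_neg hyS, abs_zero]
        exact inv_nonneg.mpr hκ.le
  have hN23 : Nm e (B ×ˢ C) u23 ≤ ν ^ ((1 - e) / 2) * (M ^ 2 / (τ * κ)) ^ e := by
    refine Nm_le he0.le he1 (by positivity) ?_ ?_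
    · rw [avg_prod, ← havS1]
      refine avg_mono fun y _ => ?_
      by_cases hyS : y ∈ S
      · rw [if_pos hyS]
        have hm0 := hm_pos y hyS
        have e1 : ∀ z ∈ C, u23 (y, z) ^ 2 = (m y)⁻¹ * h y z ^ 2 := by
          intro z _
          simp only [u23, if_pos hyS]
          rw [div_pow, Real.sq_sqrt hm0.le]; field_simp
        rw [avg_congr e1, avg_mul_left]
        show (m y)⁻¹ * m y ≤ 1
        rw [inv_mul_cancel₀ hm0.ne']
      · rw [if_neg hyS]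
        have e1 : ∀ z ∈ C, u23 (y, z) ^ 2 = 0 := by
          intro z _
          simp only [u23, if_neg hyS]; ring
        rw [avg_congr e1, avg_const hC]
    · rintro ⟨y, z⟩ hq
      rw [Finset.mem_product] at hq
      by_cases hyS : y ∈ S
      · simp only [u23, if_pos hyS]
        rw [abs_div, abs_of_nonneg (Real.sqrt_nonneg _)]
        exact div_le_div₀ (by positivity) (hh_le y hq.1 z hq.2) (by positivity) (hsm y hyS)
      · simp only [u23, if_neg hyS, abs_zero]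
        positivity
  have hN13 : Nm e (A ×ˢ C) u13 ≤ Λ ^ ((1 - e) / 2) * M ^ e := by
    refine Nm_le he0.le he1 hM.le ?_ ?_
    · rw [avg_prod]; exact hE
    · rintro ⟨x, z⟩ hq
      rw [Finset.mem_product] at hq
      exact hG x hq.1 c hc z hq.2
  -- conclusion
  have key : τ * ν ≤ δ * ((ν ^ ((1 - e) / 2) * (κ⁻¹) ^ e) * (Λ ^ ((1 - e) / 2) * M ^ e) *
      (ν ^ ((1 - e) / 2) * (M ^ 2 / (τ * κ)) ^ e)) := by
    have hu := hU (u12, u13, u23)
    rw [hpair] at hu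
    refine hlow.trans ((le_abs_self _).trans (hu.trans ?_))
    refine mul_le_mul_of_nonneg_left ?_ hδ
    have p1 := Nm_nonneg e (A ×ˢ B) u12
    have p2 := Nm_nonneg e (A ×ˢ C) u13
    have p3 := Nm_nonneg e (B ×ˢ C) u23
    exact mul_le_mul (mul_le_mul hN12 hN13 p2 (p1.trans hN12)) hN23 p3
      (mul_nonneg (p1.trans hN12) (p2.trans hN13))
  have hνp : ν ^ ((1 - e) / 2) * ν ^ ((1 - e) / 2) = ν ^ (1 - e) := by
    rw [← Real.rpow_add hν0]; congr 1; ring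
  have hprod : (κ⁻¹) ^ e * M ^ e * (M ^ 2 / (τ * κ)) ^ e = (M ^ 3 / (τ * κ ^ 2)) ^ e := by
    rw [← Real.mul_rpow (inv_nonneg.mpr hκ.le) hM.le, ← Real.mul_rpow (by positivity) (by positivity)]
    congr 1
    field_simp
  have key2 : τ * ν ≤ (δ * Λ ^ ((1 - e) / 2)) * (M ^ 3 / (τ * κ ^ 2)) ^ e * ν ^ (1 - e) := by
    calc τ * ν ≤ _ := key
      _ = (δ * Λ ^ ((1 - e) / 2)) * ((κ⁻¹) ^ e * M ^ e * (M ^ 2 / (τ * κ)) ^ e) *
          (ν ^ ((1 - e) / 2) * ν ^ ((1 - e) / 2)) := by ring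
      _ = _ := by rw [hνp, hprod]
  have hνe : ν = ν ^ e * ν ^ (1 - e) := by
    rw [← Real.rpow_add hν0]
    simp
  have hνe0 : 0 < ν ^ (1 - e) := Real.rpow_pos_of_pos hν0 _
  have key3 : ν ^ e ≤ (δ / τ * Λ ^ ((1 - e) / 2)) * (M ^ 3 / (τ * κ ^ 2)) ^ e := by
    have : τ * ν ^ e * ν ^ (1 - e) ≤
        (δ * Λ ^ ((1 - e) / 2)) * (M ^ 3 / (τ * κ ^ 2)) ^ e * ν ^ (1 - e) := by
      calc τ * ν ^ e * ν ^ (1 - e) = τ * ν := by rw [mul_assoc, ← hνe]
        _ ≤ _ := key2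
    have h3 := le_of_mul_le_mul_right this hνe0
    have h4 : ν ^ e ≤ ((δ * Λ ^ ((1 - e) / 2)) * (M ^ 3 / (τ * κ ^ 2)) ^ e) / τ := by
      rw [le_div_iff₀ hτ]; linarith
    calc ν ^ e ≤ _ := h4
      _ = _ := by field_simp
  have hfin : (ν ^ e) ^ (1 / e) ≤
      ((δ / τ * Λ ^ ((1 - e) / 2)) * (M ^ 3 / (τ * κ ^ 2)) ^ e) ^ (1 / e) :=
    Real.rpow_le_rpow (Real.rpow_nonneg hν0.le _) key3 (by positivity)
  have he' : e * (1 / e) = 1 := by field_simp
  rw [← Real.rpow_mul hν0.le, he', Real.rpow_one, Real.mul_rpow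
    (mul_nonneg (div_nonneg hδ hτ.le) (Real.rpow_nonneg hΛ _))
    (Real.rpow_nonneg (by positivity) _), ← Real.rpow_mul (by positivity), he',
    Real.rpow_one] at hfin
  exact hfin

/-- **PAIR**, one center `c`. -/
theorem pair_center {δ e Λ M κ τ : ℝ} (hδ : 0 ≤ δ) (he0 : 0 < e) (he1 : e ≤ 1) (hM : 0 < M)
    (hΛ : 0 ≤ Λ) (hκ : 0 < κ) (hτ : 0 < τ) {A B C : Finset ℤ} (hA : A.Nonempty)
    (hB : B.Nonempty) (hC : C.Nonempty) {G : ℤ × ℤ × ℤ → ℝ} (hU : UnifBox δ e A B C G)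
    (hG : ∀ x ∈ A, ∀ y ∈ B, ∀ z ∈ C, |G (x, y, z)| ≤ M) {c : ℤ} (hc : c ∈ B)
    (hE : (avg A fun x => avg C fun z => G (x, c, z) ^ 2) ≤ Λ)
    (w : ℤ → ℤ → ℝ) (hw : ∀ y ∈ B, ∀ x ∈ A, |w y x| ≤ 1) :
    (avg B fun y => avg C fun z =>
      (avg A fun x => w y x * (G (x, y, z) * G (x, c, z))) ^ 2) ≤
      τ ^ 2 * (avg B fun y => avg A fun x => w y x ^ 2) +
        (κ ^ 2 + pairMu δ e Λ M κ τ) * M ^ 4 := by
  classical
  set n : ℤ → ℝ := fun y => avg A fun x => w y x ^ 2 with hn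
  set m : ℤ → ℝ := fun y => avg C fun z =>
    (avg A fun x => w y x * (G (x, y, z) * G (x, c, z))) ^ 2 with hm
  let S : Finset ℤ := B.filter fun y => κ ^ 2 ≤ n y ∧ τ ^ 2 * n y ≤ m y
  have hn0 : ∀ y, 0 ≤ n y := fun y => avg_nonneg fun _ _ => sq_nonneg _
  have hbad : (S.card : ℝ) / B.card ≤ pairMu δ e Λ M κ τ :=
    pair_bad hδ he0 he1 hM hΛ hκ hτ hA hB hC hU hG hc hE w hw S (Finset.filter_subset _ _)
      (fun y hy => (Finset.mem_filter.mp hy).2.1) (fun y hy => (Finset.mem_filter.mp hy).2.2)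
  have hGG : ∀ y ∈ B, ∀ x ∈ A, ∀ z ∈ C, |G (x, y, z) * G (x, c, z)| ≤ M ^ 2 := by
    intro y hy x hx z hz
    rw [abs_mul]
    calc |G (x, y, z)| * |G (x, c, z)| ≤ M * M :=
          mul_le_mul (hG x hx y hy z hz) (hG x hx c hc z hz) (abs_nonneg _) hM.le
      _ = M ^ 2 := by ring
  have hm1 : ∀ y ∈ B, m y ≤ M ^ 4 := by
    intro y hy
    refine (avg_mono (g := fun _ => M ^ 4) fun z hz => ?_).trans_eq (avg_const hC _)
    have h1 : |avg A fun x => w y x * (G (x, y, z) * G (x, c, z))| ≤ M ^ 2 := by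
      refine abs_avg_le_of hA fun x hx => ?_
      rw [abs_mul]
      calc |w y x| * |G (x, y, z) * G (x, c, z)| ≤ 1 * M ^ 2 :=
            mul_le_mul (hw y hy x hx) (hGG y hy x hx z hz) (abs_nonneg _) zero_le_one
        _ = M ^ 2 := one_mul _
    calc (avg A fun x => w y x * (G (x, y, z) * G (x, c, z))) ^ 2
        = |avg A fun x => w y x * (G (x, y, z) * G (x, c, z))| ^ 2 := (sq_abs _).symm
      _ ≤ (M ^ 2) ^ 2 := pow_le_pow_left₀ (abs_nonneg _) h1 2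
      _ = M ^ 4 := by ring
  have hm2 : ∀ y ∈ B, n y < κ ^ 2 → m y ≤ κ ^ 2 * M ^ 4 := by
    intro y hy hny
    refine (avg_mono (g := fun _ => κ ^ 2 * M ^ 4) fun z hz => ?_).trans_eq (avg_const hC _)
    refine (avg_mul_sq_le A _ _).trans ?_
    refine mul_le_mul hny.le ?_ (avg_nonneg fun _ _ => sq_nonneg _) (sq_nonneg _)
    refine (avg_mono (g := fun _ => M ^ 4) fun x hx => ?_).trans_eq (avg_const hA _)
    calc (G (x, y, z) * G (x, c, z)) ^ 2 = |G (x, y, z) * G (x, c, z)| ^ 2 := (sq_abs _).symm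
      _ ≤ (M ^ 2) ^ 2 := pow_le_pow_left₀ (abs_nonneg _) (hGG y hy x hx z hz) 2
      _ = M ^ 4 := by ring
  have hpt : ∀ y ∈ B, m y ≤ (τ ^ 2 * n y + κ ^ 2 * M ^ 4) +
      (if y ∈ S then (1 : ℝ) else 0) * M ^ 4 := by
    intro y hy
    have h4 : (0 : ℝ) ≤ M ^ 4 := by positivity
    have ht : 0 ≤ τ ^ 2 * n y := mul_nonneg (sq_nonneg _) (hn0 y)
    have hk : 0 ≤ κ ^ 2 * M ^ 4 := by positivity
    by_cases hyS : y ∈ S
    · rw [if_pos hyS]
      have := hm1 y hy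
      linarith
    · rw [if_neg hyS, zero_mul, add_zero]
      have hnot : ¬ (κ ^ 2 ≤ n y ∧ τ ^ 2 * n y ≤ m y) := fun h =>
        hyS (Finset.mem_filter.mpr ⟨hy, h⟩)
      by_cases hk1 : κ ^ 2 ≤ n y
      · have : ¬ (τ ^ 2 * n y ≤ m y) := fun h => hnot ⟨hk1, h⟩
        push Not at this
        linarith
      · push Not at hk1
        have := hm2 y hy hk1
        linarith
  have hS1 : avg B (fun y => if y ∈ S then (1 : ℝ) else 0) = (S.card : ℝ) / B.card := by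
    unfold avg
    rw [← Finset.sum_filter, Finset.filter_mem_eq_inter,
      Finset.inter_eq_right.mpr (Finset.filter_subset _ _), Finset.sum_const, nsmul_eq_mul,
      mul_one, div_eq_inv_mul]
  calc avg B m ≤ avg B (fun y => (τ ^ 2 * n y + κ ^ 2 * M ^ 4) +
        (if y ∈ S then (1 : ℝ) else 0) * M ^ 4) := avg_mono hpt
    _ = τ ^ 2 * avg B n + κ ^ 2 * M ^ 4 + (S.card : ℝ) / B.card * M ^ 4 := by
        rw [avg_add, avg_add, avg_mul_left, avg_const hB, avg_mul_right, hS1]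
    _ ≤ τ ^ 2 * avg B n + κ ^ 2 * M ^ 4 + pairMu δ e Λ M κ τ * M ^ 4 := by
        have := mul_le_mul_of_nonneg_right hbad (by positivity : (0 : ℝ) ≤ M ^ 4)
        linarith
    _ = _ := by ring

/-- **PAIR**, averaged over the centers. -/
theorem pair4 {δ e Λ M κ τ : ℝ} (hδ : 0 ≤ δ) (he0 : 0 < e) (he1 : e ≤ 1) (hM : 0 < M)
    (hΛ : 0 ≤ Λ) (hκ : 0 < κ) (hτ : 0 < τ) {A B C : Finset ℤ} (hA : A.Nonempty)
    (hB : B.Nonempty) (hC : C.Nonempty) {G : ℤ × ℤ × ℤ → ℝ} (hU : UnifBox δ e A B C G)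
    (hG : ∀ x ∈ A, ∀ y ∈ B, ∀ z ∈ C, |G (x, y, z)| ≤ M)
    (hE : ∀ c ∈ B, (avg A fun x => avg C fun z => G (x, c, z) ^ 2) ≤ Λ)
    (w : ℤ → ℤ → ℤ → ℝ) (hw : ∀ c ∈ B, ∀ y ∈ B, ∀ x ∈ A, |w c y x| ≤ 1) :
    (avg B fun c => avg B fun y => avg C fun z =>
      (avg A fun x => w c y x * (G (x, y, z) * G (x, c, z))) ^ 2) ≤
      τ ^ 2 * (avg B fun c => avg B fun y => avg A fun x => w c y x ^ 2) +
        (κ ^ 2 + pairMu δ e Λ M κ τ) * M ^ 4 := by
  calc _ ≤ avg B (fun c => τ ^ 2 * (avg B fun y => avg A fun x => w c y x ^ 2) +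
        (κ ^ 2 + pairMu δ e Λ M κ τ) * M ^ 4) :=
        avg_mono fun c hc => pair_center hδ he0 he1 hM hΛ hκ hτ hA hB hC hU hG hc (hE c hc)
          (w c) (hw c hc)
    _ = _ := by rw [avg_add, avg_mul_left, avg_const hB]

/-- **PAIR** on a cube of the grid, vector valued weights. -/
theorem pair4_cube {δ e Λ M κ τ : ℝ} (hδ : 0 ≤ δ) (he0 : 0 < e) (he1 : e ≤ 1) (hM : 0 < M)
    (hΛ : 0 ≤ Λ) (hκ : 0 < κ) (hτ : 0 < τ) {k : ℕ} {p : ℤ × ℤ × ℤ} {G : ℤ × ℤ × ℤ → ℝ}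
    (hU : ∀ u : Tri, |avg (cube3 k p) (fun q => G q * atm u q)| ≤ wN δ e k p u)
    (hG : ∀ q ∈ cube3 k p, |G q| ≤ M)
    (hE : ∀ c ∈ iv k p.2.1, (avg (iv k p.1) fun x => avg (iv k p.2.2) fun z =>
      G (x, c, z) ^ 2) ≤ Λ)
    {V : Type*} [NormedAddCommGroup V] [InnerProductSpace ℝ V] (u : ℤ → ℤ → V)
    (hu : ∀ x ∈ iv k p.1, ∀ y ∈ iv k p.2.1, ‖u x y‖ ≤ 1) :
    (avg (iv k p.2.1) fun c => avg (iv k p.2.1) fun y => avg (iv k p.2.2) fun z =>
      (avg (iv k p.1) fun x => inner ℝ (u x y) (u x c) * (G (x, y, z) * G (x, c, z))) ^ 2) ≤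
      τ ^ 2 * (avg (iv k p.2.1) fun c => avg (iv k p.2.1) fun y => avg (iv k p.1) fun x =>
        (inner ℝ (u x y) (u x c)) ^ 2) + (κ ^ 2 + pairMu δ e Λ M κ τ) * M ^ 4 := by
  refine pair4 hδ he0 he1 hM hΛ hκ hτ ⟨_, self_mem_iv _ _⟩ ⟨_, self_mem_iv _ _⟩
    ⟨_, self_mem_iv _ _⟩ (unifBox_of_cube hU) (fun x hx y hy z hz => hG _ ?_) hE
    (fun c y x => inner ℝ (u x y) (u x c)) (fun c hc y hy x hx => ?_)
  · exact mem_cube3.mpr ⟨hx, hy, hz⟩
  · refine (abs_real_inner_le_norm _ _).trans ?_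
    calc ‖u x y‖ * ‖u x c‖ ≤ 1 * 1 :=
          mul_le_mul (hu x hx y hy) (hu x hx c hc) (norm_nonneg _) zero_le_one
      _ = 1 := one_mul 1

/-- The error of PAIR is a power of `δ`, as high as one likes if `e` is small. -/
theorem pairMu_le {δ e Λ M κ c a b : ℝ} (hδ : 0 < δ) (hδ1 : δ ≤ 1) (he0 : 0 < e) (he1 : e ≤ 1)
    (hc : 0 ≤ c) (hΛ : 0 ≤ Λ) (hΛ1 : Λ ≤ δ ^ (-c)) (hM : 0 < M) (hM1 : M ≤ δ ^ (-a))
    (hκ : δ ^ b ≤ κ) :
    pairMu δ e Λ M κ (δ ^ (1 - c)) ≤ δ ^ (c / (2 * e) - 3 * a - 1 - 2 * b) := by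
  have hκ0 : 0 < κ := lt_of_lt_of_le (Real.rpow_pos_of_pos hδ _) hκ
  have hτ0 : 0 < δ ^ (1 - c) := Real.rpow_pos_of_pos hδ _
  have e1 : δ / δ ^ (1 - c) = δ ^ c := by
    nth_rewrite 1 [← Real.rpow_one δ]
    rw [← Real.rpow_sub hδ]; congr 1; ring
  have hb1 : (1 : ℝ) ≤ δ ^ (-c) := Real.one_le_rpow_of_pos_of_le_one_of_nonpos hδ hδ1 (by linarith)
  have e2 : Λ ^ ((1 - e) / 2) ≤ δ ^ (-(c / 2)) := by
    calc Λ ^ ((1 - e) / 2) ≤ (δ ^ (-c)) ^ ((1 - e) / 2) :=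
          Real.rpow_le_rpow hΛ hΛ1 (by linarith)
      _ ≤ (δ ^ (-c)) ^ ((1 : ℝ) / 2) := Real.rpow_le_rpow_of_exponent_le hb1 (by linarith)
      _ = δ ^ (-(c / 2)) := by rw [← Real.rpow_mul hδ.le]; congr 1; ring
  have e3 : (δ / δ ^ (1 - c) * Λ ^ ((1 - e) / 2)) ^ (1 / e) ≤ δ ^ (c / (2 * e)) := by
    rw [e1]
    calc (δ ^ c * Λ ^ ((1 - e) / 2)) ^ (1 / e) ≤ (δ ^ c * δ ^ (-(c / 2))) ^ (1 / e) := by
          refine Real.rpow_le_rpow (mul_nonneg (Real.rpow_nonneg hδ.le _) (Real.rpow_nonneg hΛ _))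
            (mul_le_mul_of_nonneg_left e2 (Real.rpow_nonneg hδ.le _)) (by positivity)
      _ = δ ^ (c / (2 * e)) := by
          rw [← Real.rpow_add hδ, ← Real.rpow_mul hδ.le]; congr 1; field_simp; ring
  have e4 : M ^ 3 / (δ ^ (1 - c) * κ ^ 2) ≤ δ ^ (-(3 * a) - 1 - 2 * b) := by
    have h1 : M ^ 3 ≤ δ ^ (-(3 * a)) := by
      calc M ^ 3 ≤ (δ ^ (-a)) ^ 3 := pow_le_pow_left₀ hM.le hM1 3
        _ = δ ^ (-(3 * a)) := by
          rw [← Real.rpow_natCast, ← Real.rpow_mul hδ.le]; congr 1; push_cast; ring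
    have h2 : δ ^ (1 + 2 * b) ≤ δ ^ (1 - c) * κ ^ 2 := by
      calc δ ^ (1 + 2 * b) = δ ^ (1 : ℝ) * (δ ^ b) ^ 2 := by
            rw [← Real.rpow_natCast (δ ^ b), ← Real.rpow_mul hδ.le, ← Real.rpow_add hδ]
            congr 1; push_cast; ring
        _ ≤ δ ^ (1 - c) * κ ^ 2 := by
            refine mul_le_mul (Real.rpow_le_rpow_of_exponent_ge hδ hδ1 (by linarith))
              (pow_le_pow_left₀ (Real.rpow_nonneg hδ.le _) hκ 2) (sq_nonneg _)
              (Real.rpow_nonneg hδ.le _)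
    calc M ^ 3 / (δ ^ (1 - c) * κ ^ 2) ≤ δ ^ (-(3 * a)) / δ ^ (1 + 2 * b) :=
          div_le_div₀ (Real.rpow_nonneg hδ.le _) h1 (Real.rpow_pos_of_pos hδ _) h2
      _ = δ ^ (-(3 * a) - 1 - 2 * b) := by
          rw [← Real.rpow_sub hδ]; congr 1; ring
  unfold pairMu
  calc _ ≤ δ ^ (c / (2 * e)) * δ ^ (-(3 * a) - 1 - 2 * b) :=
        mul_le_mul e3 e4 (by positivity) (Real.rpow_nonneg hδ.le _)
    _ = _ := by rw [← Real.rpow_add hδ]; congr 1; ring

/-! ### Symmetries of the uniformity -/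

theorem Nm_swap {X Y : Type*} (e : ℝ) (A : Finset X) (B : Finset Y) (f : X × Y → ℝ) :
    Nm e (B ×ˢ A) (fun q => f (q.2, q.1)) = Nm e (A ×ˢ B) f := by
  have h : mx (B ×ˢ A) (fun q => f (q.2, q.1)) = mx (A ×ˢ B) f := by
    apply le_antisymm
    · refine mx_le (mx_nonneg _ _) fun q hq => ?_
      rw [Finset.mem_product] at hq
      exact abs_le_mx (x := (q.2, q.1)) (Finset.mem_product.mpr ⟨hq.2, hq.1⟩) f
    · refine mx_le (mx_nonneg _ _) fun q hq => ?_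
      rw [Finset.mem_product] at hq
      exact abs_le_mx (x := (q.2, q.1)) (Finset.mem_product.mpr ⟨hq.2, hq.1⟩)
        (fun q => f (q.2, q.1))
  unfold Nm
  rw [h, avg_prod, avg_prod, avg_comm]

theorem UnifBox.swap12 {δ e : ℝ} {A B C : Finset ℤ} {G : ℤ × ℤ × ℤ → ℝ}
    (h : UnifBox δ e A B C G) : UnifBox δ e B A C (fun q => G (q.2.1, q.1, q.2.2)) := by
  intro u
  have h1 := h (fun q => u.1 (q.2, q.1), u.2.2, u.2.1)
  have e1 : avg (B ×ˢ A ×ˢ C) (fun q => G (q.2.1, q.1, q.2.2) * atm u q) =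
      avg (A ×ˢ B ×ˢ C) (fun q => G q * atm (fun q => u.1 (q.2, q.1), u.2.2, u.2.1) q) := by
    simp only [avg_prod]
    rw [avg_comm]
    refine avg_congr fun x _ => avg_congr fun y _ => avg_congr fun z _ => ?_
    simp only [atm, e12, e13, e23]; ring
  rw [e1]
  refine h1.trans (le_of_eq ?_)
  rw [Nm_swap e B A u.1]; ring

theorem UnifBox.swap23 {δ e : ℝ} {A B C : Finset ℤ} {G : ℤ × ℤ × ℤ → ℝ}
    (h : UnifBox δ e A B C G) : UnifBox δ e A C B (fun q => G (q.1, q.2.2, q.2.1)) := by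
  intro u
  have h1 := h (u.2.1, u.1, fun q => u.2.2 (q.2, q.1))
  have e1 : avg (A ×ˢ C ×ˢ B) (fun q => G (q.1, q.2.2, q.2.1) * atm u q) =
      avg (A ×ˢ B ×ˢ C) (fun q => G q * atm (u.2.1, u.1, fun q => u.2.2 (q.2, q.1)) q) := by
    simp only [avg_prod]
    refine avg_congr fun x _ => ?_
    rw [avg_comm]
    refine avg_congr fun y _ => avg_congr fun z _ => ?_
    simp only [atm, e12, e13, e23]; ring
  rw [e1]
  refine h1.trans (le_of_eq ?_)
  rw [Nm_swap e C B u.2.2]; ring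

end

end Vale.Agent.P141.H550
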