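import Vale.Agent.P141.H550.AffT
import Vale.Agent.P141.H856.Deep

/-!
# P141, line (A), [F18] (T): the deep affected cells from the packing

* `cnA_cnt` : `H550.cnA` at a point of `x₀` is `H856.cnt`;
* `hX_pack` : hypothesis `hX` of `tail_sum`, `tail_T` from the packing `PackQ` at fixed `x₀`;
* `tail_pack` : the tail with `P = B (1 - 1 / B) ^ lam 4 ^ n`;
* `tail_Rs` : the tail for the averaged slot of `H841`, capped on the standard grid.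
-/

namespace Vale.Agent.P141.H550

open Finset Matrix
open Vale.Agent.P141.PL (Pt iv ix mem_iv ix_ix card_iv)
open Vale.Agent.P141.H43 (nsq nsq_nonneg)
open Vale.Agent.P141.H958 (Aff PackQ sum_Aff)
open Vale.Agent.P141.H856 (cnt deep)

noncomputable section

open scoped Classical

variable {AF : ℕ → ℤ → ℤ → ℤ → Prop} {n : ℕ}

theorem cnA_cnt (k : ℕ) (x0 a b : ℤ) :
    cnA AF n k (ix k x0) a b = cnt n (fun k a b => AF k (ix k x0) a b) k a b := by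
  unfold cnA H856.cnt
  congr 1
  refine filter_congr fun l hl => ?_
  rw [mem_Ico] at hl
  rw [ix_ix, Nat.add_sub_cancel' hl.1]

/-- **The deep affected cells at fixed `x₀`, from the packing.** -/
theorem hX_pack {R S x0 : ℤ} {B : ℝ} (hB : 1 ≤ B)
    (hP : PackQ n R S (fun k a b => AF k (ix k x0) a b) B) (lam : ℕ) :
    ∑ k ∈ range n, ∑ a ∈ iv (n - k) R, ∑ b ∈ iv (n - k) S,
      (if AF k (ix k x0) a b ∧ lam < cnA AF n k (ix k x0) a b then (4 : ℝ) ^ k else 0) ≤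
      B * (1 - B⁻¹) ^ lam * 4 ^ n := by
  refine le_trans (le_of_eq ?_) (deep hP hB lam)
  rw [sum_filter, sum_Aff]
  refine sum_congr rfl fun k _ => ?_
  rw [sum_comm]
  refine sum_congr rfl fun b _ => sum_congr rfl fun a _ => ?_
  rw [cnA_cnt, ite_and]

variable {ι : Type*} [Fintype ι]

/-- **The tail of the affected moving mass, from the packing.** -/
theorem tail_pack {T R S α β : ℤ} {B M e c : ℝ} {W : ℕ → ℤ → ℤ → ℤ → ℝ}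
    {Z : ℕ → ℤ → ℤ → ℤ → Matrix ι ι ℝ} {v : ℤ → ℤ → ι → ℝ} {al : ℕ → ℤ → ℤ → Prop}
    (hM0 : 0 ≤ M) (he0 : 0 ≤ e) (hc0 : 0 ≤ c) (hB : 1 ≤ B)
    (hP : ∀ x0 ∈ iv n T, PackQ n R S (fun k a b => AF k (ix k x0) a b) B)
    (hW0 : ∀ k x0 x y, 0 ≤ W k x0 x y)
    (hW : ∀ k < n, ∀ i x y, ∑ x0 ∈ iv k i, W k x0 x y ≤ e * 2 ^ k)
    (hal : ∀ k < n, ∀ x0 x y, ¬ al k (x + α) (y + β) → W k x0 x y = 0)
    (hcap : ∀ k < n, ∀ x0 ∈ iv n T, ∀ x ∈ iv n R, ∀ y ∈ iv n S,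
      AF k (ix k x0) (ix k x) (ix k y) → W k x0 x y ≠ 0 →
      nsq (Z k x0 x y *ᵥ v (x + α) (y + β)) ≤ c * nsq (v (x + α) (y + β)))
    (hM : ∀ k < n, ∀ I J : ℤ, ∑ x ∈ iv k I, ∑ y ∈ iv k J,
      (if al k x y then nsq (v x y) else 0) ≤ M * 4 ^ k) (lam : ℕ) :
    ∑ k ∈ range n, ∑ x0 ∈ iv n T, ∑ x ∈ iv n R, ∑ y ∈ iv n S,
      (if AF k (ix k x0) (ix k x) (ix k y) ∧ lam < cnA AF n k (ix k x0) (ix k x) (ix k y) then
        W k x0 x y * nsq (Z k x0 x y *ᵥ v (x + α) (y + β)) else 0) ≤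
      4 * c * e * M * (B * (1 - B⁻¹) ^ lam) * 8 ^ n := by
  refine (tail_T (lam := lam) (P := B * (1 - B⁻¹) ^ lam * 4 ^ n) hM0 he0 hc0
    (fun x0 h0 => hX_pack hB (hP x0 h0) lam) hW0 hW hal hcap hM).trans (le_of_eq ?_)
  have e8 : (8 : ℝ) ^ n = 4 ^ n * 2 ^ n := by rw [← mul_pow]; norm_num
  rw [e8]
  ring

/-- **The tail for the averaged moving slot**: the cap is needed on the standard grid only. -/
theorem tail_Rs {T R S α β o : ℤ} {B M e c : ℝ} {W : ℕ → ℤ → ℤ → ℤ → ℝ}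
    {Mx : ℤ → ℕ → ℤ → Matrix ι ι ℝ} {s : ℤ → ℕ → ℤ → ℤ → ℝ} {v : ℤ → ℤ → ι → ℝ}
    {al : ℕ → ℤ → ℤ → Prop} (hM0 : 0 ≤ M) (he0 : 0 ≤ e) (hc0 : 0 ≤ c) (hB : 1 ≤ B)
    (hP : ∀ x0 ∈ iv n T, PackQ n R S (fun k a b => AF k (ix k x0) a b) B)
    (hW0 : ∀ k x0 x y, 0 ≤ W k x0 x y)
    (hW : ∀ k < n, ∀ i x y, ∑ x0 ∈ iv k i, W k x0 x y ≤ e * 2 ^ k)
    (hal : ∀ k < n, ∀ x0 x y, ¬ al k (x + α) (y + β) → W k x0 x y = 0)
    (hcap : ∀ x0 ∈ iv n T, ∀ x ∈ iv n R, ∀ y ∈ iv n S, ∀ p ∈ iv n S,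
      nsq (H841.Rm (Mx (x + α)) o (x + α) (s (x + α)) n 0 x0 (p + β) *ᵥ v (x + α) (y + β)) ≤
        c * nsq (v (x + α) (y + β)))
    (hM : ∀ k < n, ∀ I J : ℤ, ∑ x ∈ iv k I, ∑ y ∈ iv k J,
      (if al k x y then nsq (v x y) else 0) ≤ M * 4 ^ k) (lam : ℕ) :
    ∑ k ∈ range n, ∑ x0 ∈ iv n T, ∑ x ∈ iv n R, ∑ y ∈ iv n S,
      (if AF k (ix k x0) (ix k x) (ix k y) ∧ lam < cnA AF n k (ix k x0) (ix k x) (ix k y) then
        W k x0 x y * nsq (H841.Rs (Mx (x + α)) o (x + α) (s (x + α)) n β k x0 (ix k y) *ᵥ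
          v (x + α) (y + β)) else 0) ≤
      4 * c * e * M * (B * (1 - B⁻¹) ^ lam) * 8 ^ n := by
  refine tail_pack (Z := fun k x0 x y =>
    H841.Rs (Mx (x + α)) o (x + α) (s (x + α)) n β k x0 (ix k y)) hM0 he0 hc0 hB hP hW0 hW hal
    ?_ hM lam
  intro k hk x0 h0 x hx y hy _ _
  refine Rs_cap β k (ix k y) fun p hp => ?_
  refine hcap x0 h0 x hx y hy p ?_
  rw [mem_iv] at hp hy ⊢
  rw [← hy]
  have h := congrArg (ix (n - k)) hp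
  rw [ix_ix, ix_ix, Nat.add_sub_cancel' hk.le] at h
  exact h

end

end Vale.Agent.P141.H550
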