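import Vale.Agent.P141.H876.WinS
import Vale.Agent.P141.H841.ShiftR
import Vale.Agent.P141.H185.EnRs

/-!
# P141, line (A), [G2]: the layers of a later generation at displaced points

Letters of `H841.Lay`.  `s` : the signs of the later generation, `s'` : the signs of the earlier one.
`Hs` : the square of the Hilbert-Schmidt norm of the slot with the signs `s'`.

* `mxc` : the coarsest event cells, `ind_le`, `ind_ge` : at a point;
* `cell_sum` : **the layers over the points with an event at a scale `≥ a i`**: at most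
  `5 |T₀| |w|²`, `T₀` the points with an event;
* `ev` : the event `κ² ≤ 4 Hs` at one of the three cells near `y`, `ev_ix`;
* `dif_sum` : the squares of the differences of the slot;
* `diag_fine`, `diag_coarse` : the two diagonal numbers of `H690.near_diag`.
-/

namespace Vale.Agent.P141.H550

open Finset Matrix
open Vale.Agent.P141.PL (iv ix hs mem_iv ix_ix card_iv)
open Vale.Agent.P141.H922 (ck iv_iv)
open Vale.Agent.P141.H43 (avv nsq nsq_nonneg)
open Vale.Agent.P141.H420 (Tr)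
open Vale.Agent.P141.H841 (Lm Rm Rs Nn Nn_nonneg ix_bd ix_of Rm_ix0 ix_two' ixle hsix)
open Vale.Agent.P141.H876 (wn En En_nonneg En_sum wt_Nn near_root)

noncomputable section

open scoped Classical

/-! ### The coarsest event cells -/

/-- the coarsest event cells of scale at most `n` -/
def mxc (E : ℕ → ℤ → Prop) (n j : ℕ) (m : ℤ) : Prop :=
  E j m ∧ ∀ j', j < j' → j' ≤ n → ¬ E j' (ix (j' - j) m)

variable {E : ℕ → ℤ → Prop} {n : ℕ}

theorem mxc_pt {j : ℕ} {x : ℤ} (h : mxc E n j (ix j x)) :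
    E j (ix j x) ∧ ∀ j', j < j' → j' ≤ n → ¬ E j' (ix j' x) := by
  refine ⟨h.1, fun j' h1 h2 h3 => h.2 j' h1 h2 ?_⟩
  rwa [ix_ix, Nat.add_sub_cancel' h1.le]

/-- every point with an event lies in a coarsest event cell -/
theorem exists_mxc {a : ℕ} {x : ℤ} (h : ∃ j, a ≤ j ∧ j ≤ n ∧ E j (ix j x)) :
    ∃ j ∈ Icc a n, mxc E n j (ix j x) := by
  obtain ⟨j, h1, h2, h3⟩ := h
  have hP : ∃ d, d ≤ n ∧ E (n - d) (ix (n - d) x) := ⟨n - j, by omega, by
    have e : n - (n - j) = j := by omega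
    rw [e]
    exact h3⟩
  classical
  have hf := Nat.find_spec hP
  have hm := Nat.find_min' hP (m := n - j) ⟨by omega, by
    have e : n - (n - j) = j := by omega
    rw [e]
    exact h3⟩
  set d := Nat.find hP with hd
  refine ⟨n - d, mem_Icc.2 ⟨by omega, by omega⟩, hf.2, fun j' h4 h5 h6 => ?_⟩
  rw [ix_ix, Nat.add_sub_cancel' h4.le] at h6
  refine Nat.find_min hP (m := n - j') (by omega) ⟨by omega, ?_⟩
  have e : n - (n - j') = j' := by omega
  rw [e]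
  exact h6

theorem ind_le {a : ℕ} {x : ℤ} {f : ℝ} (hf : 0 ≤ f) :
    (if ∃ j, a ≤ j ∧ j ≤ n ∧ E j (ix j x) then f else 0) ≤
      ∑ j ∈ Icc a n, (if mxc E n j (ix j x) then f else 0) := by
  by_cases h : ∃ j, a ≤ j ∧ j ≤ n ∧ E j (ix j x)
  · rw [if_pos h]
    obtain ⟨j, hj, hm⟩ := exists_mxc h
    refine le_trans (le_of_eq (if_pos hm).symm) (single_le_sum
      (f := fun j => if mxc E n j (ix j x) then f else 0) (fun j _ => ?_) hj)
    show (0 : ℝ) ≤ if mxc E n j (ix j x) then f else 0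
    split_ifs
    · exact hf
    · exact le_rfl
  · rw [if_neg h]
    refine sum_nonneg fun j _ => ?_
    split_ifs
    · exact hf
    · exact le_rfl

theorem ind_ge (x : ℤ) :
    ∑ j ∈ range (n + 1), (if mxc E n j (ix j x) then (1 : ℝ) else 0) ≤
      if ∃ j, j ≤ n ∧ E j (ix j x) then 1 else 0 := by
  by_cases h : ∃ j, j ≤ n ∧ E j (ix j x)
  · rw [if_pos h]
    rw [← sum_filter, sum_const, nsmul_eq_mul, mul_one]
    have h1 : ((range (n + 1)).filter fun j => mxc E n j (ix j x)).card ≤ 1 := by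
      rw [card_le_one]
      intro i hi j hj
      rw [mem_filter, mem_range] at hi hj
      have p1 := mxc_pt hi.2
      have p2 := mxc_pt hj.2
      by_contra hne
      rcases lt_or_gt_of_ne hne with h3 | h3
      · exact p1.2 j h3 (by omega) p2.1
      · exact p2.2 i h3 (by omega) p1.1
    exact_mod_cast h1
  · rw [if_neg h]
    refine le_of_eq (sum_eq_zero fun j hj => if_neg fun h1 => ?_)
    rw [mem_range] at hj
    exact h ⟨j, by omega, (mxc_pt h1).1⟩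

/-- the points with an event -/
def T0 (E : ℕ → ℤ → Prop) (n : ℕ) (T : ℤ) : Finset ℤ :=
  (iv n T).filter fun x => ∃ j, j ≤ n ∧ E j (ix j x)

theorem card_T0 (T : ℤ) : ((T0 E n T).card : ℝ) =
    ∑ x ∈ iv n T, if ∃ j, j ≤ n ∧ E j (ix j x) then (1 : ℝ) else 0 := by
  unfold T0
  rw [← sum_filter, sum_const, nsmul_eq_mul, mul_one]

/-- a sum over the coarsest event cells of one scale -/
theorem cell_mx {j : ℕ} (hj : j ≤ n) (T : ℤ) (g : ℤ → ℝ) :
    ∑ x ∈ iv n T, (if mxc E n j (ix j x) then g x else 0) =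
      ∑ m ∈ iv (n - j) T, if mxc E n j m then ∑ x ∈ iv j m, g x else 0 := by
  rw [← iv_iv hj]
  refine sum_congr rfl fun m _ => ?_
  rw [sum_congr rfl fun x hx => by rw [mem_iv.1 hx]]
  split_ifs
  · rfl
  · simp

theorem card_mx (T : ℤ) :
    ∑ j ∈ range (n + 1), ∑ m ∈ iv (n - j) T, (if mxc E n j m then (2 : ℝ) ^ j else 0) ≤
      (T0 E n T).card := by
  rw [card_T0]
  have e1 : ∀ j ∈ range (n + 1), ∑ m ∈ iv (n - j) T, (if mxc E n j m then (2 : ℝ) ^ j else 0) =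
      ∑ x ∈ iv n T, if mxc E n j (ix j x) then (1 : ℝ) else 0 := by
    intro j hj
    rw [mem_range] at hj
    rw [cell_mx (by omega)]
    refine sum_congr rfl fun m _ => ?_
    split_ifs
    · rw [sum_const, card_iv, nsmul_eq_mul, mul_one]
      push_cast
      rfl
    · rfl
  rw [sum_congr rfl e1, sum_comm]
  exact sum_le_sum fun x _ => ind_ge x

/-! ### The layers over the points with an event -/

variable {ι : Type*} [Fintype ι] {Mx : ℕ → ℤ → Matrix ι ι ℝ} {o x1 T : ℤ}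
  {s s' : ℕ → ℤ → ℤ → ℝ}

omit [Fintype ι] in
theorem tr_mono [Fintype ι] [DecidableEq ι] {l : ℝ} {G K : ℕ → ℤ → Matrix ι ι ℝ}
    (h : Tr l n G K) {j : ℕ} (hj : j ≤ n) : Tr l j G K :=
  ⟨h.l_pos, h.psG, h.pdK, h.sq, fun k hk m => h.mean k (hk.trans_le hj) m⟩

/-- the unweighted sum of a layer over a cell -/
theorem sum_Nn (ho : o = 1 ∨ o = -1) {j i k : ℕ} (hij : i + 1 ≤ j) (hk : k ≤ j) {p y : ℤ}
    (h1 : y - 2 ^ k ≤ p) (h2 : p ≤ y + 2 ^ k) (m : ℤ) (w : ι → ℝ) :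
    ∑ x0 ∈ iv j m, Nn Mx o x1 (i + 1) x0 p w ≤ En Mx j m x1 (ix j y) (i + 1) w := by
  obtain ⟨a1, a2⟩ := near_root hk h1 h2
  have h3 := wt_Nn (n := j) (Mx := Mx) (x1 := x1) (T := m) (M3 := ix j y) ho (W := fun _ => 1)
    (e := 1) (k := 0) (fun _ => zero_le_one) (fun j => by simp) (i := i + 1) hij (p := p)
    a1 a2 w
  rw [Nat.zero_sub, pow_zero, one_mul, one_mul] at h3
  refine le_trans (le_of_eq (sum_congr rfl fun x0 _ => ?_)) h3
  rw [one_mul]

/-- **The layers over the points with an event at a scale `≥ a i`.** -/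
theorem cell_sum [DecidableEq ι] {l : ℝ} {G K : ℕ → ℤ → Matrix ι ι ℝ} (h : Tr l n G K)
    (hM : ∀ k m a, Mx k m *ᵥ a = H483.mT l K k m a) (ho : o = 1 ∨ o = -1) (y : ℤ) (w : ι → ℝ)
    {I : Finset ℕ} {a : ℕ → ℕ} {q : ℕ → ℤ} (ha : ∀ i ∈ I, i + 1 ≤ a i)
    (hq : ∀ i ∈ I, |q i - y| ≤ 2 ^ (a i)) :
    ∑ i ∈ I, ∑ x0 ∈ iv n T, (if ∃ j, a i ≤ j ∧ j ≤ n ∧ E j (ix j x0) then
        Nn Mx o x1 (i + 1) x0 (q i) w else 0) ≤ 5 * (T0 E n T).card * nsq w := by
  have s1 : ∀ i ∈ I, ∑ x0 ∈ iv n T, (if ∃ j, a i ≤ j ∧ j ≤ n ∧ E j (ix j x0) then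
        Nn Mx o x1 (i + 1) x0 (q i) w else 0) ≤
      ∑ j ∈ range (n + 1), ∑ m ∈ iv (n - j) T, (if mxc E n j m then
        (if i ∈ range j then En Mx j m x1 (ix j y) (i + 1) w else 0) else 0) := by
    intro i hi
    have c1 : ∑ x0 ∈ iv n T, (if ∃ j, a i ≤ j ∧ j ≤ n ∧ E j (ix j x0) then
        Nn Mx o x1 (i + 1) x0 (q i) w else 0) ≤
        ∑ j ∈ Icc (a i) n, ∑ x0 ∈ iv n T, (if mxc E n j (ix j x0) then
          Nn Mx o x1 (i + 1) x0 (q i) w else 0) := by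
      rw [sum_comm]
      exact sum_le_sum fun x0 _ => ind_le (Nn_nonneg _ _ _ _ _ _ _)
    refine c1.trans ?_
    have hsub : Icc (a i) n ⊆ range (n + 1) := fun j hj => by
      rw [mem_Icc] at hj
      rw [mem_range]
      omega
    have h0 : ∀ j m, (0 : ℝ) ≤ if mxc E n j m then
        (if i ∈ range j then En Mx j m x1 (ix j y) (i + 1) w else 0) else 0 := by
      intro j m
      split_ifs
      · exact En_nonneg _ _
      · exact le_rfl
      · exact le_rfl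
    refine (sum_le_sum fun j hj => ?_).trans
      (sum_le_sum_of_subset_of_nonneg hsub fun j _ _ => sum_nonneg fun m _ => h0 j m)
    rw [mem_Icc] at hj
    have hai := ha i hi
    rw [cell_mx hj.2]
    refine sum_le_sum fun m _ => ?_
    split_ifs with g1 g2
    · have h5 := hq i hi
      rw [abs_le] at h5
      exact sum_Nn ho (by omega) hj.1 (by linarith [h5.1]) (by linarith [h5.2]) m w
    · exact absurd (mem_range.2 (by omega)) g2
    · exact le_rfl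
  refine (sum_le_sum s1).trans ?_
  rw [sum_comm]
  have s2 : ∀ j ∈ range (n + 1), ∑ i ∈ I, ∑ m ∈ iv (n - j) T, (if mxc E n j m then
        (if i ∈ range j then En Mx j m x1 (ix j y) (i + 1) w else 0) else 0) ≤
      ∑ m ∈ iv (n - j) T, (if mxc E n j m then (2 : ℝ) ^ j else 0) * (5 * nsq w) := by
    intro j hj
    rw [mem_range] at hj
    rw [sum_comm]
    refine sum_le_sum fun m _ => ?_
    by_cases hm : mxc E n j m
    · simp only [if_pos hm]
      have c1 : ∑ i ∈ I, (if i ∈ range j then En Mx j m x1 (ix j y) (i + 1) w else 0) ≤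
          ∑ i ∈ range j, En Mx j m x1 (ix j y) (i + 1) w := by
        rw [← sum_filter]
        exact sum_le_sum_of_subset_of_nonneg (fun i hi => (mem_filter.1 hi).2)
          fun i _ _ => En_nonneg _ _
      refine c1.trans ((En_sum (tr_mono h (show j ≤ n by omega)) hM w).trans (le_of_eq ?_))
      ring
    · simp only [if_neg hm, sum_const_zero, zero_mul, le_refl]
  refine (sum_le_sum s2).trans ?_
  simp only [← sum_mul]
  have h6 := mul_le_mul_of_nonneg_right (card_mx (E := E) (n := n) T)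
    (mul_nonneg (by norm_num : (0 : ℝ) ≤ 5) (nsq_nonneg w))
  linarith

/-! ### The events -/

/-- the square of the Hilbert-Schmidt norm of the slot -/
def Hs [DecidableEq ι] (Mx : ℕ → ℤ → Matrix ι ι ℝ) (o x1 : ℤ) (s : ℕ → ℤ → ℤ → ℝ) (n j : ℕ)
    (x0 p : ℤ) : ℝ := ∑ a : ι, nsq (Rm Mx o x1 s n j x0 p *ᵥ Pi.single a 1)

/-- the three cells near `y` -/
def nbx (y : ℤ) (j : ℕ) (p : ℤ) : Prop := p = y ∨ p = y + 2 ^ j ∨ p = y - 2 ^ j

/-- the event at the cell `c` of `x₀` -/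
def ev [DecidableEq ι] (Mx : ℕ → ℤ → Matrix ι ι ℝ) (o x1 : ℤ) (s : ℕ → ℤ → ℤ → ℝ) (n : ℕ)
    (κ : ℝ) (y : ℤ) (j : ℕ) (c : ℤ) : Prop :=
  ∃ p, nbx y j p ∧ κ ^ 2 ≤ 4 * Hs Mx o x1 s n j (2 ^ j * c) p

omit [Fintype ι] in
/-- the slot depends on the cell of `x₃` only -/
theorem Rm_ixp {j : ℕ} {p q : ℤ} (h : ix j p = ix j q) (x0 : ℤ) :
    Rm Mx o x1 s n j x0 p = Rm Mx o x1 s n j x0 q := by
  unfold H841.Rm
  refine sum_congr rfl fun i hi => ?_
  have a0 := ixle (mem_Ico.1 hi).1 h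
  have b0 := ixle (Nat.le_succ i) a0
  unfold H841.Lm H922.ck
  rw [b0, hsix a0]

variable [DecidableEq ι]

theorem Hs_ix {j : ℕ} {x z p q : ℤ} (h : ix j x = ix j z) (h' : ix j p = ix j q) :
    Hs Mx o x1 s n j x p = Hs Mx o x1 s n j z q := by
  unfold Hs
  rw [Rm_ix0 h, Rm_ixp h']

theorem ev_ix {κ : ℝ} {y : ℤ} {j : ℕ} {x : ℤ} : ev Mx o x1 s n κ y j (ix j x) ↔
    ∃ p, nbx y j p ∧ κ ^ 2 ≤ 4 * Hs Mx o x1 s n j x p := by
  have e : ix j (2 ^ j * ix j x) = ix j x := ix_two' j _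
  unfold ev
  constructor
  · rintro ⟨p, h1, h2⟩
    exact ⟨p, h1, by rwa [Hs_ix e rfl] at h2⟩
  · rintro ⟨p, h1, h2⟩
    exact ⟨p, h1, by rwa [Hs_ix e rfl]⟩

/-- a point at distance at most one cell -/
theorem near_ev {κ : ℝ} {y p : ℤ} {j : ℕ} {x : ℤ} (hp : |p - y| ≤ 2 ^ j)
    (h : κ ^ 2 ≤ 4 * Hs Mx o x1 s n j x p) : ev Mx o x1 s n κ y j (ix j x) := by
  rw [ev_ix]
  rw [abs_le] at hp
  obtain ⟨a1, a2⟩ := near_root (n := j) le_rfl (p := p) (y := y) (by linarith) (by linarith)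
  have h0 : (0 : ℤ) < 2 ^ j := by positivity
  have u1 : ix j (y + 2 ^ j) = ix j y + 1 := by
    obtain ⟨b1, b2⟩ := ix_bd j y
    exact ix_of (by linarith) (by linarith)
  have u2 : ix j (y - 2 ^ j) = ix j y - 1 := by
    obtain ⟨b1, b2⟩ := ix_bd j y
    exact ix_of (by linarith) (by linarith)
  have h3 : ix j p = ix j y ∨ ix j p = ix j y + 1 ∨ ix j p = ix j y - 1 := by omega
  rcases h3 with h3 | h3 | h3
  · exact ⟨y, Or.inl rfl, by rwa [← Hs_ix rfl h3]⟩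
  · exact ⟨y + 2 ^ j, Or.inr (Or.inl rfl), by rwa [← Hs_ix rfl (h3.trans u1.symm)]⟩
  · exact ⟨y - 2 ^ j, Or.inr (Or.inr rfl), by rwa [← Hs_ix rfl (h3.trans u2.symm)]⟩

/-! ### The differences of the slot -/

/-- the signs cut above the scale `k` -/
def cut (s : ℕ → ℤ → ℤ → ℝ) (k : ℕ) : ℕ → ℤ → ℤ → ℝ := fun j a b => if j ≤ k then s j a b else 0

omit [Fintype ι] [DecidableEq ι] in
theorem Lm_cut {k j : ℕ} (x0 p : ℤ) : Lm Mx o x1 (cut s k) j x0 p =
    if j ≤ k then Lm Mx o x1 s j x0 p else 0 := by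
  unfold H841.Lm cut
  split_ifs
  · rfl
  · rw [zero_mul, zero_smul]

omit [Fintype ι] [DecidableEq ι] in
theorem Rm_cut {i k : ℕ} (hik : i ≤ k) (hk : k ≤ n) (x0 p : ℤ) :
    Rm Mx o x1 s n i x0 p = Rm Mx o x1 (cut s k) n i x0 p + Rm Mx o x1 s n k x0 p := by
  unfold H841.Rm
  rw [← sum_Ico_consecutive (fun i => Lm Mx o x1 s (i + 1) x0 p) hik hk,
    ← sum_Ico_consecutive (fun i => Lm Mx o x1 (cut s k) (i + 1) x0 p) hik hk]
  have e1 : ∑ j ∈ Ico i k, Lm Mx o x1 (cut s k) (j + 1) x0 p =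
      ∑ j ∈ Ico i k, Lm Mx o x1 s (j + 1) x0 p := by
    refine sum_congr rfl fun j hj => ?_
    rw [mem_Ico] at hj
    rw [Lm_cut, if_pos (by omega)]
  have e2 : ∑ j ∈ Ico k n, Lm Mx o x1 (cut s k) (j + 1) x0 p = 0 := by
    refine sum_eq_zero fun j hj => ?_
    rw [mem_Ico] at hj
    rw [Lm_cut, if_neg (by omega)]
  rw [e1, e2, add_zero]

/-- the Hilbert-Schmidt energies of the layers -/
def EH (Mx : ℕ → ℤ → Matrix ι ι ℝ) (n : ℕ) (T x1 M3 : ℤ) (i : ℕ) : ℝ :=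
  ∑ a : ι, En Mx n T x1 M3 i (Pi.single a 1)

theorem EH_nonneg (M3 : ℤ) (i : ℕ) : 0 ≤ EH Mx n T x1 M3 i :=
  sum_nonneg fun _ _ => En_nonneg _ _

/-- **The squares of the differences of the slot.** -/
theorem dif_sum (hs1 : ∀ k a b, |s k a b| ≤ 1) (ho : o = 1 ∨ o = -1) {i k : ℕ} (hik : i ≤ k)
    (hk : k ≤ n) {p y : ℤ} (hp : |p - y| ≤ 2 ^ k) :
    ∑ x0 ∈ iv n T, Hs Mx o x1 (cut s k) n i x0 p ≤
      ∑ j ∈ Ico i k, EH Mx n T x1 (ix n y) (j + 1) := by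
  unfold Hs EH
  rw [sum_comm, sum_comm (s := Ico i k)]
  refine sum_le_sum fun a _ => ?_
  rw [H185.sum_Rm (hik.trans hk), ← sum_Ico_consecutive _ hik hk]
  have e2 : ∑ j ∈ Ico k n, ∑ x0 ∈ iv n T,
      nsq (Lm Mx o x1 (cut s k) (j + 1) x0 p *ᵥ Pi.single a 1) = 0 := by
    refine sum_eq_zero fun j hj => sum_eq_zero fun x0 _ => ?_
    rw [mem_Ico] at hj
    rw [Lm_cut, if_neg (by omega), zero_mulVec, H841.nsq_zero]
  rw [e2, add_zero]
  refine sum_le_sum fun j hj => ?_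
  rw [mem_Ico] at hj
  rw [abs_le] at hp
  refine le_trans (sum_le_sum fun x0 _ => ?_)
    (sum_Nn (x1 := x1) ho (show j + 1 ≤ n by omega) hk (p := p) (y := y) (by linarith)
      (by linarith) T (Pi.single a 1))
  rw [Lm_cut, if_pos (by omega)]
  exact H841.Lm_le hs1 _ _ _ _

/-! ### The diagonals -/

/-- one layer of the later generation -/
theorem mask_le (h1 : ∀ k a b, |s k a b| ≤ 1) {i : ℕ} {x0 p : ℤ} {w : ι → ℝ} {c : ℝ}
    (hc : 0 ≤ c) (h : s (i + 1) (ix (i + 1) x0) (ix (i + 1) p) ≠ 0 →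
      Nn Mx o x1 (i + 1) x0 p w ≤ c) : nsq (Lm Mx o x1 s (i + 1) x0 p *ᵥ w) ≤ c := by
  by_cases h0 : s (i + 1) (ix (i + 1) x0) (ix (i + 1) p) = 0
  · unfold H841.Lm
    rw [h0, zero_mul, zero_smul, zero_mulVec, H841.nsq_zero]
    exact hc
  · exact (H841.Lm_le h1 _ _ _ _).trans (h h0)

/-- the Hilbert-Schmidt square of a sum -/
theorem Hs_cut {s : ℕ → ℤ → ℤ → ℝ} {i k : ℕ} (hik : i ≤ k) (hk : k ≤ n) (x0 p : ℤ) :
    Hs Mx o x1 s n i x0 p ≤ 2 * Hs Mx o x1 (cut s k) n i x0 p + 2 * Hs Mx o x1 s n k x0 p := by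
  unfold Hs
  rw [mul_sum, mul_sum, ← sum_add_distrib]
  refine sum_le_sum fun a _ => ?_
  rw [Rm_cut (s := s) hik hk, add_mulVec]
  exact H841.nsq_add_le _ _

omit [Fintype ι] [DecidableEq ι] in
theorem shift_r {n r : ℕ} {f : ℕ → ℝ} (hf : ∀ j, 0 ≤ f j) :
    ∑ i ∈ range (n - r), ∑ j ∈ Ico (i + 1) (i + 1 + r), f j ≤ r * ∑ j ∈ range n, f j := by
  have e1 : ∀ i, ∑ j ∈ Ico (i + 1) (i + 1 + r), f j = ∑ t ∈ range r, f (i + 1 + t) := by
    intro i
    rw [sum_Ico_eq_sum_range, Nat.add_sub_cancel_left]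
  simp only [e1]
  rw [sum_comm]
  have e2 : ∀ t ∈ range r, ∑ i ∈ range (n - r), f (i + 1 + t) ≤ ∑ j ∈ range n, f j := by
    intro t ht
    rw [mem_range] at ht
    have e3 : ∑ i ∈ range (n - r), f (i + 1 + t) =
        ∑ j ∈ (range (n - r)).image (fun i => i + 1 + t), f j := by
      rw [sum_image]
      intro a _ b _ hab
      simpa using hab
    rw [e3]
    refine sum_le_sum_of_subset_of_nonneg (fun j hj => ?_) fun j _ _ => hf j
    obtain ⟨i, hi, rfl⟩ := mem_image.1 hj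
    rw [mem_range] at hi ⊢
    omega
  refine (sum_le_sum e2).trans (le_of_eq ?_)
  rw [sum_const, card_range, nsmul_eq_mul]

/-- **The fine diagonals.** -/
theorem diag_fine {l : ℝ} {G K : ℕ → ℤ → Matrix ι ι ℝ} (h : Tr l n G K)
    (hM : ∀ k m a, Mx k m *ᵥ a = H483.mT l K k m a) (ho : o = 1 ∨ o = -1)
    (h1 : ∀ k a b, |s k a b| ≤ 1) (h1' : ∀ k a b, |s' k a b| ≤ 1) {κ : ℝ} (hκ : 0 < κ)
    (hm : ∀ i < n, ∀ x0 p, s (i + 1) (ix (i + 1) x0) (ix (i + 1) p) ≠ 0 →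
      κ ^ 2 < Hs Mx o x1 s' n (i + 1) x0 p) {y : ℤ} {p : ℕ → ℤ} (hp : ∀ k, |p k - y| ≤ 2 ^ k)
    (w : ι → ℝ) {r : ℕ} (hr : r < n) :
    ∑ i ∈ range (n - r), ∑ x0 ∈ iv n T, nsq (Lm Mx o x1 s (i + 1) x0 (p (i + 1 + r)) *ᵥ w) ≤
      (5 * ((T0 (ev Mx o x1 s' n κ y) n T).card : ℝ) +
        4 * r / κ ^ 2 * ∑ i ∈ range n, EH Mx n T x1 (ix n y) (i + 1)) * nsq w := by
  have hκ2 : 0 < κ ^ 2 := by positivity
  have hw := nsq_nonneg w
  have key : ∀ i ∈ range (n - r), ∀ x0 ∈ iv n T,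
      nsq (Lm Mx o x1 s (i + 1) x0 (p (i + 1 + r)) *ᵥ w) ≤
      (if ∃ j, i + 1 + r ≤ j ∧ j ≤ n ∧ ev Mx o x1 s' n κ y j (ix j x0) then
        Nn Mx o x1 (i + 1) x0 (p (i + 1 + r)) w else 0) +
      4 / κ ^ 2 * nsq w * Hs Mx o x1 (cut s' (i + 1 + r)) n (i + 1) x0 (p (i + 1 + r)) := by
    intro i hi x0 _
    rw [mem_range] at hi
    have hH : 0 ≤ Hs Mx o x1 (cut s' (i + 1 + r)) n (i + 1) x0 (p (i + 1 + r)) :=
      sum_nonneg fun _ _ => nsq_nonneg _
    have hz : 0 ≤ 4 / κ ^ 2 * nsq w *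
        Hs Mx o x1 (cut s' (i + 1 + r)) n (i + 1) x0 (p (i + 1 + r)) := by positivity
    by_cases hc : ∃ j, i + 1 + r ≤ j ∧ j ≤ n ∧ ev Mx o x1 s' n κ y j (ix j x0)
    · rw [if_pos hc]
      have h5 := H841.Lm_le (Mx := Mx) (o := o) (x1 := x1) h1 (i + 1) x0 (p (i + 1 + r)) w
      linarith
    · rw [if_neg hc, zero_add]
      refine mask_le h1 hz fun h0 => ?_
      have h2 := hm i (by omega) x0 (p (i + 1 + r)) h0
      have h3 : ¬ κ ^ 2 ≤ 4 * Hs Mx o x1 s' n (i + 1 + r) x0 (p (i + 1 + r)) := fun h4 =>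
        hc ⟨i + 1 + r, le_rfl, by omega, near_ev (hp _) h4⟩
      have h4 := Hs_cut (Mx := Mx) (o := o) (x1 := x1) (s := s') (n := n)
        (show i + 1 ≤ i + 1 + r by omega) (by omega) x0 (p (i + 1 + r))
      have h5 : κ ^ 2 / 4 ≤
          Hs Mx o x1 (cut s' (i + 1 + r)) n (i + 1) x0 (p (i + 1 + r)) := by
        push Not at h3
        linarith
      have h6 : Nn Mx o x1 (i + 1) x0 (p (i + 1 + r)) w ≤ nsq w := by
        unfold H841.Nn
        rw [hM]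
        exact H483.mT_le h (by omega) _ w
      refine h6.trans ?_
      have h7 : (1 : ℝ) ≤ 4 / κ ^ 2 *
          Hs Mx o x1 (cut s' (i + 1 + r)) n (i + 1) x0 (p (i + 1 + r)) := by
        rw [div_mul_eq_mul_div, le_div_iff₀ hκ2]
        linarith
      nlinarith
  refine (sum_le_sum fun i hi => sum_le_sum fun x0 hx => key i hi x0 hx).trans ?_
  simp only [sum_add_distrib, ← mul_sum]
  have a1 := cell_sum (n := n) (x1 := x1) (T := T) (E := ev Mx o x1 s' n κ y) h hM ho y w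
    (I := range (n - r)) (a := fun i => i + 1 + r) (q := fun i => p (i + 1 + r))
    (fun i _ => by omega) (fun i _ => hp _)
  have a2 : ∑ i ∈ range (n - r), ∑ x0 ∈ iv n T,
      Hs Mx o x1 (cut s' (i + 1 + r)) n (i + 1) x0 (p (i + 1 + r)) ≤
      r * ∑ j ∈ range n, EH Mx n T x1 (ix n y) (j + 1) := by
    refine (sum_le_sum fun i hi => ?_).trans
      (shift_r (f := fun j => EH Mx n T x1 (ix n y) (j + 1)) fun j => EH_nonneg _ _)
    rw [mem_range] at hi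
    exact dif_sum h1' ho (by omega) (by omega) (hp _)
  have a3 := mul_le_mul_of_nonneg_left a2 (show 0 ≤ 4 / κ ^ 2 * nsq w by positivity)
  have e1 : (5 * ((T0 (ev Mx o x1 s' n κ y) n T).card : ℝ) +
        4 * r / κ ^ 2 * ∑ i ∈ range n, EH Mx n T x1 (ix n y) (i + 1)) * nsq w =
      5 * ((T0 (ev Mx o x1 s' n κ y) n T).card : ℝ) * nsq w +
        4 / κ ^ 2 * nsq w * (r * ∑ i ∈ range n, EH Mx n T x1 (ix n y) (i + 1)) := by
    ring
  rw [e1]
  exact add_le_add a1 a3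

/-- **The coarse diagonals.** -/
theorem diag_coarse {l : ℝ} {G K : ℕ → ℤ → Matrix ι ι ℝ} (h : Tr l n G K)
    (hM : ∀ k m a, Mx k m *ᵥ a = H483.mT l K k m a) (ho : o = 1 ∨ o = -1)
    (h1 : ∀ k a b, |s k a b| ≤ 1) {κ : ℝ}
    (hm : ∀ i < n, ∀ x0 p, s (i + 1) (ix (i + 1) x0) (ix (i + 1) p) ≠ 0 →
      κ ^ 2 < Hs Mx o x1 s' n (i + 1) x0 p) {y : ℤ} {p : ℕ → ℤ} (hp : ∀ k, |p k - y| ≤ 2 ^ k)
    (w : ι → ℝ) {d : ℕ} (hd : 1 ≤ d) :
    ∑ k ∈ range (n + 1 - d), ∑ x0 ∈ iv n T, nsq (Lm Mx o x1 s (k + d - 1 + 1) x0 (p k) *ᵥ w) ≤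
      5 * ((T0 (ev Mx o x1 s' n κ y) n T).card : ℝ) * nsq w := by
  have hpd : ∀ i, |p (i + 1 - d) - y| ≤ 2 ^ (i + 1) := fun i =>
    (hp _).trans (pow_le_pow_right₀ (by norm_num) (by omega))
  have a1 := cell_sum (n := n) (x1 := x1) (T := T) (E := ev Mx o x1 s' n κ y) h hM ho y w
    (I := (range (n + 1 - d)).image fun k => k + d - 1) (a := fun i => i + 1)
    (q := fun i => p (i + 1 - d)) (fun i _ => le_rfl) (fun i _ => hpd i)
  rw [sum_image (by
    intro a _ b _ hab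
    simp only at hab
    omega)] at a1
  refine le_trans (sum_le_sum fun k hk => sum_le_sum fun x0 _ => ?_) a1
  rw [mem_range] at hk
  have e1 : k + d - 1 + 1 - d = k := by omega
  rw [e1]
  have hn0 : (0 : ℝ) ≤ if ∃ j, k + d - 1 + 1 ≤ j ∧ j ≤ n ∧ ev Mx o x1 s' n κ y j (ix j x0) then
      Nn Mx o x1 (k + d - 1 + 1) x0 (p k) w else 0 := by
    split_ifs
    · exact Nn_nonneg _ _ _ _ _ _ _
    · exact le_rfl
  refine mask_le h1 hn0 fun h0 => ?_
  have h2 := hm (k + d - 1) (by omega) x0 (p k) h0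
  have h3 : ∃ j, k + d - 1 + 1 ≤ j ∧ j ≤ n ∧ ev Mx o x1 s' n κ y j (ix j x0) := by
    refine ⟨k + d - 1 + 1, le_rfl, by omega, near_ev (p := p k) ?_ ?_⟩
    · exact (hp _).trans (pow_le_pow_right₀ (by norm_num) (by omega))
    · have := sq_nonneg κ
      linarith
  beta_reduce
  rw [if_pos h3]

end

end Vale.Agent.P141.H550
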