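import Vale.Agent.P141.H337.PairNorm
import Vale.Agent.P141.H347.TrP

/-!
# P141, line W, scale-invariant version: the pair norm in the pair weight (1)

Window sums, the edges of the test.
-/

namespace Vale.Agent.P141.H550

open Finset Vale.Agent.P141.PL.H315 Vale.Agent.P141.H337
open Vale.Agent.P141.H922 (n2 n4 nN n2_nonneg n4_nonneg nN_nonneg pw3 pw3_nonneg n2_sq n4_four)

noncomputable section

/-- the window averages of the square are at most `Λ` -/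
def WinSq (k : ℕ) (Λ : ℝ) (s : ℤ → ℝ) : Prop :=
  ∀ c : ℤ, ∑ y ∈ Ico c (c + 2 ^ k), s y ^ 2 ≤ 2 ^ k * Λ

variable {k : ℕ} {Λ : ℝ} {s : ℤ → ℝ}

theorem WinSq.nonneg (h : WinSq k Λ s) : 0 ≤ Λ := by
  have h0 := h 0
  have h1 : 0 ≤ ∑ y ∈ Ico (0 : ℤ) (0 + 2 ^ k), s y ^ 2 := sum_nonneg fun _ _ => sq_nonneg _
  have h2 : (0 : ℝ) < 2 ^ k := by positivity
  nlinarith

theorem WinSq.long (h : WinSq k Λ s) (A : ℤ) (t : ℕ) :
    ∑ y ∈ Ico A (A + t * 2 ^ k), s y ^ 2 ≤ t * (2 ^ k * Λ) := by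
  have h2 : (0 : ℤ) < 2 ^ k := by positivity
  induction t with
  | zero => simp
  | succ t ih =>
    have e : A + ((t + 1 : ℕ) : ℤ) * 2 ^ k = (A + t * 2 ^ k) + 2 ^ k := by push_cast; ring
    rw [e, ← sum_Ico_consecutive' (fun y => s y ^ 2) (m := A) (n := A + t * 2 ^ k) (by
      have : (0 : ℤ) ≤ t * 2 ^ k := by positivity
      linarith) (by linarith)]
    have := h (A + t * 2 ^ k)
    push_cast
    linarith
where
  sum_Ico_consecutive' (f : ℤ → ℝ) {m n k : ℤ} (hmn : m ≤ n) (hnk : n ≤ k) :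
      ∑ i ∈ Ico m n, f i + ∑ i ∈ Ico n k, f i = ∑ i ∈ Ico m k, f i := by
    rw [← Ico_union_Ico_eq_Ico hmn hnk, sum_union (Ico_disjoint_Ico_consecutive m n k)]

theorem WinSq.line (h : WinSq k Λ s) {r : ℤ} (hr : r ≠ 0) {R : ℕ} (hR : |r| ≤ R) (c a : ℤ) :
    ∑ x ∈ Ico a (a + 2 ^ k), s (c + r * x) ^ 2 ≤ R * (2 ^ k * Λ) := by
  classical
  have h2 : (0 : ℤ) < 2 ^ k := by positivity
  have hinj : Set.InjOn (fun x : ℤ => c + r * x) (Ico a (a + 2 ^ k) : Finset ℤ) := by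
    intro x _ y _ hxy
    have : r * x = r * y := by simpa using hxy
    exact mul_left_cancel₀ hr this
  rw [← sum_image (g := fun x : ℤ => c + r * x) (f := fun y => s y ^ 2) hinj]
  obtain ⟨A, hA⟩ : ∃ A : ℤ, ∀ x, a ≤ x → x < a + 2 ^ k → A ≤ c + r * x ∧
      c + r * x < A + |r| * 2 ^ k := by
    rcases lt_or_gt_of_ne hr with hr' | hr'
    · refine ⟨c + r * (a + 2 ^ k) + 1, fun x hx hx' => ?_⟩
      rw [abs_of_neg hr']
      constructor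
      · nlinarith
      · nlinarith
    · refine ⟨c + r * a, fun x hx hx' => ?_⟩
      rw [abs_of_pos hr']
      constructor
      · nlinarith
      · nlinarith
  have hsub : (Ico a (a + 2 ^ k)).image (fun x : ℤ => c + r * x) ⊆ Ico A (A + (R : ℕ) * 2 ^ k) := by
    intro y hy
    rw [mem_image] at hy
    obtain ⟨x, hx, rfl⟩ := hy
    rw [mem_Ico] at hx
    have := hA x hx.1 hx.2
    rw [mem_Ico]
    refine ⟨this.1, this.2.trans_le ?_⟩
    have : |r| * 2 ^ k ≤ (R : ℤ) * 2 ^ k := mul_le_mul_of_nonneg_right hR h2.le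
    linarith
  exact (sum_le_sum_of_subset_of_nonneg hsub fun _ _ _ => sq_nonneg _).trans (h.long A R)

theorem WinSq.line_ivm (h : WinSq k Λ s) {r : ℤ} (hr : r ≠ 0) {R : ℕ} (hR : |r| ≤ R) (c j : ℤ) :
    ∑ x ∈ ivm k j, s (c + r * x) ^ 2 ≤ R * (2 ^ k * Λ) := h.line hr hR c _

theorem WinSq.line_long (h : WinSq k Λ s) {r : ℤ} (hr : r ≠ 0) {R : ℕ} (hR : |r| ≤ R) (c j : ℤ) :
    ∑ x ∈ Ico (2 ^ k * (j - 4)) (2 ^ k * (j + 5)), s (c + r * x) ^ 2 ≤ 9 * (R * (2 ^ k * Λ)) := by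
  rw [sum_long]
  refine (sum_le_card_nsmul _ _ _ fun i _ => h.line_ivm hr hR c i).trans (le_of_eq ?_)
  rw [Int.card_Ico, nsmul_eq_mul]
  have : (j + 5 - (j - 4)).toNat = 9 := by
    have : j + 5 - (j - 4) = 9 := by ring
    rw [this]; rfl
  rw [this]
  norm_num

theorem sum_range_int (N : ℕ) (f : ℤ → ℝ) :
    ∑ y ∈ range N, f y = ∑ x ∈ Ico (0 : ℤ) (0 + N), f x := by
  classical
  symm
  refine sum_bij' (fun x _ => x.toNat) (fun y _ => (y : ℤ)) ?_ ?_ ?_ ?_ ?_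
  · intro x hx; rw [mem_Ico] at hx; rw [mem_range]; omega
  · intro y hy; rw [mem_range] at hy; rw [mem_Ico]; omega
  · intro x hx; rw [mem_Ico] at hx; omega
  · intro y _; simp
  · intro x hx
    rw [mem_Ico] at hx
    congr 1
    omega

theorem WinSq.line_range (h : WinSq k Λ s) {r : ℤ} (hr : r ≠ 0) {R : ℕ} (hR : |r| ≤ R) (c : ℤ) :
    ∑ y ∈ range (2 ^ k), s (c + r * y) ^ 2 ≤ R * (2 ^ k * Λ) := by
  rw [sum_range_int (2 ^ k) fun x => s (c + r * x) ^ 2]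
  have := h.line hr hR c 0
  push_cast
  exact this

/-! ### flat functions -/

/-- `b` is at most `B / r²` on the interval `ivm k j`, and different from zero on at most
`r⁴ 2 ^ k` points of it. -/
structure Flat (k : ℕ) (j : ℤ) (b : ℤ → ℝ) (B r : ℝ) : Prop where
  B0 : 0 ≤ B
  r0 : 0 < r
  le : ∀ x ∈ ivm k j, |b x| ≤ B / r ^ 2
  supp : (((ivm k j).filter fun x => b x ≠ 0).card : ℝ) ≤ r ^ 4 * 2 ^ k

variable {j : ℤ} {b : ℤ → ℝ} {B r : ℝ}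

theorem Flat.cut_le (h : Flat k j b B r) (x : ℤ) : |cutI (ivm k j) b x| ≤ B / r ^ 2 := by
  by_cases hx : x ∈ ivm k j
  · rw [cutI_of_mem hx]; exact h.le x hx
  · rw [cutI_of_not_mem hx, abs_zero]
    have := h.B0; have := h.r0; positivity

/-- a sum over the support of `b` -/
theorem Flat.sum_le (h : Flat k j b B r) (φ : ℤ → ℝ) {M : ℝ} (hM : 0 ≤ M)
    (hφ : ∀ x ∈ ivm k j, b x ≠ 0 → φ x ≤ M) (h0 : ∀ x ∈ ivm k j, b x = 0 → φ x ≤ 0) :
    ∑ x ∈ ivm k j, φ x ≤ r ^ 4 * 2 ^ k * M := by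
  classical
  have h1 : ∑ x ∈ ivm k j, φ x ≤ ∑ x ∈ (ivm k j).filter (fun x => b x ≠ 0), φ x := by
    rw [sum_filter]
    refine sum_le_sum fun x hx => ?_
    split_ifs with hb
    · exact le_rfl
    · exact h0 x hx (by simpa using hb)
  refine h1.trans ?_
  refine (sum_le_card_nsmul _ _ M fun x hx => ?_).trans ?_
  · rw [mem_filter] at hx
    exact hφ x hx.1 hx.2
  · rw [nsmul_eq_mul]
    exact mul_le_mul_of_nonneg_right h.supp hM

theorem Flat.sum_pow_le (h : Flat k j b B r) {n : ℕ} (hn : n ≠ 0) :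
    ∑ x ∈ ivm k j, |b x| ^ n ≤ r ^ 4 * 2 ^ k * (B / r ^ 2) ^ n := by
  have := h.B0; have := h.r0
  refine h.sum_le _ (by positivity) (fun x hx _ => ?_) fun x _ hb => ?_
  · exact pow_le_pow_left₀ (abs_nonneg _) (h.le x hx) n
  · rw [hb, abs_zero, zero_pow hn]

theorem Flat.avg_sq_le (h : Flat k j b B r) : avg (ivm k j) (fun x => b x ^ 2) ≤ B ^ 2 := by
  have h1 := h.sum_pow_le (n := 2) (by norm_num)
  have hr := h.r0
  unfold avg
  rw [card_ivm]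
  push_cast
  have h2 : (0 : ℝ) < 2 ^ k := by positivity
  rw [inv_mul_le_iff₀ h2]
  calc ∑ x ∈ ivm k j, b x ^ 2 = ∑ x ∈ ivm k j, |b x| ^ 2 :=
        sum_congr rfl fun x _ => (sq_abs _).symm
    _ ≤ _ := h1
    _ = _ := by field_simp

theorem Flat.avg_four_le (h : Flat k j b B r) :
    avg (ivm k j) (fun x => (b x ^ 2) ^ 2) ≤ B ^ 4 / r ^ 4 := by
  have h1 := h.sum_pow_le (n := 4) (by norm_num)
  have hr := h.r0
  unfold avg
  rw [card_ivm]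
  push_cast
  have h2 : (0 : ℝ) < 2 ^ k := by positivity
  rw [inv_mul_le_iff₀ h2]
  calc ∑ x ∈ ivm k j, (b x ^ 2) ^ 2 = ∑ x ∈ ivm k j, |b x| ^ 4 :=
        sum_congr rfl fun x _ => by rw [← sq_abs (b x)]; ring
    _ ≤ _ := h1
    _ = _ := by field_simp

/-! ### the edges `a₁₂`, `a₁₃` -/

theorem sl_sq {x1 m r : ℤ} (hm : m ≠ 0) {N : ℕ} (b' : ℤ → ℝ) (y' : ℕ) (w : ℤ × ℤ) :
    sl x1 m r N b' y' w ^ 2 = sl x1 m r N (fun x => b' x ^ 2) y' w := by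
  by_cases hx : ∃ y : ℕ, y < N ∧ w.1 = x1 + m * y
  · obtain ⟨y, hy, h⟩ := hx
    have e : w = (x1 + m * y, w.2) := Prod.ext h rfl
    rw [e, sl_at hm b' y' hy, sl_at hm (fun x => b' x ^ 2) y' hy]
    ring
  · push Not at hx
    rw [sl_off b' y' hx, sl_off (fun x => b' x ^ 2) y' hx]
    ring

theorem cutI_sq (I : Finset ℤ) (b : ℤ → ℝ) :
    (fun x => cutI I b x ^ 2) = cutI I fun x => b x ^ 2 := by
  funext x
  unfold cutI
  split_ifs <;> simp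

theorem n2_sl_le (h : Flat k j b B r) {x1 m ρ : ℤ} (hm : m ≠ 0) (hρ : ρ ≠ 0) (y' : ℕ)
    (i1 i2 : ℤ) :
    n2 (ivm k i1 ×ˢ ivm k i2) (sl x1 m ρ (2 ^ k) (cutI (ivm k j) b) y') ≤ B ^ 2 := by
  have h1 := avg_sl_le (x1 := x1) hm hρ (k := k) b y' j i1 i2
  have h0 := avg_nonneg (Q := ivm k j) (f := fun x => b x ^ 2) fun _ _ => sq_nonneg _
  unfold H922.n2
  refine Real.sqrt_le_iff.2 ⟨by positivity, h1.trans ?_⟩
  exact pow_le_pow_left₀ h0 h.avg_sq_le 2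

theorem n4_sl_le (h : Flat k j b B r) {x1 m ρ : ℤ} (hm : m ≠ 0) (hρ : ρ ≠ 0) (y' : ℕ)
    (i1 i2 : ℤ) :
    n4 (ivm k i1 ×ˢ ivm k i2) (sl x1 m ρ (2 ^ k) (cutI (ivm k j) b) y') ≤ B ^ 2 / r ^ 2 := by
  have hr := h.r0
  have h1 := avg_sl_le (x1 := x1) hm hρ (k := k) (fun x => b x ^ 2) y' j i1 i2
  have h0 := avg_nonneg (Q := ivm k j) (f := fun x => (b x ^ 2) ^ 2) fun _ _ => sq_nonneg _
  have e : ∀ w, sl x1 m ρ (2 ^ k) (cutI (ivm k j) b) y' w ^ 4 =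
      sl x1 m ρ (2 ^ k) (cutI (ivm k j) fun x => b x ^ 2) y' w ^ 2 := by
    intro w
    rw [show (4 : ℕ) = 2 * 2 by norm_num, pow_mul, sl_sq hm, cutI_sq]
  unfold H922.n4
  simp only [e]
  have h2 : avg (ivm k i1 ×ˢ ivm k i2)
      (fun w => sl x1 m ρ (2 ^ k) (cutI (ivm k j) fun x => b x ^ 2) y' w ^ 2) ≤
      ((B ^ 2 / r ^ 2) ^ 2) ^ 2 := by
    refine h1.trans ((pow_le_pow_left₀ h0 h.avg_four_le 2).trans (le_of_eq ?_))
    field_simp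
  refine Real.sqrt_le_iff.2 ⟨by positivity, ?_⟩
  exact Real.sqrt_le_iff.2 ⟨by positivity, h2⟩

theorem nN_sl_le (h : Flat k j b B r) {x1 m ρ : ℤ} (hm : m ≠ 0) (hρ : ρ ≠ 0) (y' : ℕ)
    (i1 i2 : ℤ) :
    nN (ivm k i1 ×ˢ ivm k i2) (sl x1 m ρ (2 ^ k) (cutI (ivm k j) b) y') ≤ B ^ 2 / r := by
  have hr := h.r0
  have h1 := n2_sl_le h (x1 := x1) hm hρ y' i1 i2
  have h2 := n4_sl_le h (x1 := x1) hm hρ y' i1 i2
  unfold H922.nN
  refine Real.sqrt_le_iff.2 ⟨by positivity, ?_⟩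
  calc _ ≤ B ^ 2 * (B ^ 2 / r ^ 2) := mul_le_mul h1 h2 (n4_nonneg _ _) (by positivity)
    _ = (B ^ 2 / r) ^ 2 := by field_simp

end

end Vale.Agent.P141.H550
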