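import Vale.Agent.P141.H550.PN2a

/-!
# P141, line W, scale-invariant version: the pair norm in the pair weight (2)

The pair norm for two flat functions: only one test per shift; the third edge is cut to the two
supports and at the height `h`.
-/

namespace Vale.Agent.P141.H550

open Finset Vale.Agent.P141.PL.H315 Vale.Agent.P141.H337
open Vale.Agent.P141.H922 (n2 n4 nN n2_nonneg n4_nonneg nN_nonneg pw3 pw3_nonneg n2_sq n4_four)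

noncomputable section

/-- the hypotheses of the pair norm: `s` has window averages `≤ Λ` and is uniform at the level
`τ ^ 16` on the cubes of scale `k` near the box; `g` has window averages `≤ Λg`. -/
structure PNH (τ Λ Λg : ℝ) (k : ℕ) (s g : ℤ → ℝ) (p1 p2 p3 q2 q3 m i1 j2 j3 : ℤ) : Prop where
  τ0 : 0 < τ
  τ1 : τ ≤ 1
  Λ1 : 1 ≤ Λ
  hm : m * p1 = p2 * q3 - p3 * q2
  hm0 : m ≠ 0
  hp1 : p1 ≠ 0
  hp2 : p2 ≠ 0
  hp3 : p3 ≠ 0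
  hq2 : q2 ≠ 0
  hq3 : q3 ≠ 0
  bm : |m| ≤ 4
  b1 : |p1| ≤ 4
  b2 : |p2| ≤ 4
  b3 : |p3| ≤ 4
  bq2 : |q2| ≤ 4
  bq3 : |q3| ≤ 4
  hs : WinSq k Λ s
  hg : WinSq k Λg g
  test : ∀ a1 ∈ Ico (i1 - 4) (i1 + 5), ∀ a2 ∈ Ico (j2 - 4) (j2 + 5), ∀ a3 ∈ Ico (j3 - 4) (j3 + 5),
    ∀ u : Tri, |avg (ivm k a1 ×ˢ ivm k a2 ×ˢ ivm k a3)
      (fun q => s (p1 * q.1 + p2 * q.2.1 + p3 * q.2.2) * atm u q)| ≤
        τ ^ 16 * pw3 (ivm k a1 ×ˢ ivm k a2 ×ˢ ivm k a3) u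

/-- the third edge -/
def ed (_k : ℕ) (s : ℤ → ℝ) (p2 p3 q2 q3 : ℤ) (h : ℝ) (b' c' : ℤ → ℝ) (c0 : ℤ) (y' : ℕ)
    (w : ℤ × ℤ) : ℝ :=
  if |s (c0 + p2 * w.1 + p3 * w.2)| ≤ h ∧ b' (w.1 + q3 * y') ≠ 0 ∧ c' (w.2 + -q2 * y') ≠ 0 then
    s (c0 + p2 * w.1 + p3 * w.2) else 0

theorem ed_sq_le {k : ℕ} {s : ℤ → ℝ} {p2 p3 q2 q3 : ℤ} {h : ℝ} {b' c' : ℤ → ℝ} {c0 : ℤ} {y' : ℕ}
    (w : ℤ × ℤ) : ed k s p2 p3 q2 q3 h b' c' c0 y' w ^ 2 ≤ s (c0 + p2 * w.1 + p3 * w.2) ^ 2 := by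
  unfold ed
  split_ifs
  · exact le_rfl
  · simpa using sq_nonneg _

theorem ed_four_le {k : ℕ} {s : ℤ → ℝ} {p2 p3 q2 q3 : ℤ} {h : ℝ} {b' c' : ℤ → ℝ} {c0 : ℤ} {y' : ℕ}
    (w : ℤ × ℤ) : ed k s p2 p3 q2 q3 h b' c' c0 y' w ^ 4 ≤
      h ^ 2 * ed k s p2 p3 q2 q3 h b' c' c0 y' w ^ 2 := by
  unfold ed
  split_ifs with hh
  · have h1 : s (c0 + p2 * w.1 + p3 * w.2) ^ 2 ≤ h ^ 2 := by
      rw [← sq_abs]; exact pow_le_pow_left₀ (abs_nonneg _) hh.1 2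
    nlinarith [sq_nonneg (s (c0 + p2 * w.1 + p3 * w.2))]
  · simp

/-- a sum over shifted points of the support of `c'` -/
theorem shift_supp {k : ℕ} {j : ℤ} {c : ℤ → ℝ} {B r : ℝ} (hc : Flat k j c B r) (a : ℤ)
    (S : Finset ℤ) (φ : ℤ → ℝ) {M : ℝ} (hM : 0 ≤ M) (h0 : ∀ x, cutI (ivm k j) c (x + a) = 0 → φ x = 0)
    (hφ : ∀ x, φ x ≤ M) : ∑ x ∈ S, φ x ≤ r ^ 4 * 2 ^ k * M := by
  classical
  have h1 : ∑ x ∈ S, φ x = ∑ x ∈ S.filter (fun x => cutI (ivm k j) c (x + a) ≠ 0), φ x := by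
    rw [sum_filter]
    refine sum_congr rfl fun x _ => ?_
    split_ifs with hx
    · rfl
    · exact h0 x (by simpa using hx)
  rw [h1]
  refine (sum_le_card_nsmul _ _ M fun x _ => hφ x).trans ?_
  rw [nsmul_eq_mul]
  refine mul_le_mul_of_nonneg_right ?_ hM
  refine le_trans ?_ hc.supp
  have hinj : Set.InjOn (fun x : ℤ => x + a)
      (S.filter (fun x => cutI (ivm k j) c (x + a) ≠ 0) : Finset ℤ) := by
    intro x _ y _ h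
    simpa using h
  rw [← card_image_of_injOn hinj]
  refine Nat.cast_le.2 (card_le_card ?_)
  intro z hz
  rw [mem_image] at hz
  obtain ⟨x, hx, rfl⟩ := hz
  rw [mem_filter] at hx ⊢
  by_cases hj : x + a ∈ ivm k j
  · refine ⟨hj, ?_⟩
    have := hx.2
    rwa [cutI_of_mem hj] at this
  · exact absurd (cutI_of_not_mem hj) hx.2

variable {τ Λ Λg : ℝ} {k : ℕ} {s g : ℤ → ℝ} {p1 p2 p3 q2 q3 m i1 j2 j3 : ℤ}
  {b c : ℤ → ℝ} {Bb rb Bc rc : ℝ}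

/-- the `L²` sum of the third edge -/
theorem ed_sum_c (H : PNH τ Λ Λg k s g p1 p2 p3 q2 q3 m i1 j2 j3) (hc : Flat k j3 c Bc rc)
    {h : ℝ} (b' : ℤ → ℝ) (c0 : ℤ) (y' : ℕ) (a2 a3 : ℤ) :
    ∑ w ∈ ivm k a2 ×ˢ ivm k a3, ed k s p2 p3 q2 q3 h b' (cutI (ivm k j3) c) c0 y' w ^ 2 ≤
      4 ^ k * (4 * Λ * rc ^ 4) := by
  have hΛ := H.hs.nonneg
  rw [sum_product_right]
  have h1 := shift_supp hc (-q2 * y') (ivm k a3)
    (fun x3 => ∑ x2 ∈ ivm k a2, ed k s p2 p3 q2 q3 h b' (cutI (ivm k j3) c) c0 y' (x2, x3) ^ 2)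
    (M := 4 * (2 ^ k * Λ)) (by positivity) (fun x3 hx => ?_) fun x3 => ?_
  · refine h1.trans (le_of_eq ?_)
    have : (4 : ℝ) ^ k = 2 ^ k * 2 ^ k := by rw [← mul_pow]; norm_num
    rw [this]; ring
  · refine sum_eq_zero fun x2 _ => ?_
    unfold ed
    rw [if_neg (fun hh => hh.2.2 hx)]
    simp
  · refine (sum_le_sum fun x2 _ => ed_sq_le _).trans ?_
    have := H.hs.line_ivm H.hp2 (R := 4) (by exact_mod_cast H.b2) (c0 + p3 * x3) a2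
    refine le_trans (le_of_eq (sum_congr rfl fun x2 _ => ?_)) this
    simp only
    congr 2
    ring

theorem ed_sum_b (H : PNH τ Λ Λg k s g p1 p2 p3 q2 q3 m i1 j2 j3) (hb : Flat k j2 b Bb rb)
    {h : ℝ} (c' : ℤ → ℝ) (c0 : ℤ) (y' : ℕ) (a2 a3 : ℤ) :
    ∑ w ∈ ivm k a2 ×ˢ ivm k a3, ed k s p2 p3 q2 q3 h (cutI (ivm k j2) b) c' c0 y' w ^ 2 ≤
      4 ^ k * (4 * Λ * rb ^ 4) := by
  have hΛ := H.hs.nonneg
  rw [sum_product]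
  have h1 := shift_supp hb (q3 * y') (ivm k a2)
    (fun x2 => ∑ x3 ∈ ivm k a3, ed k s p2 p3 q2 q3 h (cutI (ivm k j2) b) c' c0 y' (x2, x3) ^ 2)
    (M := 4 * (2 ^ k * Λ)) (by positivity) (fun x2 hx => ?_) fun x2 => ?_
  · refine h1.trans (le_of_eq ?_)
    have : (4 : ℝ) ^ k = 2 ^ k * 2 ^ k := by rw [← mul_pow]; norm_num
    rw [this]; ring
  · refine sum_eq_zero fun x3 _ => ?_
    unfold ed
    rw [if_neg (fun hh => hh.2.1 hx)]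
    simp
  · refine (sum_le_sum fun x3 _ => ed_sq_le _).trans ?_
    have := H.hs.line_ivm H.hp3 (R := 4) (by exact_mod_cast H.b3) (c0 + p2 * x2) a3
    exact this

/-- the `L²` norm of the third edge -/
theorem n2_ed_le (H : PNH τ Λ Λg k s g p1 p2 p3 q2 q3 m i1 j2 j3) (hb : Flat k j2 b Bb rb)
    (hc : Flat k j3 c Bc rc) {h : ℝ} (c0 : ℤ) (y' : ℕ) (a2 a3 : ℤ) :
    n2 (ivm k a2 ×ˢ ivm k a3)
      (ed k s p2 p3 q2 q3 h (cutI (ivm k j2) b) (cutI (ivm k j3) c) c0 y') ≤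
      2 * Λ * min rb rc ^ 2 := by
  have hr1 := hb.r0
  have hr2 := hc.r0
  have hΛ1 := H.Λ1
  have hr : 0 < min rb rc := lt_min hr1 hr2
  have h1 := ed_sum_b H hb (h := h) (cutI (ivm k j3) c) c0 y' a2 a3
  have h2 := ed_sum_c H hc (h := h) (cutI (ivm k j2) b) c0 y' a2 a3
  have h3 : ∑ w ∈ ivm k a2 ×ˢ ivm k a3,
      ed k s p2 p3 q2 q3 h (cutI (ivm k j2) b) (cutI (ivm k j3) c) c0 y' w ^ 2 ≤
      4 ^ k * (4 * Λ * min rb rc ^ 4) := by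
    rcases min_choice rb rc with h' | h'
    · rw [h']; exact h1
    · rw [h']; exact h2
  unfold H922.n2
  refine Real.sqrt_le_iff.2 ⟨by positivity, ?_⟩
  unfold avg
  rw [card_product, card_ivm, card_ivm]
  push_cast
  have e : (2 : ℝ) ^ k * 2 ^ k = 4 ^ k := by rw [← mul_pow]; norm_num
  rw [e, inv_mul_le_iff₀ (by positivity)]
  refine h3.trans (mul_le_mul_of_nonneg_left ?_ (by positivity))
  have h4 : 0 < min rb rc ^ 4 := by positivity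
  have e2 : (2 * Λ * min rb rc ^ 2) ^ 2 = 4 * Λ ^ 2 * min rb rc ^ 4 := by ring
  rw [e2]
  nlinarith

/-- the pair norm of the third edge -/
theorem nN_ed_le (H : PNH τ Λ Λg k s g p1 p2 p3 q2 q3 m i1 j2 j3) (hb : Flat k j2 b Bb rb)
    (hc : Flat k j3 c Bc rc) (c0 : ℤ) (y' : ℕ) (a2 a3 : ℤ) :
    nN (ivm k a2 ×ˢ ivm k a3)
      (ed k s p2 p3 q2 q3 (min rb rc ^ 2 * τ ^ 8)⁻¹ (cutI (ivm k j2) b) (cutI (ivm k j3) c) c0 y') ≤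
      2 * Λ * min rb rc / τ ^ 2 := by
  have hr1 := hb.r0
  have hr2 := hc.r0
  have hΛ1 := H.Λ1
  have hτ := H.τ0
  have hr : 0 < min rb rc := lt_min hr1 hr2
  set r := min rb rc with hrdef
  set h : ℝ := (r ^ 2 * τ ^ 8)⁻¹ with hh
  set f := ed k s p2 p3 q2 q3 h (cutI (ivm k j2) b) (cutI (ivm k j3) c) c0 y' with hf
  set Q := ivm k a2 ×ˢ ivm k a3 with hQ
  have h2 : n2 Q f ≤ 2 * Λ * r ^ 2 := n2_ed_le H hb hc c0 y' a2 a3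
  have h2' : n2 Q f ^ 2 ≤ (2 * Λ * r ^ 2) ^ 2 := pow_le_pow_left₀ (n2_nonneg _ _) h2 2
  have h4 : n4 Q f ^ 4 ≤ h ^ 2 * n2 Q f ^ 2 := by
    rw [n4_four, n2_sq]
    unfold avg
    rw [mul_left_comm]
    refine mul_le_mul_of_nonneg_left ?_ (by positivity)
    rw [mul_sum]
    exact sum_le_sum fun w _ => ed_four_le w
  have h4' : n4 Q f ^ 4 ≤ (2 * Λ / τ ^ 4) ^ 4 := by
    refine h4.trans ((mul_le_mul_of_nonneg_left h2' (by positivity)).trans ?_)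
    rw [hh]
    have e : ((r ^ 2 * τ ^ 8)⁻¹) ^ 2 * (2 * Λ * r ^ 2) ^ 2 = (2 * Λ) ^ 2 / τ ^ 16 := by
      field_simp
    have e2 : (2 * Λ / τ ^ 4) ^ 4 = (2 * Λ) ^ 4 / τ ^ 16 := by
      rw [div_pow, ← pow_mul]
    rw [e, e2]
    refine div_le_div_of_nonneg_right ?_ (by positivity)
    exact pow_le_pow_right₀ (by linarith) (by norm_num)
  have h4'' : n4 Q f ≤ 2 * Λ / τ ^ 4 :=
    le_of_pow_le_pow_left₀ (by norm_num) (by positivity) h4'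
  unfold H922.nN
  refine Real.sqrt_le_iff.2 ⟨by positivity, ?_⟩
  calc n2 Q f * n4 Q f ≤ 2 * Λ * r ^ 2 * (2 * Λ / τ ^ 4) :=
        mul_le_mul h2 h4'' (n4_nonneg _ _) (by positivity)
    _ = (2 * Λ * r / τ ^ 2) ^ 2 := by field_simp

/-- **the weight of the test** -/
theorem pw3_test_le (H : PNH τ Λ Λg k s g p1 p2 p3 q2 q3 m i1 j2 j3) (hb : Flat k j2 b Bb rb)
    (hc : Flat k j3 c Bc rc) (x1 c0 : ℤ) (y' : ℕ) (a1 a2 a3 : ℤ) :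
    pw3 (ivm k a1 ×ˢ ivm k a2 ×ˢ ivm k a3)
      (sl x1 m q3 (2 ^ k) (cutI (ivm k j2) b) y', sl x1 m (-q2) (2 ^ k) (cutI (ivm k j3) c) y',
        ed k s p2 p3 q2 q3 (min rb rc ^ 2 * τ ^ 8)⁻¹ (cutI (ivm k j2) b) (cutI (ivm k j3) c)
          c0 y') ≤ 6 * Λ * Bb ^ 2 * Bc ^ 2 / τ ^ 2 := by
  have hr1 := hb.r0
  have hr2 := hc.r0
  have hB1 := hb.B0
  have hB2 := hc.B0
  have hΛ1 := H.Λ1
  have hτ := H.τ0
  have hτ1 := H.τ1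
  have hr : 0 < min rb rc := lt_min hr1 hr2
  have hcube : cube3 k (2 ^ k * a1, 2 ^ k * a2, 2 ^ k * a3) = ivm k a1 ×ˢ ivm k a2 ×ˢ ivm k a3 := by
    unfold cube3
    simp only [← ivm_eq_iv']
  rw [← hcube]
  unfold H922.pw3
  simp only [H347.Tr.n2_e12, H347.Tr.n2_e13, H347.Tr.n2_e23, H347.Tr.nN_e12, H347.Tr.nN_e13,
    H347.Tr.nN_e23, ← ivm_eq_iv']
  have A1 := n2_sl_le hb (x1 := x1) H.hm0 H.hq3 y' a1 a2
  have A2 := nN_sl_le hb (x1 := x1) H.hm0 H.hq3 y' a1 a2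
  have C1 := n2_sl_le hc (x1 := x1) H.hm0 (neg_ne_zero.2 H.hq2) y' a1 a3
  have C2 := nN_sl_le hc (x1 := x1) H.hm0 (neg_ne_zero.2 H.hq2) y' a1 a3
  have E1 := n2_ed_le H hb hc (h := (min rb rc ^ 2 * τ ^ 8)⁻¹) c0 y' a2 a3
  have E2 := nN_ed_le H hb hc c0 y' a2 a3
  set r := min rb rc with hrdef
  have hrb : r ≤ rb := min_le_left _ _
  have hrc : r ≤ rc := min_le_right _ _
  have t1 : (Bb ^ 2 / rb) * (Bc ^ 2 / rc) * (2 * Λ * r ^ 2) ≤ 2 * Λ * Bb ^ 2 * Bc ^ 2 / τ ^ 2 := by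
    have e : (Bb ^ 2 / rb) * (Bc ^ 2 / rc) * (2 * Λ * r ^ 2) =
        2 * Λ * Bb ^ 2 * Bc ^ 2 * ((r / rb) * (r / rc)) := by field_simp
    rw [e]
    have h1 : r / rb ≤ 1 := (div_le_one hr1).2 hrb
    have h2 : r / rc ≤ 1 := (div_le_one hr2).2 hrc
    have h3 : (r / rb) * (r / rc) ≤ 1 := mul_le_one₀ h1 (by positivity) h2
    have h4 : 1 ≤ 1 / τ ^ 2 := by
      rw [le_div_iff₀ (by positivity), one_mul]
      exact pow_le_one₀ hτ.le hτ1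
    calc _ ≤ 2 * Λ * Bb ^ 2 * Bc ^ 2 * (1 / τ ^ 2) :=
          mul_le_mul_of_nonneg_left (h3.trans h4) (by positivity)
      _ = _ := by ring
  have t2 : (Bb ^ 2 / rb) * (2 * Λ * r / τ ^ 2) * Bc ^ 2 ≤ 2 * Λ * Bb ^ 2 * Bc ^ 2 / τ ^ 2 := by
    have e : (Bb ^ 2 / rb) * (2 * Λ * r / τ ^ 2) * Bc ^ 2 =
        2 * Λ * Bb ^ 2 * Bc ^ 2 / τ ^ 2 * (r / rb) := by field_simp
    rw [e]
    have h1 : r / rb ≤ 1 := (div_le_one hr1).2 hrb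
    exact mul_le_of_le_one_right (by positivity) h1
  have t3 : (Bc ^ 2 / rc) * (2 * Λ * r / τ ^ 2) * Bb ^ 2 ≤ 2 * Λ * Bb ^ 2 * Bc ^ 2 / τ ^ 2 := by
    have e : (Bc ^ 2 / rc) * (2 * Λ * r / τ ^ 2) * Bb ^ 2 =
        2 * Λ * Bb ^ 2 * Bc ^ 2 / τ ^ 2 * (r / rc) := by field_simp
    rw [e]
    have h1 : r / rc ≤ 1 := (div_le_one hr2).2 hrc
    exact mul_le_of_le_one_right (by positivity) h1
  calc _ ≤ (Bb ^ 2 / rb) * (Bc ^ 2 / rc) * (2 * Λ * r ^ 2) +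
        (Bb ^ 2 / rb) * (2 * Λ * r / τ ^ 2) * Bc ^ 2 +
        (Bc ^ 2 / rc) * (2 * Λ * r / τ ^ 2) * Bb ^ 2 := by
        refine add_le_add (add_le_add ?_ ?_) ?_
        · exact mul_le_mul (mul_le_mul A2 C2 (nN_nonneg _ _) (by positivity)) E1 (n2_nonneg _ _)
            (by positivity)
        · exact mul_le_mul (mul_le_mul A2 E2 (nN_nonneg _ _) (by positivity)) C1 (n2_nonneg _ _)
            (by positivity)
        · exact mul_le_mul (mul_le_mul C2 E2 (nN_nonneg _ _) (by positivity)) A1 (n2_nonneg _ _)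
            (by positivity)
    _ ≤ _ := by
        have : 6 * Λ * Bb ^ 2 * Bc ^ 2 / τ ^ 2 = 2 * Λ * Bb ^ 2 * Bc ^ 2 / τ ^ 2 +
          2 * Λ * Bb ^ 2 * Bc ^ 2 / τ ^ 2 + 2 * Λ * Bb ^ 2 * Bc ^ 2 / τ ^ 2 := by ring
        rw [this]
        exact add_le_add (add_le_add t1 t2) t3

end

end Vale.Agent.P141.H550
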