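import Vale.Agent.P141.H550.PN2b

/-!
# P141, line W, scale-invariant version: the pair norm in the pair weight (3)

The main estimate for two flat functions.
-/

namespace Vale.Agent.P141.H550

open Finset Vale.Agent.P141.PL.H315 Vale.Agent.P141.H337
open Vale.Agent.P141.H922 (n2 n4 nN n2_nonneg n4_nonneg nN_nonneg pw3 pw3_nonneg n2_sq n4_four)

noncomputable section

/-- sum over 729 cubes near a given one -/
theorem sum3_le' (k : ℕ) (i1 j2 j3 : ℤ) (ψ : ℤ → ℤ → ℤ → ℝ) {M : ℝ}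
    (h : ∀ a1 ∈ Ico (i1 - 4) (i1 + 5), ∀ a2 ∈ Ico (j2 - 4) (j2 + 5), ∀ a3 ∈ Ico (j3 - 4) (j3 + 5),
      ∑ z1 ∈ ivm k a1, ∑ z2 ∈ ivm k a2, ∑ z3 ∈ ivm k a3, ψ z1 z2 z3 ≤ M) :
    ∑ z1 ∈ Ico (2 ^ k * (i1 - 4)) (2 ^ k * (i1 + 5)), ∑ z2 ∈ Ico (2 ^ k * (j2 - 4)) (2 ^ k * (j2 + 5)),
      ∑ z3 ∈ Ico (2 ^ k * (j3 - 4)) (2 ^ k * (j3 + 5)), ψ z1 z2 z3 ≤ 729 * M := by
  have card9 : ∀ j : ℤ, (Ico (j - 4) (j + 5)).card = 9 := by
    intro j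
    rw [Int.card_Ico]
    have : j + 5 - (j - 4) = 9 := by ring
    rw [this]; rfl
  rw [sum_long]
  have h1 : ∀ a1 ∈ Ico (i1 - 4) (i1 + 5), ∑ z1 ∈ ivm k a1,
      ∑ z2 ∈ Ico (2 ^ k * (j2 - 4)) (2 ^ k * (j2 + 5)),
      ∑ z3 ∈ Ico (2 ^ k * (j3 - 4)) (2 ^ k * (j3 + 5)), ψ z1 z2 z3 ≤ 81 * M := by
    intro a1 ha1
    rw [sum_comm, sum_long]
    have h2 : ∀ a2 ∈ Ico (j2 - 4) (j2 + 5), ∑ z2 ∈ ivm k a2, ∑ z1 ∈ ivm k a1,
        ∑ z3 ∈ Ico (2 ^ k * (j3 - 4)) (2 ^ k * (j3 + 5)), ψ z1 z2 z3 ≤ 9 * M := by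
      intro a2 ha2
      rw [sum_comm]
      have h3 : ∑ z1 ∈ ivm k a1, ∑ z2 ∈ ivm k a2,
          ∑ z3 ∈ Ico (2 ^ k * (j3 - 4)) (2 ^ k * (j3 + 5)), ψ z1 z2 z3 =
          ∑ a3 ∈ Ico (j3 - 4) (j3 + 5), ∑ z1 ∈ ivm k a1, ∑ z2 ∈ ivm k a2, ∑ z3 ∈ ivm k a3,
            ψ z1 z2 z3 := by
        rw [sum_comm (s := Ico (j3 - 4) (j3 + 5))]
        refine sum_congr rfl fun z1 _ => ?_
        rw [sum_comm (s := Ico (j3 - 4) (j3 + 5))]
        exact sum_congr rfl fun z2 _ => sum_long k _ _ _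
      rw [h3]
      refine (sum_le_card_nsmul _ _ _ fun a3 ha3 => h a1 ha1 a2 ha2 a3 ha3).trans (le_of_eq ?_)
      rw [card9, nsmul_eq_mul]; norm_num
    refine (sum_le_card_nsmul _ _ _ h2).trans (le_of_eq ?_)
    rw [card9, nsmul_eq_mul]; push_cast; ring
  refine (sum_le_card_nsmul _ _ _ h1).trans (le_of_eq ?_)
  rw [card9, nsmul_eq_mul]; push_cast; ring

variable {τ Λ Λg : ℝ} {k : ℕ} {s g : ℤ → ℝ} {p1 p2 p3 q2 q3 m i1 j2 j3 : ℤ}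
  {b c : ℤ → ℝ} {Bb rb Bc rc : ℝ}

theorem four_pow (k : ℕ) : (4 : ℝ) ^ k = 2 ^ k * 2 ^ k := by rw [← mul_pow]; norm_num

/-- the average of `g²` -/
theorem gsum_le' (hg : WinSq k Λg g) (hq3 : q3 ≠ 0) (bq3 : |q3| ≤ 4) (c0 : ℤ) :
    ∑ w ∈ Ico (2 ^ k * (j2 - 4)) (2 ^ k * (j2 + 5)) ×ˢ Ico (2 ^ k * (j3 - 4)) (2 ^ k * (j3 + 5)),
      g (c0 + q2 * w.1 + q3 * w.2) ^ 2 ≤ 324 * (4 ^ k * Λg) := by
  have hΛ := hg.nonneg
  rw [sum_product]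
  have h1 : ∀ x2 ∈ Ico (2 ^ k * (j2 - 4)) (2 ^ k * (j2 + 5)),
      ∑ x3 ∈ Ico (2 ^ k * (j3 - 4)) (2 ^ k * (j3 + 5)), g (c0 + q2 * x2 + q3 * x3) ^ 2 ≤
        36 * (2 ^ k * Λg) := by
    intro x2 _
    have := hg.line_long hq3 (R := 4) (by exact_mod_cast bq3) (c0 + q2 * x2) j3
    refine this.trans (le_of_eq ?_)
    push_cast; ring
  refine (sum_le_card_nsmul _ _ _ h1).trans (le_of_eq ?_)
  rw [Int.card_Ico, nsmul_eq_mul]
  have : ((2 ^ k * (j2 + 5) - 2 ^ k * (j2 - 4) : ℤ).toNat : ℝ) = 9 * 2 ^ k := by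
    have e : (2 ^ k * (j2 + 5) - 2 ^ k * (j2 - 4) : ℤ) = ((9 * 2 ^ k : ℕ) : ℤ) := by
      push_cast; ring
    rw [e, Int.toNat_natCast]
    push_cast; ring
  rw [this, four_pow]
  ring

theorem gsum_le (H : PNH τ Λ Λg k s g p1 p2 p3 q2 q3 m i1 j2 j3) (c0 : ℤ) :
    ∑ w ∈ Ico (2 ^ k * (j2 - 4)) (2 ^ k * (j2 + 5)) ×ˢ Ico (2 ^ k * (j3 - 4)) (2 ^ k * (j3 + 5)),
      g (c0 + q2 * w.1 + q3 * w.2) ^ 2 ≤ 324 * (4 ^ k * Λg) :=
  gsum_le' H.hg H.hq3 H.bq3 c0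

/-- the tall part of the second copy -/
theorem tall_le (H : PNH τ Λ Λg k s g p1 p2 p3 q2 q3 m i1 j2 j3) (hb : Flat k j2 b Bb rb)
    (hc : Flat k j3 c Bc rc) (x1 : ℤ) :
    ∑ w ∈ Ico (2 ^ k * (j2 - 4)) (2 ^ k * (j2 + 5)) ×ˢ Ico (2 ^ k * (j3 - 4)) (2 ^ k * (j3 + 5)),
      (∑ y ∈ range (2 ^ k), (if |s (p1 * (x1 + m * y) + p2 * w.1 + p3 * w.2)| ≤
        (min rb rc ^ 2 * τ ^ 8)⁻¹ then 0 else s (p1 * (x1 + m * y) + p2 * w.1 + p3 * w.2)) *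
        (cutI (ivm k j2) b (w.1 + q3 * y) * cutI (ivm k j3) c (w.2 + -q2 * y))) ^ 2 ≤
      576 * 16 ^ k * Λ ^ 2 * Bb ^ 2 * Bc ^ 2 * τ ^ 16 := by
  classical
  have hr1 := hb.r0
  have hr2 := hc.r0
  have hB1 := hb.B0
  have hB2 := hc.B0
  have hΛ := H.hs.nonneg
  have hτ := H.τ0
  have hr : 0 < min rb rc := lt_min hr1 hr2
  set r := min rb rc with hrdef
  set h : ℝ := (r ^ 2 * τ ^ 8)⁻¹ with hh
  have hh0 : 0 < h := by positivity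
  set X2 := Ico (2 ^ k * (j2 - 4)) (2 ^ k * (j2 + 5)) with hX2
  set X3 := Ico (2 ^ k * (j3 - 4)) (2 ^ k * (j3 + 5)) with hX3
  set b' := cutI (ivm k j2) b with hb'
  set c' := cutI (ivm k j3) c with hc'
  set N : ℕ := 2 ^ k with hN
  -- pointwise Cauchy-Schwarz
  have h1 : ∀ w : ℤ × ℤ, (∑ y ∈ range N, (if |s (p1 * (x1 + m * y) + p2 * w.1 + p3 * w.2)| ≤ h
      then 0 else s (p1 * (x1 + m * y) + p2 * w.1 + p3 * w.2)) *
        (b' (w.1 + q3 * y) * c' (w.2 + -q2 * y))) ^ 2 ≤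
      ((Bb / rb ^ 2) ^ 2 * (16 * (2 ^ k * Λ))) * ∑ y ∈ range N,
        (s (p1 * (x1 + m * y) + p2 * w.1 + p3 * w.2) ^ 2 / h ^ 2) * c' (w.2 + -q2 * y) ^ 2 := by
    intro w
    have e : ∀ y : ℕ, (if |s (p1 * (x1 + m * y) + p2 * w.1 + p3 * w.2)| ≤ h
        then 0 else s (p1 * (x1 + m * y) + p2 * w.1 + p3 * w.2)) *
        (b' (w.1 + q3 * y) * c' (w.2 + -q2 * y)) =
        (s (p1 * (x1 + m * y) + p2 * w.1 + p3 * w.2) * b' (w.1 + q3 * y)) *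
        ((if |s (p1 * (x1 + m * y) + p2 * w.1 + p3 * w.2)| ≤ h then 0 else 1) *
          c' (w.2 + -q2 * y)) := by
      intro y
      split_ifs <;> ring
    simp only [e]
    refine (sum_mul_sq_le_sq_mul_sq _ _ _).trans ?_
    refine mul_le_mul ?_ ?_ (sum_nonneg fun _ _ => sq_nonneg _) (by positivity)
    · have h2 : ∀ y ∈ range N, (s (p1 * (x1 + m * y) + p2 * w.1 + p3 * w.2) *
          b' (w.1 + q3 * y)) ^ 2 ≤ (Bb / rb ^ 2) ^ 2 *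
          s ((p1 * x1 + p2 * w.1 + p3 * w.2) + (p1 * m) * y) ^ 2 := by
        intro y _
        have e1 : p1 * (x1 + m * y) + p2 * w.1 + p3 * w.2 =
            (p1 * x1 + p2 * w.1 + p3 * w.2) + (p1 * m) * y := by ring
        rw [e1, mul_pow, mul_comm]
        refine mul_le_mul_of_nonneg_right ?_ (sq_nonneg _)
        rw [← sq_abs]
        exact pow_le_pow_left₀ (abs_nonneg _) (hb.cut_le _) 2
      refine (sum_le_sum h2).trans ?_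
      rw [← mul_sum]
      refine mul_le_mul_of_nonneg_left ?_ (by positivity)
      have h3 : |p1 * m| ≤ ((16 : ℕ) : ℤ) := by
        rw [abs_mul]
        have := H.b1; have := H.bm
        have h0 := abs_nonneg p1
        have h0' := abs_nonneg m
        push_cast
        nlinarith
      have := H.hs.line_range (mul_ne_zero H.hp1 H.hm0) h3 (p1 * x1 + p2 * w.1 + p3 * w.2)
      refine this.trans (le_of_eq ?_)
      push_cast; ring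
    · refine sum_le_sum fun y _ => ?_
      rw [mul_pow]
      refine mul_le_mul_of_nonneg_right ?_ (sq_nonneg _)
      split_ifs with hs
      · rw [zero_pow (by norm_num)]; positivity
      · rw [one_pow, one_le_div (by positivity), ← sq_abs (s _)]
        exact pow_le_pow_left₀ hh0.le (not_le.1 hs).le 2
  refine (sum_le_sum fun w _ => h1 w).trans ?_
  rw [← mul_sum, sum_comm]
  -- for a fixed `y`
  have h4 : ∀ y ∈ range N, ∑ w ∈ X2 ×ˢ X3,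
      (s (p1 * (x1 + m * y) + p2 * w.1 + p3 * w.2) ^ 2 / h ^ 2) * c' (w.2 + -q2 * y) ^ 2 ≤
      36 * (2 ^ k * Λ) / h ^ 2 * (2 ^ k * Bc ^ 2) := by
    intro y _
    rw [sum_product_right]
    have h5 : ∀ x3 ∈ X3, ∑ x2 ∈ X2,
        (s (p1 * (x1 + m * y) + p2 * x2 + p3 * x3) ^ 2 / h ^ 2) * c' (x3 + -q2 * y) ^ 2 ≤
        36 * (2 ^ k * Λ) / h ^ 2 * c' (x3 + -q2 * y) ^ 2 := by
      intro x3 _
      rw [← sum_mul, ← sum_div]
      refine mul_le_mul_of_nonneg_right ?_ (sq_nonneg _)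
      refine div_le_div_of_nonneg_right ?_ (by positivity)
      have := H.hs.line_long H.hp2 (R := 4) (by exact_mod_cast H.b2)
        (p1 * (x1 + m * y) + p3 * x3) j2
      have e : ∑ x2 ∈ X2, s (p1 * (x1 + m * y) + p2 * x2 + p3 * x3) ^ 2 =
          ∑ x2 ∈ X2, s (p1 * (x1 + m * y) + p3 * x3 + p2 * x2) ^ 2 :=
        sum_congr rfl fun x2 _ => by congr 2; ring
      rw [e]
      refine this.trans (le_of_eq ?_)
      push_cast; ring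
    refine (sum_le_sum h5).trans ?_
    rw [← mul_sum]
    refine mul_le_mul_of_nonneg_left ?_ (by positivity)
    have h6 := sum_cutI_sq_le (ivm k j3) X3 c (fun z => z + -q2 * y)
      (fun a _ d _ h => by simpa using h)
    refine h6.trans ?_
    have h7 := hc.avg_sq_le
    unfold avg at h7
    rw [card_ivm] at h7
    push_cast at h7
    rwa [inv_mul_le_iff₀ (by positivity)] at h7
  refine (mul_le_mul_of_nonneg_left (sum_le_card_nsmul _ _ _ h4) (by positivity)).trans ?_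
  rw [card_range, nsmul_eq_mul, hN]
  push_cast
  have e16 : (16 : ℝ) ^ k = 2 ^ k * 2 ^ k * (2 ^ k * 2 ^ k) := by
    rw [← mul_pow, ← mul_pow]; norm_num
  have e1 : (Bb / rb ^ 2) ^ 2 * (16 * (2 ^ k * Λ)) *
      (2 ^ k * (36 * (2 ^ k * Λ) / h ^ 2 * (2 ^ k * Bc ^ 2))) =
      576 * 16 ^ k * Λ ^ 2 * Bb ^ 2 * Bc ^ 2 * (1 / (rb ^ 4 * h ^ 2)) := by
    rw [e16]
    field_simp
    ring
  rw [e1]
  refine mul_le_mul_of_nonneg_left ?_ (by positivity)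
  have e2 : 1 / (rb ^ 4 * h ^ 2) = τ ^ 16 * (r / rb) ^ 4 := by
    rw [hh]
    field_simp
  rw [e2]
  have h8 : r / rb ≤ 1 := (div_le_one hr1).2 (min_le_left _ _)
  exact mul_le_of_le_one_right (by positivity) (pow_le_one₀ (by positivity) h8)

/-- the sum along the invariance line -/
def Phi (k : ℕ) (s : ℤ → ℝ) (p1 p2 p3 q2 q3 m x1 : ℤ) (b' c' : ℤ → ℝ) (x2 x3 : ℤ) : ℝ :=
  ∑ y ∈ range (2 ^ k),
    s (p1 * (x1 + m * y) + p2 * x2 + p3 * x3) * (b' (x2 + q3 * y) * c' (x3 + -q2 * y))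

/-- bounds of the shifts -/
theorem shift_bd (k : ℕ) {r : ℤ} (hr : |r| ≤ 4) {y : ℕ} (hy : y < 2 ^ k) :
    -(4 * 2 ^ k) ≤ r * y ∧ r * y ≤ 4 * 2 ^ k := by
  have hy' : (y : ℤ) ≤ 2 ^ k := by exact_mod_cast hy.le
  have h0 : (0 : ℤ) ≤ y := Int.natCast_nonneg y
  rw [abs_le] at hr
  constructor <;> nlinarith

/-- the shift -/
theorem shift_id {k : ℕ} {s g : ℤ → ℝ} {p1 p2 p3 q2 q3 m : ℤ} (hm : m * p1 = p2 * q3 - p3 * q2)
    (b2 : |q2| ≤ 4) (b3 : |q3| ≤ 4) (j2 j3 x1 c0 : ℤ) (b c : ℤ → ℝ) :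
    (2 ^ k : ℝ) * ∑ x2 ∈ ivm k j2, ∑ x3 ∈ ivm k j3, s (p1 * x1 + p2 * x2 + p3 * x3) *
        g (c0 + q2 * x2 + q3 * x3) * b x2 * c x3 =
      ∑ w ∈ Ico (2 ^ k * (j2 - 4)) (2 ^ k * (j2 + 5)) ×ˢ
        Ico (2 ^ k * (j3 - 4)) (2 ^ k * (j3 + 5)), g (c0 + q2 * w.1 + q3 * w.2) *
        Phi k s p1 p2 p3 q2 q3 m x1 (cutI (ivm k j2) b) (cutI (ivm k j3) c) w.1 w.2 := by
  set b' := cutI (ivm k j2) b with hb'
  set c' := cutI (ivm k j3) c with hc'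
  set T : ℝ := ∑ x2 ∈ ivm k j2, ∑ x3 ∈ ivm k j3, s (p1 * x1 + p2 * x2 + p3 * x3) *
        g (c0 + q2 * x2 + q3 * x3) * b x2 * c x3 with hT
  set X2 : Finset ℤ := Ico (2 ^ k * (j2 - 4)) (2 ^ k * (j2 + 5)) with hX2
  set X3 : Finset ℤ := Ico (2 ^ k * (j3 - 4)) (2 ^ k * (j3 + 5)) with hX3
  have h2k : (0 : ℤ) < 2 ^ k := by positivity
  have h1 : ∀ y ∈ range (2 ^ k), T = ∑ x2 ∈ X2, ∑ x3 ∈ X3, g (c0 + q2 * x2 + q3 * x3) *
      (s (p1 * (x1 + m * y) + p2 * x2 + p3 * x3) * (b' (x2 + q3 * y) * c' (x3 + -q2 * y))) := by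
    intro y hy
    rw [mem_range] at hy
    have hs3 := shift_bd k (r := -q2) (by rwa [abs_neg]) hy
    have hs2 := shift_bd k (r := q3) b3 hy
    -- inner
    have hin : ∀ x2, ∑ x3 ∈ X3, g (c0 + q2 * x2 + q3 * x3) *
        (s (p1 * (x1 + m * y) + p2 * x2 + p3 * x3) * (b' (x2 + q3 * y) * c' (x3 + -q2 * y))) =
        ∑ x3 ∈ ivm k j3, g (c0 + q2 * (x2 + q3 * y) + q3 * x3) *
          (s (p1 * x1 + p2 * (x2 + q3 * y) + p3 * x3) * (b' (x2 + q3 * y) * c' x3)) := by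
      intro x2
      have := sum_shift (I := ivm k j3) (X := X3) (φ := fun x3 =>
        g (c0 + q2 * (x2 + q3 * y) + q3 * x3) *
          (s (p1 * x1 + p2 * (x2 + q3 * y) + p3 * x3) * (b' (x2 + q3 * y) * c' x3))) (-q2 * y)
        (fun x hx => by simp only [hc', cutI_of_not_mem hx, mul_zero]) ?_
      · rw [← this]
        refine sum_congr rfl fun x3 _ => ?_
        have e1 : c0 + q2 * (x2 + q3 * y) + q3 * (x3 + -q2 * y) = c0 + q2 * x2 + q3 * x3 := by ring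
        have e2 : p1 * x1 + p2 * (x2 + q3 * y) + p3 * (x3 + -q2 * y) =
            p1 * (x1 + m * y) + p2 * x2 + p3 * x3 := by linear_combination (-(y : ℤ)) * hm
        simp only [e1, e2]
      · intro x hx
        unfold ivm at hx
        rw [mem_Ico] at hx
        rw [hX3, mem_Ico]
        constructor <;> nlinarith
    rw [sum_congr rfl fun x2 _ => hin x2]
    have := sum_shift (I := ivm k j2) (X := X2) (φ := fun x2 =>
        ∑ x3 ∈ ivm k j3, g (c0 + q2 * x2 + q3 * x3) *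
          (s (p1 * x1 + p2 * x2 + p3 * x3) * (b' x2 * c' x3))) (q3 * y)
        (fun x hx => by
          refine sum_eq_zero fun x3 _ => ?_
          simp only [hb', cutI_of_not_mem hx, mul_zero, zero_mul]) ?_
    · rw [this, hT]
      refine sum_congr rfl fun x2 hx2 => sum_congr rfl fun x3 hx3 => ?_
      simp only [hb', hc', cutI_of_mem hx2, cutI_of_mem hx3]
      ring
    · intro x hx
      unfold ivm at hx
      rw [mem_Ico] at hx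
      rw [hX2, mem_Ico]
      constructor <;> nlinarith
  have h3 : (2 ^ k : ℝ) * T = ∑ y ∈ range (2 ^ k), T := by
    rw [sum_const, card_range, nsmul_eq_mul]
    push_cast
    rfl
  rw [h3, sum_congr rfl h1, sum_comm, sum_product]
  refine sum_congr rfl fun x2 _ => ?_
  rw [sum_comm]
  refine sum_congr rfl fun x3 _ => ?_
  unfold Phi
  rw [mul_sum]

/-- the cut second copy -/
def Phi1 (k : ℕ) (s : ℤ → ℝ) (p1 p2 p3 q2 q3 m x1 : ℤ) (h : ℝ) (b' c' : ℤ → ℝ) (x2 x3 : ℤ) : ℝ :=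
  ∑ y ∈ range (2 ^ k), ed k s p2 p3 q2 q3 h b' c' (p1 * (x1 + m * y)) y (x2, x3) *
      (b' (x2 + q3 * y) * c' (x3 + -q2 * y))

/-- the tall part of the second copy -/
def Phi2 (k : ℕ) (s : ℤ → ℝ) (p1 p2 p3 q2 q3 m x1 : ℤ) (h : ℝ) (b' c' : ℤ → ℝ) (x2 x3 : ℤ) : ℝ :=
  ∑ y ∈ range (2 ^ k), (if |s (p1 * (x1 + m * y) + p2 * x2 + p3 * x3)| ≤ h then 0 else
      s (p1 * (x1 + m * y) + p2 * x2 + p3 * x3)) *
      (b' (x2 + q3 * y) * c' (x3 + -q2 * y))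

theorem Phi_split (k : ℕ) (s : ℤ → ℝ) (p1 p2 p3 q2 q3 m x1 : ℤ) (h : ℝ) (b' c' : ℤ → ℝ)
    (x2 x3 : ℤ) : Phi k s p1 p2 p3 q2 q3 m x1 b' c' x2 x3 =
      Phi1 k s p1 p2 p3 q2 q3 m x1 h b' c' x2 x3 + Phi2 k s p1 p2 p3 q2 q3 m x1 h b' c' x2 x3 := by
  unfold Phi Phi1 Phi2
  rw [← sum_add_distrib]
  refine sum_congr rfl fun y _ => ?_
  unfold ed
  simp only
  by_cases hb0 : b' (x2 + q3 * y) = 0
  · rw [hb0]; ring
  by_cases hc0 : c' (x3 + -q2 * y) = 0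
  · rw [hc0]; ring
  by_cases hs0 : |s (p1 * (x1 + m * y) + p2 * x2 + p3 * x3)| ≤ h
  · rw [if_pos ⟨hs0, hb0, hc0⟩, if_pos hs0]; ring
  · rw [if_neg (fun hh => hs0 hh.1), if_neg hs0]; ring

/-- the product of the two copies is a sum of tests -/
theorem Phi_tests {k : ℕ} {s : ℤ → ℝ} {p1 p2 p3 q2 q3 m : ℤ} (hm0 : m ≠ 0) (bm : |m| ≤ 4)
    (x1 : ℤ) (h : ℝ) (b' c' : ℤ → ℝ) (X2 X3 : Finset ℤ) :
    ∑ w ∈ X2 ×ˢ X3, Phi k s p1 p2 p3 q2 q3 m x1 b' c' w.1 w.2 *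
        Phi1 k s p1 p2 p3 q2 q3 m x1 h b' c' w.1 w.2 =
      ∑ y' ∈ range (2 ^ k), ∑ z1 ∈ Ico (2 ^ k * (x1 / 2 ^ k - 4)) (2 ^ k * (x1 / 2 ^ k + 5)),
        ∑ z2 ∈ X2, ∑ z3 ∈ X3, s (p1 * z1 + p2 * z2 + p3 * z3) *
          atm ((sl x1 m q3 (2 ^ k) b' y', sl x1 m (-q2) (2 ^ k) c' y',
            ed k s p2 p3 q2 q3 h b' c' (p1 * (x1 + m * y')) y') : Tri) (z1, z2, z3) := by
  set N : ℕ := 2 ^ k with hN
  have h2k : (0 : ℤ) < 2 ^ k := by positivity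
  set X1 : Finset ℤ := Ico (2 ^ k * (x1 / 2 ^ k - 4)) (2 ^ k * (x1 / 2 ^ k + 5)) with hX1
  set U : ℕ → Tri := fun y' => (sl x1 m q3 N b' y', sl x1 m (-q2) N c' y',
      ed k s p2 p3 q2 q3 h b' c' (p1 * (x1 + m * y')) y') with hU
  have h9 : ∀ w ∈ X2 ×ˢ X3, Phi k s p1 p2 p3 q2 q3 m x1 b' c' w.1 w.2 *
        Phi1 k s p1 p2 p3 q2 q3 m x1 h b' c' w.1 w.2 = ∑ y' ∈ range N, ∑ z1 ∈ X1,
      s (p1 * z1 + p2 * w.1 + p3 * w.2) * atm (U y') (z1, w.1, w.2) := by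
    intro w _
    unfold Phi Phi1
    rw [sum_mul_sum, sum_comm]
    refine sum_congr rfl fun y' hy' => ?_
    -- the sum over `z1` only sees the points `x1 + m y`
    have h8 : ∀ z1 ∈ X1, s (p1 * z1 + p2 * w.1 + p3 * w.2) * atm (U y') (z1, w.1, w.2) =
        ∑ y ∈ range N, if z1 = x1 + m * y then
          s (p1 * (x1 + m * y) + p2 * w.1 + p3 * w.2) *
            (b' (w.1 + q3 * y) * c' (w.2 + -q2 * y)) *
          (ed k s p2 p3 q2 q3 h b' c' (p1 * (x1 + m * y')) y' (w.1, w.2) *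
            (b' (w.1 + q3 * y') * c' (w.2 + -q2 * y'))) else 0 := by
      intro z1 _
      by_cases hx : ∃ y : ℕ, y < N ∧ z1 = x1 + m * y
      · obtain ⟨y, hy, rfl⟩ := hx
        rw [sum_eq_single_of_mem y (mem_range.2 hy)]
        · rw [if_pos rfl]
          simp only [atm, e12, e13, e23, hU]
          rw [sl_at hm0 b' y' hy, sl_at hm0 c' y' hy]
          ring
        · intro z _ hz
          rw [if_neg]
          intro h
          have h1 : m * (y : ℤ) = m * z := by simpa using h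
          have h2 := mul_left_cancel₀ hm0 h1
          exact hz (by exact_mod_cast h2.symm)
      · push Not at hx
        rw [sum_eq_zero]
        · simp only [atm, e12, hU]
          rw [sl_off b' y' (w := (z1, w.1)) (fun y hy => hx y hy)]
          ring
        · intro y hy
          exact if_neg (hx y (mem_range.1 hy))
    rw [sum_congr rfl h8, sum_comm]
    refine sum_congr rfl fun y hy => ?_
    rw [mem_range] at hy
    have hmem : x1 + m * y ∈ X1 := by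
      have hs1 := shift_bd k (r := m) bm hy
      have h3 := Int.mul_ediv_add_emod x1 (2 ^ k)
      have h4 := Int.emod_nonneg x1 h2k.ne'
      have h5 := Int.emod_lt_of_pos x1 h2k
      rw [hX1, mem_Ico]
      constructor <;> nlinarith
    rw [sum_ite_eq' X1 (x1 + m * y), if_pos hmem]
  rw [sum_congr rfl h9, sum_comm]
  refine sum_congr rfl fun y' _ => ?_
  rw [sum_comm]
  refine sum_congr rfl fun z1 _ => ?_
  rw [sum_product]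

/-- the tests -/
theorem tests_le (H : PNH τ Λ Λg k s g p1 p2 p3 q2 q3 m i1 j2 j3) (hb : Flat k j2 b Bb rb)
    (hc : Flat k j3 c Bc rc) {x1 : ℤ} (hi : x1 / 2 ^ k = i1) :
    ∑ w ∈ Ico (2 ^ k * (j2 - 4)) (2 ^ k * (j2 + 5)) ×ˢ Ico (2 ^ k * (j3 - 4)) (2 ^ k * (j3 + 5)),
      Phi k s p1 p2 p3 q2 q3 m x1 (cutI (ivm k j2) b) (cutI (ivm k j3) c) w.1 w.2 *
        Phi1 k s p1 p2 p3 q2 q3 m x1 (min rb rc ^ 2 * τ ^ 8)⁻¹ (cutI (ivm k j2) b)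
          (cutI (ivm k j3) c) w.1 w.2 ≤
      4374 * 16 ^ k * Λ * (Bb * Bc) ^ 2 * τ ^ 14 := by
  have hτ := H.τ0
  rw [Phi_tests H.hm0 H.bm, hi]
  set W : ℝ := τ ^ 16 * (6 * Λ * Bb ^ 2 * Bc ^ 2 / τ ^ 2) with hW
  have h9 : ∀ y' ∈ range (2 ^ k), ∑ z1 ∈ Ico (2 ^ k * (i1 - 4)) (2 ^ k * (i1 + 5)),
      ∑ z2 ∈ Ico (2 ^ k * (j2 - 4)) (2 ^ k * (j2 + 5)),
      ∑ z3 ∈ Ico (2 ^ k * (j3 - 4)) (2 ^ k * (j3 + 5)),
        s (p1 * z1 + p2 * z2 + p3 * z3) *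
          atm ((sl x1 m q3 (2 ^ k) (cutI (ivm k j2) b) y',
            sl x1 m (-q2) (2 ^ k) (cutI (ivm k j3) c) y',
            ed k s p2 p3 q2 q3 (min rb rc ^ 2 * τ ^ 8)⁻¹ (cutI (ivm k j2) b) (cutI (ivm k j3) c)
              (p1 * (x1 + m * y')) y') : Tri) (z1, z2, z3) ≤ 729 * (8 ^ k * W) := by
    intro y' _
    refine sum3_le' k i1 j2 j3 _ fun a1 ha1 a2 ha2 a3 ha3 => ?_
    have h10 := H.test a1 ha1 a2 ha2 a3 ha3 (sl x1 m q3 (2 ^ k) (cutI (ivm k j2) b) y',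
            sl x1 m (-q2) (2 ^ k) (cutI (ivm k j3) c) y',
            ed k s p2 p3 q2 q3 (min rb rc ^ 2 * τ ^ 8)⁻¹ (cutI (ivm k j2) b) (cutI (ivm k j3) c)
              (p1 * (x1 + m * y')) y')
    have h11 := pw3_test_le H hb hc x1 (p1 * (x1 + m * y')) y' a1 a2 a3
    have h13 := (le_abs_self _).trans (h10.trans (mul_le_mul_of_nonneg_left h11 (by positivity)))
    unfold avg at h13
    rw [card_product, card_product, card_ivm, card_ivm, card_ivm] at h13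
    have e8 : (8 : ℝ) ^ k = 2 ^ k * (2 ^ k * 2 ^ k) := by
      rw [← mul_pow, ← mul_pow]; norm_num
    push_cast at h13
    rw [← e8, inv_mul_le_iff₀ (by positivity), sum_product] at h13
    refine le_trans (le_of_eq (sum_congr rfl fun z1 _ => ?_)) h13
    rw [sum_product]
  refine (sum_le_card_nsmul _ _ _ h9).trans (le_of_eq ?_)
  have e16 : (16 : ℝ) ^ k = 2 ^ k * 8 ^ k := by rw [← mul_pow]; norm_num
  have hWe : W = 6 * Λ * Bb ^ 2 * Bc ^ 2 * τ ^ 14 := by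
    rw [hW]; field_simp
  rw [card_range, nsmul_eq_mul, hWe, e16]
  push_cast
  ring

/-- the sum of squares along the invariance line -/
theorem Phi_sq_le (H : PNH τ Λ Λg k s g p1 p2 p3 q2 q3 m i1 j2 j3) (hb : Flat k j2 b Bb rb)
    (hc : Flat k j3 c Bc rc) {x1 : ℤ} (hi : x1 / 2 ^ k = i1) :
    ∑ w ∈ Ico (2 ^ k * (j2 - 4)) (2 ^ k * (j2 + 5)) ×ˢ Ico (2 ^ k * (j3 - 4)) (2 ^ k * (j3 + 5)),
      Phi k s p1 p2 p3 q2 q3 m x1 (cutI (ivm k j2) b) (cutI (ivm k j3) c) w.1 w.2 ^ 2 ≤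
      9324 * 16 ^ k * Λ ^ 2 * (Bb * Bc) ^ 2 * τ ^ 14 := by
  have hB1 := hb.B0
  have hB2 := hc.B0
  have hΛ1 := H.Λ1
  have hτ := H.τ0
  have h1 := tests_le H hb hc hi
  have h2 := tall_le H hb hc x1
  have h3 : ∀ w : ℤ × ℤ,
      Phi k s p1 p2 p3 q2 q3 m x1 (cutI (ivm k j2) b) (cutI (ivm k j3) c) w.1 w.2 ^ 2 ≤
      2 * (Phi k s p1 p2 p3 q2 q3 m x1 (cutI (ivm k j2) b) (cutI (ivm k j3) c) w.1 w.2 *
        Phi1 k s p1 p2 p3 q2 q3 m x1 (min rb rc ^ 2 * τ ^ 8)⁻¹ (cutI (ivm k j2) b)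
          (cutI (ivm k j3) c) w.1 w.2) +
        Phi2 k s p1 p2 p3 q2 q3 m x1 (min rb rc ^ 2 * τ ^ 8)⁻¹ (cutI (ivm k j2) b)
          (cutI (ivm k j3) c) w.1 w.2 ^ 2 := by
    intro w
    have := Phi_split k s p1 p2 p3 q2 q3 m x1 (min rb rc ^ 2 * τ ^ 8)⁻¹ (cutI (ivm k j2) b)
      (cutI (ivm k j3) c) w.1 w.2
    rw [this]
    nlinarith [sq_nonneg (Phi1 k s p1 p2 p3 q2 q3 m x1 (min rb rc ^ 2 * τ ^ 8)⁻¹
      (cutI (ivm k j2) b) (cutI (ivm k j3) c) w.1 w.2)]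
  refine (sum_le_sum fun w _ => h3 w).trans ?_
  rw [sum_add_distrib, ← mul_sum]
  refine (add_le_add (mul_le_mul_of_nonneg_left h1 (by norm_num)) h2).trans ?_
  have h9 : Λ ≤ Λ ^ 2 := by nlinarith
  have h10 : τ ^ 2 ≤ 1 := pow_le_one₀ hτ.le H.τ1
  have h11 : 2 * (4374 * 16 ^ k * Λ * (Bb * Bc) ^ 2 * τ ^ 14) ≤
      8748 * 16 ^ k * Λ ^ 2 * (Bb * Bc) ^ 2 * τ ^ 14 := by
    have e : 2 * (4374 * 16 ^ k * Λ * (Bb * Bc) ^ 2 * τ ^ 14) =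
      8748 * 16 ^ k * Λ * (Bb * Bc) ^ 2 * τ ^ 14 := by ring
    rw [e]
    gcongr
  have h12 : 576 * 16 ^ k * Λ ^ 2 * Bb ^ 2 * Bc ^ 2 * τ ^ 16 ≤
      576 * 16 ^ k * Λ ^ 2 * (Bb * Bc) ^ 2 * τ ^ 14 := by
    have e : 576 * 16 ^ k * Λ ^ 2 * Bb ^ 2 * Bc ^ 2 * τ ^ 16 =
        576 * 16 ^ k * Λ ^ 2 * (Bb * Bc) ^ 2 * τ ^ 14 * τ ^ 2 := by ring
    rw [e]
    exact mul_le_of_le_one_right (by positivity) h10
  refine (add_le_add h11 h12).trans (le_of_eq (by ring))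

/-- **The pair norm for two flat functions.** -/
theorem flat_main (H : PNH τ Λ Λg k s g p1 p2 p3 q2 q3 m i1 j2 j3) (hb : Flat k j2 b Bb rb)
    (hc : Flat k j3 c Bc rc) {x1 : ℤ} (hi : x1 / 2 ^ k = i1) (c0 : ℤ) :
    |∑ x2 ∈ ivm k j2, ∑ x3 ∈ ivm k j3, s (p1 * x1 + p2 * x2 + p3 * x3) *
        g (c0 + q2 * x2 + q3 * x3) * b x2 * c x3| ≤
      1800 * 4 ^ k * Λ * √Λg * (Bb * Bc) * τ ^ 7 := by
  have hB1 := hb.B0
  have hB2 := hc.B0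
  have hΛ1 := H.Λ1
  have hΛg := H.hg.nonneg
  have hτ := H.τ0
  have h2 := shift_id (k := k) (s := s) (g := g) H.hm H.bq2 H.bq3 j2 j3 x1 c0 b c
  set T : ℝ := ∑ x2 ∈ ivm k j2, ∑ x3 ∈ ivm k j3, s (p1 * x1 + p2 * x2 + p3 * x3) *
        g (c0 + q2 * x2 + q3 * x3) * b x2 * c x3 with hT
  have h4 := gsum_le H c0
  have h8 := Phi_sq_le H hb hc hi
  have h9 : ((2 ^ k : ℝ) * T) ^ 2 ≤ (324 * (4 ^ k * Λg)) *
      (9324 * 16 ^ k * Λ ^ 2 * (Bb * Bc) ^ 2 * τ ^ 14) := by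
    rw [h2]
    exact (sum_mul_sq_le_sq_mul_sq _ _ _).trans
      (mul_le_mul h4 h8 (sum_nonneg fun _ _ => sq_nonneg _) (by positivity))
  clear h2 h4 h8
  have hX : 0 ≤ 16 ^ k * Λg * Λ ^ 2 * (Bb * Bc) ^ 2 * τ ^ 14 := by positivity
  have h10 : T ^ 2 ≤ (1800 * 4 ^ k * Λ * √Λg * (Bb * Bc) * τ ^ 7) ^ 2 := by
    have e3 : (324 * (4 ^ k * Λg)) * (9324 * 16 ^ k * Λ ^ 2 * (Bb * Bc) ^ 2 * τ ^ 14) =
        (2 ^ k) ^ 2 * (3020976 * (16 ^ k * Λg * Λ ^ 2 * (Bb * Bc) ^ 2 * τ ^ 14)) := by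
      rw [four_pow]; ring
    rw [e3, mul_pow] at h9
    have h11 := le_of_mul_le_mul_left h9 (by positivity)
    have e4 : (1800 * 4 ^ k * Λ * √Λg * (Bb * Bc) * τ ^ 7) ^ 2 =
        3240000 * (16 ^ k * Λg * Λ ^ 2 * (Bb * Bc) ^ 2 * τ ^ 14) := by
      have e5 : (16 : ℝ) ^ k = 4 ^ k * 4 ^ k := by rw [← mul_pow]; norm_num
      have e6 : √Λg ^ 2 = Λg := Real.sq_sqrt hΛg
      calc (1800 * 4 ^ k * Λ * √Λg * (Bb * Bc) * τ ^ 7) ^ 2 =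
          3240000 * (4 ^ k * 4 ^ k * √Λg ^ 2 * Λ ^ 2 * (Bb * Bc) ^ 2 * τ ^ 14) := by ring
        _ = _ := by rw [e6, e5]
    rw [e4]
    refine h11.trans ?_
    exact mul_le_mul_of_nonneg_right (by norm_num) hX
  exact abs_le_of_sq_le_sq h10 (by positivity)

/-- **The trivial bound**, decay in the ratio of the heights. -/
theorem flat_triv0 (hs : WinSq k Λ s) (hg : WinSq k Λg g) (hΛ1 : 1 ≤ Λ) (hp2 : p2 ≠ 0)
    (b2 : |p2| ≤ 4) (hq2 : q2 ≠ 0) (bq2 : |q2| ≤ 4) (hb : Flat k j2 b Bb rb)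
    (hc : Flat k j3 c Bc rc) (x1 c0 : ℤ) :
    |∑ x2 ∈ ivm k j2, ∑ x3 ∈ ivm k j3, s (p1 * x1 + p2 * x2 + p3 * x3) *
        g (c0 + q2 * x2 + q3 * x3) * b x2 * c x3| ≤
      4 * 4 ^ k * Λ * √Λg * (Bb * Bc) * (rc / rb) ^ 2 := by
  classical
  have hr1 := hb.r0
  have hr2 := hc.r0
  have hB1 := hb.B0
  have hB2 := hc.B0
  have hΛg := hg.nonneg
  set T : ℝ := ∑ x2 ∈ ivm k j2, ∑ x3 ∈ ivm k j3, s (p1 * x1 + p2 * x2 + p3 * x3) *
        g (c0 + q2 * x2 + q3 * x3) * b x2 * c x3 with hT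
  have e1 : T = ∑ w ∈ ivm k j2 ×ˢ ivm k j3,
      (s (p1 * x1 + p2 * w.1 + p3 * w.2) * b w.1 * (if c w.2 = 0 then 0 else 1)) *
        (g (c0 + q2 * w.1 + q3 * w.2) * c w.2) := by
    rw [hT, sum_product]
    refine sum_congr rfl fun x2 _ => sum_congr rfl fun x3 _ => ?_
    simp only
    split_ifs with h
    · rw [h]; ring
    · ring
  have h1 : ∑ w ∈ ivm k j2 ×ˢ ivm k j3,
      (s (p1 * x1 + p2 * w.1 + p3 * w.2) * b w.1 * (if c w.2 = 0 then 0 else 1)) ^ 2 ≤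
      rc ^ 4 * 2 ^ k * ((Bb / rb ^ 2) ^ 2 * (4 * (2 ^ k * Λ))) := by
    rw [sum_product_right]
    refine hc.sum_le _ (by positivity) (fun x3 _ _ => ?_) fun x3 _ h0 => ?_
    · have h2 : ∀ x2 ∈ ivm k j2,
          (s (p1 * x1 + p2 * x2 + p3 * x3) * b x2 * (if c x3 = 0 then 0 else 1)) ^ 2 ≤
          (Bb / rb ^ 2) ^ 2 * s ((p1 * x1 + p3 * x3) + p2 * x2) ^ 2 := by
        intro x2 hx2
        have e : p1 * x1 + p2 * x2 + p3 * x3 = (p1 * x1 + p3 * x3) + p2 * x2 := by ring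
        have h3 : b x2 ^ 2 ≤ (Bb / rb ^ 2) ^ 2 := by
          rw [← sq_abs]; exact pow_le_pow_left₀ (abs_nonneg _) (hb.le x2 hx2) 2
        rw [e, mul_pow, mul_pow, mul_comm (s _ ^ 2), mul_assoc]
        refine mul_le_mul h3 ?_ (by positivity) (by positivity)
        split_ifs <;> nlinarith [sq_nonneg (s ((p1 * x1 + p3 * x3) + p2 * x2))]
      refine (sum_le_sum h2).trans ?_
      rw [← mul_sum]
      refine mul_le_mul_of_nonneg_left ?_ (by positivity)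
      have := hs.line_ivm hp2 (R := 4) (by exact_mod_cast b2) (p1 * x1 + p3 * x3) j2
      exact_mod_cast this
    · refine le_of_eq (sum_eq_zero fun x2 _ => ?_)
      simp [h0]
  have h2 : ∑ w ∈ ivm k j2 ×ˢ ivm k j3, (g (c0 + q2 * w.1 + q3 * w.2) * c w.2) ^ 2 ≤
      4 * (2 ^ k * Λg) * (2 ^ k * Bc ^ 2) := by
    rw [sum_product_right]
    have h3 : ∀ x3 ∈ ivm k j3, ∑ x2 ∈ ivm k j2, (g (c0 + q2 * x2 + q3 * x3) * c x3) ^ 2 ≤
        4 * (2 ^ k * Λg) * c x3 ^ 2 := by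
      intro x3 _
      simp only [mul_pow]
      rw [← sum_mul]
      refine mul_le_mul_of_nonneg_right ?_ (sq_nonneg _)
      have := hg.line_ivm hq2 (R := 4) (by exact_mod_cast bq2) (c0 + q3 * x3) j2
      have e : ∑ x2 ∈ ivm k j2, g (c0 + q2 * x2 + q3 * x3) ^ 2 =
          ∑ x2 ∈ ivm k j2, g (c0 + q3 * x3 + q2 * x2) ^ 2 :=
        sum_congr rfl fun x2 _ => by congr 2; ring
      rw [e]
      exact_mod_cast this
    refine (sum_le_sum h3).trans ?_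
    rw [← mul_sum]
    refine mul_le_mul_of_nonneg_left ?_ (by positivity)
    have h7 := hc.avg_sq_le
    unfold avg at h7
    rw [card_ivm] at h7
    push_cast at h7
    rwa [inv_mul_le_iff₀ (by positivity)] at h7
  have h3 : T ^ 2 ≤ (4 * 4 ^ k * Λ * √Λg * (Bb * Bc) * (rc / rb) ^ 2) ^ 2 := by
    rw [e1]
    refine (sum_mul_sq_le_sq_mul_sq _ _ _).trans ?_
    refine (mul_le_mul h1 h2 (sum_nonneg fun _ _ => sq_nonneg _) (by positivity)).trans ?_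
    have e4 : (4 * 4 ^ k * Λ * √Λg * (Bb * Bc) * (rc / rb) ^ 2) ^ 2 =
        16 * (4 ^ k) ^ 2 * Λ ^ 2 * Λg * (Bb * Bc) ^ 2 * (rc / rb) ^ 4 := by
      rw [mul_pow, mul_pow, mul_pow, mul_pow, mul_pow, Real.sq_sqrt hΛg]; ring
    have e5 : rc ^ 4 * 2 ^ k * ((Bb / rb ^ 2) ^ 2 * (4 * (2 ^ k * Λ))) *
        (4 * (2 ^ k * Λg) * (2 ^ k * Bc ^ 2)) =
        16 * (4 ^ k) ^ 2 * Λ * Λg * (Bb * Bc) ^ 2 * (rc / rb) ^ 4 := by
      rw [four_pow]; field_simp; ring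
    rw [e4, e5]
    have h9 : Λ ≤ Λ ^ 2 := by nlinarith
    gcongr
  exact abs_le_of_sq_le_sq h3 (by positivity)

theorem flat_triv (H : PNH τ Λ Λg k s g p1 p2 p3 q2 q3 m i1 j2 j3) (hb : Flat k j2 b Bb rb)
    (hc : Flat k j3 c Bc rc) (x1 c0 : ℤ) :
    |∑ x2 ∈ ivm k j2, ∑ x3 ∈ ivm k j3, s (p1 * x1 + p2 * x2 + p3 * x3) *
        g (c0 + q2 * x2 + q3 * x3) * b x2 * c x3| ≤
      4 * 4 ^ k * Λ * √Λg * (Bb * Bc) * (rc / rb) ^ 2 :=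
  flat_triv0 H.hs H.hg H.Λ1 H.hp2 H.b2 H.hq2 H.bq2 hb hc x1 c0

theorem flat_triv' (H : PNH τ Λ Λg k s g p1 p2 p3 q2 q3 m i1 j2 j3) (hb : Flat k j2 b Bb rb)
    (hc : Flat k j3 c Bc rc) (x1 c0 : ℤ) :
    |∑ x2 ∈ ivm k j2, ∑ x3 ∈ ivm k j3, s (p1 * x1 + p2 * x2 + p3 * x3) *
        g (c0 + q2 * x2 + q3 * x3) * b x2 * c x3| ≤
      4 * 4 ^ k * Λ * √Λg * (Bb * Bc) * (rb / rc) ^ 2 := by
  have h := flat_triv0 (s := s) (g := g) (p1 := p1) (p2 := p3) (p3 := p2) (q2 := q3) (q3 := q2)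
    H.hs H.hg H.Λ1 H.hp3 H.b3 H.hq3 H.bq3 hc hb x1 c0
  rw [sum_comm]
  rw [mul_comm Bb Bc]
  refine le_trans (le_of_eq ?_) h
  congr 1
  refine sum_congr rfl fun x3 _ => sum_congr rfl fun x2 _ => ?_
  have e1 : p1 * x1 + p2 * x2 + p3 * x3 = p1 * x1 + p3 * x3 + p2 * x2 := by ring
  have e2 : c0 + q2 * x2 + q3 * x3 = c0 + q3 * x3 + q2 * x2 := by ring
  rw [e1, e2]
  ring

end

end Vale.Agent.P141.H550
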