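import Vale.Agent.P141.H550.PN2c

/-!
# P141, line W, scale-invariant version: the pair norm in the pair weight (4)

Levels of a function, the sum over the pairs of levels, the pair norm.
-/

namespace Vale.Agent.P141.H550

open Finset Vale.Agent.P141.PL.H315 Vale.Agent.P141.H337
open Vale.Agent.P141.H922 (n2 n4 nN n2_nonneg n4_nonneg nN_nonneg pw3 pw3_nonneg n2_sq n4_four)

noncomputable section

/-- a decreasing rearrangement -/
theorem rearr (k : ℕ) (j : ℤ) (b : ℤ → ℝ) : ∃ (idx : ℤ → ℕ) (G : ℕ → ℝ),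
    (∀ x ∈ ivm k j, 1 ≤ idx x ∧ idx x ≤ 2 ^ k) ∧
    Set.InjOn idx (ivm k j : Finset ℤ) ∧ (∀ x ∈ ivm k j, |b x| = G (idx x)) ∧
    (∀ i, 0 ≤ G i) ∧ (∀ ⦃m n : ℕ⦄, 1 ≤ m → m ≤ n → G n ≤ G m) ∧
    ∑ i ∈ Ico 1 (2 ^ k + 1), G i ^ 2 = ∑ x ∈ ivm k j, b x ^ 2 := by
  classical
  set n : ℕ := 2 ^ k with hn
  have hn0 : 0 < n := by positivity
  set e : Fin n → ℤ := fun i => 2 ^ k * j + (i : ℕ) with he
  set f : Fin n → ℝ := fun i => - |b (e i)| with hf
  set σ := Tuple.sort f with hσ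
  have hmono : Monotone (f ∘ σ) := Tuple.monotone_sort f
  have hk : ((n : ℕ) : ℤ) = 2 ^ k := by rw [hn]; push_cast; rfl
  set idx : ℤ → ℕ := fun x => if h : (x - 2 ^ k * j).toNat < n then
    ((σ.symm ⟨(x - 2 ^ k * j).toNat, h⟩ : Fin n) : ℕ) + 1 else 0 with hidx
  set G : ℕ → ℝ := fun i => if h : i - 1 < n then |b (e (σ ⟨i - 1, h⟩))| else 0 with hG
  have hmem : ∀ x ∈ ivm k j, (x - 2 ^ k * j).toNat < n ∧ ((x - 2 ^ k * j).toNat : ℤ) = x - 2 ^ k * j := by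
    intro x hx
    unfold ivm at hx
    rw [mem_Ico] at hx
    have h0 : 0 ≤ x - 2 ^ k * j := by linarith
    have h1 : ((x - 2 ^ k * j).toNat : ℤ) = x - 2 ^ k * j := Int.toNat_of_nonneg h0
    refine ⟨?_, h1⟩
    have h2 : ((x - 2 ^ k * j).toNat : ℤ) < (n : ℤ) := by rw [h1, hk]; linarith
    exact_mod_cast h2
  refine ⟨idx, G, ?_, ?_, ?_, ?_, ?_, ?_⟩
  · intro x hx
    obtain ⟨h1, h2⟩ := hmem x hx
    simp only [hidx]
    rw [dif_pos h1]
    refine ⟨by omega, ?_⟩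
    have := (σ.symm ⟨(x - 2 ^ k * j).toNat, h1⟩).2
    omega
  · intro x hx y hy hxy
    obtain ⟨h1, h2⟩ := hmem x hx
    obtain ⟨h3, h4⟩ := hmem y hy
    simp only [hidx] at hxy
    rw [dif_pos h1, dif_pos h3] at hxy
    have h5 : σ.symm ⟨(x - 2 ^ k * j).toNat, h1⟩ = σ.symm ⟨(y - 2 ^ k * j).toNat, h3⟩ := by
      ext
      omega
    have h6 := σ.symm.injective h5
    have h7 : (x - 2 ^ k * j).toNat = (y - 2 ^ k * j).toNat := by simpa using h6
    have : x - 2 ^ k * j = y - 2 ^ k * j := by rw [← h2, ← h4, h7]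
    linarith
  · intro x hx
    obtain ⟨h1, h2⟩ := hmem x hx
    simp only [hidx, hG]
    rw [dif_pos h1]
    have h3 := (σ.symm ⟨(x - 2 ^ k * j).toNat, h1⟩).2
    have h4 : ((σ.symm ⟨(x - 2 ^ k * j).toNat, h1⟩ : Fin n) : ℕ) + 1 - 1 < n := by omega
    rw [dif_pos h4]
    have h5 : (⟨((σ.symm ⟨(x - 2 ^ k * j).toNat, h1⟩ : Fin n) : ℕ) + 1 - 1, h4⟩ : Fin n) =
        σ.symm ⟨(x - 2 ^ k * j).toNat, h1⟩ := by
      ext; simp
    rw [h5, Equiv.apply_symm_apply]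
    simp only [he]
    rw [h2]
    congr 2
    ring
  · intro i
    simp only [hG]
    split_ifs
    · exact abs_nonneg _
    · exact le_rfl
  · intro m m' h1 h2
    simp only [hG]
    by_cases h3 : m' - 1 < n
    · have h4 : m - 1 < n := by omega
      rw [dif_pos h3, dif_pos h4]
      have h5 : (⟨m - 1, h4⟩ : Fin n) ≤ ⟨m' - 1, h3⟩ := by
        rw [Fin.mk_le_mk]; omega
      have := hmono h5
      simp only [hf, Function.comp] at this
      linarith
    · rw [dif_neg h3]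
      split_ifs
      · exact abs_nonneg _
      · exact le_rfl
  · have h1 : ∑ i ∈ Ico 1 (n + 1), G i ^ 2 = ∑ i ∈ range n, G (i + 1) ^ 2 := by
      rw [sum_Ico_eq_sum_range]
      simp only [Nat.add_sub_cancel]
      exact sum_congr rfl fun i _ => by rw [add_comm]
    rw [h1, ← Fin.sum_univ_eq_sum_range (fun i => G (i + 1) ^ 2) n]
    have h2 : ∀ i : Fin n, G ((i : ℕ) + 1) ^ 2 = b (e (σ i)) ^ 2 := by
      intro i
      simp only [hG]
      have h3 : (i : ℕ) + 1 - 1 < n := by have := i.2; omega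
      rw [dif_pos h3, sq_abs]
      congr 1
    rw [Fintype.sum_congr _ _ h2, Equiv.sum_comp σ (fun i => b (e i) ^ 2)]
    have h4 : ∑ i : Fin n, b (e i) ^ 2 = ∑ i ∈ range n, b (2 ^ k * j + (i : ℕ)) ^ 2 := by
      rw [← Fin.sum_univ_eq_sum_range (fun i => b (2 ^ k * j + (i : ℕ)) ^ 2) n]
    rw [h4, sum_range_int n (fun x => b (2 ^ k * j + x) ^ 2)]
    unfold ivm
    rw [hk]
    have h5 := Finset.sum_image (s := Ico (0 : ℤ) (0 + 2 ^ k)) (g := fun x => 2 ^ k * j + x)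
      (f := fun x => b x ^ 2) (fun x _ y _ h => by simpa using h)
    rw [← h5, Finset.image_add_left_Ico]
    simp

/-- **levels**: `2 ^ m` points at the level `m` -/
theorem levels (k : ℕ) (j : ℤ) (b : ℤ → ℝ) : ∃ (lev : ℤ → ℕ) (v : ℕ → ℝ),
    (∀ x ∈ ivm k j, lev x ≤ k) ∧ (∀ x ∈ ivm k j, |b x| ≤ v (lev x)) ∧
    (∀ m, ((ivm k j).filter fun x => lev x = m).card ≤ 2 ^ m) ∧ (∀ m, 0 ≤ v m) ∧
    ∑ m ∈ range (k + 1), 2 ^ m * v m ^ 2 ≤ 2 * ∑ x ∈ ivm k j, b x ^ 2 := by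
  classical
  obtain ⟨idx, G, h1, h2, h3, h4, h5, h6⟩ := rearr k j b
  refine ⟨fun x => Nat.log 2 (idx x), fun m => G (2 ^ m), ?_, ?_, ?_, fun m => h4 _, ?_⟩
  · intro x hx
    have := (h1 x hx).2
    calc Nat.log 2 (idx x) ≤ Nat.log 2 (2 ^ k) := Nat.log_mono_right this
      _ = k := Nat.log_pow (by norm_num) k
  · intro x hx
    rw [h3 x hx]
    refine h5 (Nat.one_le_two_pow) ?_
    exact Nat.pow_log_le_self 2 (by have := (h1 x hx).1; omega)
  · intro m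
    have hsub : ((ivm k j).filter fun x => Nat.log 2 (idx x) = m).image idx ⊆
        Ico (2 ^ m) (2 ^ (m + 1)) := by
      intro i hi
      rw [mem_image] at hi
      obtain ⟨x, hx, rfl⟩ := hi
      rw [mem_filter] at hx
      have h0 := (h1 x hx.1).1
      rw [mem_Ico, ← hx.2]
      exact ⟨Nat.pow_log_le_self 2 (by omega), Nat.lt_pow_succ_log_self (by norm_num) _⟩
    rw [← card_image_of_injOn (s := (ivm k j).filter fun x => Nat.log 2 (idx x) = m) (f := idx)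
      (fun x hx y hy h => h2 (by
        have := hx; simp only [coe_filter, Set.mem_ofPred_eq] at this; exact this.1) (by
        have := hy; simp only [coe_filter, Set.mem_ofPred_eq] at this; exact this.1) h)]
    refine (card_le_card hsub).trans ?_
    rw [Nat.card_Ico, pow_succ]
    omega
  · have h7 := Finset.sum_condensed_le (f := fun i => G i ^ 2) (fun m n hm hmn =>
      pow_le_pow_left₀ (h4 _) (h5 (by omega) hmn) 2) k
    simp only [nsmul_eq_mul] at h7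
    push_cast at h7
    refine h7.trans ?_
    rw [← h6]
    have h8 : ∑ i ∈ Ico 1 (2 ^ k + 1), G i ^ 2 = G 1 ^ 2 + ∑ i ∈ Ico 2 (2 ^ k + 1), G i ^ 2 := by
      rw [sum_eq_sum_Ico_succ_bot (by have : 0 < 2 ^ k := by positivity
                                      omega)]
    rw [h8]
    have := sq_nonneg (G 1)
    linarith

/-! ### the geometric kernel -/

theorem exists_sigma : ∃ σ : ℝ, 0 < σ ∧ σ ≤ 1 ∧ σ ^ 28 = 1 / 2 ∧ σ ^ 2 ≤ 20 / 21 := by
  have h0 : (0 : ℝ) < (1 / 2 : ℝ) ^ (1 / 28 : ℝ) := Real.rpow_pos_of_pos (by norm_num) _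
  have h28 : ((1 / 2 : ℝ) ^ (1 / 28 : ℝ)) ^ 28 = 1 / 2 := by
    rw [← Real.rpow_natCast, ← Real.rpow_mul (by norm_num)]
    norm_num
  refine ⟨(1 / 2 : ℝ) ^ (1 / 28 : ℝ), h0, ?_, h28, ?_⟩
  · exact Real.rpow_le_one (by norm_num) (by norm_num) (by norm_num)
  · refine le_of_pow_le_pow_left₀ (n := 14) (by norm_num) (by norm_num) ?_
    rw [← pow_mul, h28]
    norm_num

theorem geom_le {ρ : ℝ} (h0 : 0 < ρ) (h1 : ρ ≤ 20 / 21) (N : ℕ) :
    ∑ i ∈ range N, ρ ^ i ≤ 21 := by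
  have h2 := mul_neg_geom_sum ρ N
  have h3 : 0 ≤ ∑ i ∈ range N, ρ ^ i := sum_nonneg fun _ _ => by positivity
  have h4 : 0 < ρ ^ N := by positivity
  nlinarith

theorem row_le {ρ : ℝ} (h0 : 0 < ρ) (h1 : ρ ≤ 20 / 21) (N n : ℕ) :
    ∑ i ∈ range N, ρ ^ ((n - i) + (i - n)) ≤ 42 := by
  have h2 : ∀ i ∈ range N, ρ ^ ((n - i) + (i - n)) ≤
      (if i ≤ n then ρ ^ (n - i) else 0) + (if n ≤ i then ρ ^ (i - n) else 0) := by
    intro i _
    by_cases h : i ≤ n
    · rw [if_pos h]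
      have h3 : i - n = 0 := by omega
      rw [h3, add_zero]
      have : 0 ≤ (if n ≤ i then ρ ^ 0 else (0 : ℝ)) := by split_ifs <;> simp
      linarith
    · rw [if_neg h, if_pos (by omega)]
      have h3 : n - i = 0 := by omega
      rw [h3, zero_add, zero_add]
  refine (sum_le_sum h2).trans ?_
  rw [sum_add_distrib]
  have h3 : ∑ i ∈ range N, (if i ≤ n then ρ ^ (n - i) else 0) ≤ 21 := by
    rw [← sum_filter]
    refine le_trans (sum_le_sum_of_subset_of_nonneg (t := range (n + 1)) ?_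
      fun _ _ _ => by positivity) ?_
    · intro i hi
      rw [mem_filter] at hi
      rw [mem_range]; omega
    · have h4 := sum_range_reflect (fun i => ρ ^ i) (n + 1)
      have h5 : ∑ i ∈ range (n + 1), ρ ^ (n - i) = ∑ i ∈ range (n + 1), ρ ^ i := by
        rw [← h4]
        refine sum_congr rfl fun i _ => ?_
        simp
      rw [h5]
      exact geom_le h0 h1 _
  have h4 : ∑ i ∈ range N, (if n ≤ i then ρ ^ (i - n) else 0) ≤ 21 := by
    rw [← sum_filter]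
    have h5 : (range N).filter (fun i => n ≤ i) = Ico n N := by
      ext i; rw [mem_filter, mem_range, mem_Ico]; tauto
    rw [h5, sum_Ico_eq_sum_range]
    simp only [Nat.add_sub_cancel_left]
    exact geom_le h0 h1 _
  linarith

/-- Schur's test -/
theorem schur_le {σ : ℝ} (h0 : 0 < σ) (h1 : σ ^ 2 ≤ 20 / 21) (N : ℕ) (B C : ℕ → ℝ) :
    ∑ n ∈ range N, ∑ n' ∈ range N, (σ ^ 2) ^ ((n - n') + (n' - n)) * (B n * C n') ≤
      42 * (√(∑ n ∈ range N, B n ^ 2) * √(∑ n ∈ range N, C n ^ 2)) := by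
  set SB := ∑ n ∈ range N, B n ^ 2 with hSB
  set SC := ∑ n ∈ range N, C n ^ 2 with hSC
  have hB : 0 ≤ SB := sum_nonneg fun _ _ => sq_nonneg _
  have hC : 0 ≤ SC := sum_nonneg fun _ _ => sq_nonneg _
  have e : ∑ n ∈ range N, ∑ n' ∈ range N, (σ ^ 2) ^ ((n - n') + (n' - n)) * (B n * C n') =
      ∑ w ∈ range N ×ˢ range N, (σ ^ ((w.1 - w.2) + (w.2 - w.1)) * B w.1) *
        (σ ^ ((w.1 - w.2) + (w.2 - w.1)) * C w.2) := by
    rw [sum_product]
    refine sum_congr rfl fun n _ => sum_congr rfl fun n' _ => ?_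
    simp only
    rw [← pow_mul, mul_comm 2, pow_mul]
    ring
  have h2 : ∑ w ∈ range N ×ˢ range N, (σ ^ ((w.1 - w.2) + (w.2 - w.1)) * B w.1) ^ 2 ≤ 42 * SB := by
    rw [sum_product, hSB, mul_sum]
    refine sum_le_sum fun n _ => ?_
    have := row_le (ρ := σ ^ 2) (by positivity) h1 N n
    calc ∑ n' ∈ range N, (σ ^ ((n - n') + (n' - n)) * B n) ^ 2 =
        (∑ n' ∈ range N, (σ ^ 2) ^ ((n - n') + (n' - n))) * B n ^ 2 := by
          rw [sum_mul]
          refine sum_congr rfl fun n' _ => ?_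
          rw [← pow_mul, mul_comm 2, pow_mul]; ring
      _ ≤ 42 * B n ^ 2 := mul_le_mul_of_nonneg_right this (sq_nonneg _)
  have h3 : ∑ w ∈ range N ×ˢ range N, (σ ^ ((w.1 - w.2) + (w.2 - w.1)) * C w.2) ^ 2 ≤ 42 * SC := by
    rw [sum_product_right, hSC, mul_sum]
    refine sum_le_sum fun n _ => ?_
    have := row_le (ρ := σ ^ 2) (by positivity) h1 N n
    calc ∑ n' ∈ range N, (σ ^ ((n' - n) + (n - n')) * C n) ^ 2 =
        (∑ n' ∈ range N, (σ ^ 2) ^ ((n - n') + (n' - n))) * C n ^ 2 := by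
          rw [sum_mul]
          refine sum_congr rfl fun n' _ => ?_
          rw [add_comm (n' - n), ← pow_mul, mul_comm 2, pow_mul]; ring
      _ ≤ 42 * C n ^ 2 := mul_le_mul_of_nonneg_right this (sq_nonneg _)
  rw [e]
  refine le_trans (le_abs_self _) (abs_le_of_sq_le_sq ?_ (by positivity))
  refine (sum_mul_sq_le_sq_mul_sq _ _ _).trans ?_
  have h4 : 0 ≤ ∑ w ∈ range N ×ˢ range N, (σ ^ ((w.1 - w.2) + (w.2 - w.1)) * C w.2) ^ 2 :=
    sum_nonneg fun _ _ => sq_nonneg _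
  refine (mul_le_mul h2 h3 h4 (by positivity)).trans (le_of_eq ?_)
  rw [mul_pow, mul_pow, Real.sq_sqrt hB, Real.sq_sqrt hC]
  ring

/-- `min (x⁷) (y⁷) ≤ x⁶ y` -/
theorem min7_le {T K x y : ℝ} (hy : 0 ≤ y) (hK : 0 ≤ K) (h1 : T ≤ K * x ^ 7)
    (h2 : T ≤ K * y ^ 7) : T ≤ K * (x ^ 6 * y) := by
  rcases le_total x y with h | h
  · refine h1.trans (mul_le_mul_of_nonneg_left ?_ hK)
    rw [pow_succ]
    exact mul_le_mul_of_nonneg_left h (by positivity)
  · refine h2.trans (mul_le_mul_of_nonneg_left ?_ hK)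
    rw [pow_succ]
    exact mul_le_mul_of_nonneg_right (pow_le_pow_left₀ hy h 6) hy

/-! ### the pieces -/

/-- a function on an interval is a sum of flat functions -/
theorem pieces (k : ℕ) (j : ℤ) (b : ℤ → ℝ) {σ : ℝ} (hσ : 0 < σ) (hσ28 : σ ^ 28 = 1 / 2) :
    ∃ (f : ℕ → ℤ → ℝ) (B : ℕ → ℝ), (∀ n ∈ range (k + 1), Flat k j (f n) (B n) (σ ^ (7 * n))) ∧
      (∀ x ∈ ivm k j, b x = ∑ n ∈ range (k + 1), f n x) ∧
      ∑ n ∈ range (k + 1), B n ^ 2 ≤ 2 * avg (ivm k j) (fun x => b x ^ 2) := by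
  classical
  obtain ⟨lev, v, h1, h2, h3, h4, h5⟩ := levels k j b
  have hpow : ∀ n, (σ ^ (7 * n)) ^ 4 = (1 / 2 : ℝ) ^ n := by
    intro n
    rw [← pow_mul, ← hσ28, ← pow_mul]
    congr 1
    ring
  refine ⟨fun n x => if lev x = k - n then b x else 0, fun n => v (k - n) * (σ ^ (7 * n)) ^ 2,
    ?_, ?_, ?_⟩
  · intro n hn
    rw [mem_range] at hn
    refine ⟨?_, by positivity, ?_, ?_⟩
    · have := h4 (k - n); positivity
    · intro x hx
      rw [mul_div_assoc, div_self (by positivity), mul_one]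
      simp only
      split_ifs with h
      · rw [← h]; exact h2 x hx
      · rw [abs_zero]; exact h4 _
    · rw [hpow]
      have h6 : ((ivm k j).filter fun x => (if lev x = k - n then b x else 0) ≠ 0).card ≤
          2 ^ (k - n) := by
        refine (card_le_card ?_).trans (h3 (k - n))
        intro x hx
        rw [mem_filter] at hx ⊢
        refine ⟨hx.1, ?_⟩
        by_contra h
        exact hx.2 (if_neg h)
      have h7 : (((ivm k j).filter fun x => (if lev x = k - n then b x else 0) ≠ 0).card : ℝ) ≤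
          2 ^ (k - n) := by exact_mod_cast h6
      refine h7.trans (le_of_eq ?_)
      have h8 : (2 : ℝ) ^ k = 2 ^ (k - n) * 2 ^ n := by
        rw [← pow_add]; congr 1; omega
      rw [h8, one_div, inv_pow]
      field_simp
  · intro x hx
    have h6 := h1 x hx
    rw [sum_eq_single_of_mem (k - lev x) (by rw [mem_range]; omega)]
    · simp only
      rw [if_pos (by omega)]
    · intro n hn hne
      rw [mem_range] at hn
      exact if_neg (by omega)
  · have h6 : ∑ n ∈ range (k + 1), (v (k - n) * (σ ^ (7 * n)) ^ 2) ^ 2 =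
        (2 ^ k)⁻¹ * ∑ m ∈ range (k + 1), 2 ^ m * v m ^ 2 := by
      rw [← sum_range_reflect (fun m => (2 : ℝ) ^ m * v m ^ 2) (k + 1), mul_sum]
      refine sum_congr rfl fun n hn => ?_
      rw [mem_range] at hn
      have h7 : k + 1 - 1 - n = k - n := by omega
      have h8 : (2 : ℝ) ^ k = 2 ^ (k - n) * 2 ^ n := by
        rw [← pow_add]; congr 1; omega
      have h9 : ((σ ^ (7 * n)) ^ 2) ^ 2 = (1 / 2 : ℝ) ^ n := by
        rw [← pow_mul]; exact hpow n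
      rw [h7, mul_pow, h9, h8, one_div, inv_pow]
      field_simp
    rw [h6]
    unfold avg
    rw [card_ivm]
    push_cast
    have : (0 : ℝ) < (2 ^ k)⁻¹ := by positivity
    nlinarith

variable {τ Λ Λg : ℝ} {k : ℕ} {s g : ℤ → ℝ} {p1 p2 p3 q2 q3 m i1 j2 j3 : ℤ}

/-- **The pair norm in the pair weight**, all heights. -/
theorem pair_norm2 (H : PNH τ Λ Λg k s g p1 p2 p3 q2 q3 m i1 j2 j3) (b c : ℤ → ℝ) {x1 : ℤ}
    (hi : x1 / 2 ^ k = i1) (c0 : ℤ) :
    |∑ x2 ∈ ivm k j2, ∑ x3 ∈ ivm k j3, s (p1 * x1 + p2 * x2 + p3 * x3) *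
        g (c0 + q2 * x2 + q3 * x3) * b x2 * c x3| ≤
      151200 * 4 ^ k * Λ * √Λg * τ ^ 6 *
        (n2 (ivm k j2) b * n2 (ivm k j3) c) := by
  classical
  obtain ⟨σ, hσ0, hσ1, hσ28, hσ2⟩ := exists_sigma
  obtain ⟨f, B, hf, hfb, hfB⟩ := pieces k j2 b hσ0 hσ28
  obtain ⟨f', C, hf', hfc, hfC⟩ := pieces k j3 c hσ0 hσ28
  have hΛ1 := H.Λ1
  have hΛg := H.hg.nonneg
  have hτ := H.τ0
  set K : ℝ := 1800 * 4 ^ k * Λ * √Λg with hK
  have hK0 : 0 ≤ K := by positivity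
  have e1 : ∑ x2 ∈ ivm k j2, ∑ x3 ∈ ivm k j3, s (p1 * x1 + p2 * x2 + p3 * x3) *
        g (c0 + q2 * x2 + q3 * x3) * b x2 * c x3 =
      ∑ n ∈ range (k + 1), ∑ n' ∈ range (k + 1), ∑ x2 ∈ ivm k j2, ∑ x3 ∈ ivm k j3,
        s (p1 * x1 + p2 * x2 + p3 * x3) * g (c0 + q2 * x2 + q3 * x3) * f n x2 * f' n' x3 := by
    have e2 : ∀ x2 ∈ ivm k j2, ∀ x3 ∈ ivm k j3, s (p1 * x1 + p2 * x2 + p3 * x3) *
        g (c0 + q2 * x2 + q3 * x3) * b x2 * c x3 = ∑ n ∈ range (k + 1), ∑ n' ∈ range (k + 1),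
        s (p1 * x1 + p2 * x2 + p3 * x3) * g (c0 + q2 * x2 + q3 * x3) * f n x2 * f' n' x3 := by
      intro x2 hx2 x3 hx3
      rw [hfb x2 hx2, hfc x3 hx3, mul_assoc, sum_mul_sum, mul_sum]
      refine sum_congr rfl fun n _ => ?_
      rw [mul_sum]
      exact sum_congr rfl fun n' _ => by ring
    rw [sum_congr rfl fun x2 hx2 => sum_congr rfl fun x3 hx3 => e2 x2 hx2 x3 hx3]
    have e3 : ∀ x2, ∑ x3 ∈ ivm k j3, ∑ n ∈ range (k + 1), ∑ n' ∈ range (k + 1),
        s (p1 * x1 + p2 * x2 + p3 * x3) * g (c0 + q2 * x2 + q3 * x3) * f n x2 * f' n' x3 =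
        ∑ n ∈ range (k + 1), ∑ n' ∈ range (k + 1), ∑ x3 ∈ ivm k j3,
        s (p1 * x1 + p2 * x2 + p3 * x3) * g (c0 + q2 * x2 + q3 * x3) * f n x2 * f' n' x3 := by
      intro x2
      rw [sum_comm]
      exact sum_congr rfl fun n _ => sum_comm
    rw [sum_congr rfl fun x2 _ => e3 x2, sum_comm]
    exact sum_congr rfl fun n _ => sum_comm
  rw [e1]
  have h1 : ∀ n ∈ range (k + 1), ∀ n' ∈ range (k + 1),
      |∑ x2 ∈ ivm k j2, ∑ x3 ∈ ivm k j3,
        s (p1 * x1 + p2 * x2 + p3 * x3) * g (c0 + q2 * x2 + q3 * x3) * f n x2 * f' n' x3| ≤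
      (K * τ ^ 6) * ((σ ^ 2) ^ ((n - n') + (n' - n)) * (B n * C n')) := by
    intro n hn n' hn'
    have a1 := flat_main H (hf n hn) (hf' n' hn') hi c0
    have a2 := flat_triv H (hf n hn) (hf' n' hn') x1 c0
    have a3 := flat_triv' H (hf n hn) (hf' n' hn') x1 c0
    have hB := (hf n hn).B0
    have hC := (hf' n' hn').B0
    have hBC : 0 ≤ B n * C n' := by positivity
    have a4 : |∑ x2 ∈ ivm k j2, ∑ x3 ∈ ivm k j3,
        s (p1 * x1 + p2 * x2 + p3 * x3) * g (c0 + q2 * x2 + q3 * x3) * f n x2 * f' n' x3| ≤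
        (K * (B n * C n')) * ((σ ^ 2) ^ ((n - n') + (n' - n))) ^ 7 := by
      rcases le_total n n' with h | h
      · have e5 : (σ ^ (7 * n') / σ ^ (7 * n)) ^ 2 = ((σ ^ 2) ^ ((n - n') + (n' - n))) ^ 7 := by
          have e6 : σ ^ (7 * n') = σ ^ (7 * n) * σ ^ (7 * (n' - n)) := by
            rw [← pow_add]; congr 1; omega
          have e7 : n - n' + (n' - n) = n' - n := by omega
          rw [e6, mul_div_cancel_left₀ _ (by positivity), e7, ← pow_mul, ← pow_mul, ← pow_mul]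
          congr 1; ring
        rw [e5] at a2
        refine a2.trans ?_
        have e8 : K * (B n * C n') * ((σ ^ 2) ^ (n - n' + (n' - n))) ^ 7 =
          450 * (4 * 4 ^ k * Λ * √Λg * (B n * C n') * ((σ ^ 2) ^ (n - n' + (n' - n))) ^ 7) := by
          rw [hK]; ring
        rw [e8]
        have : 0 ≤ 4 * 4 ^ k * Λ * √Λg * (B n * C n') * ((σ ^ 2) ^ (n - n' + (n' - n))) ^ 7 := by
          positivity
        linarith
      · have e5 : (σ ^ (7 * n) / σ ^ (7 * n')) ^ 2 = ((σ ^ 2) ^ ((n - n') + (n' - n))) ^ 7 := by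
          have e6 : σ ^ (7 * n) = σ ^ (7 * n') * σ ^ (7 * (n - n')) := by
            rw [← pow_add]; congr 1; omega
          have e7 : n - n' + (n' - n) = n - n' := by omega
          rw [e6, mul_div_cancel_left₀ _ (by positivity), e7, ← pow_mul, ← pow_mul, ← pow_mul]
          congr 1; ring
        rw [e5] at a3
        refine a3.trans ?_
        have e8 : K * (B n * C n') * ((σ ^ 2) ^ (n - n' + (n' - n))) ^ 7 =
          450 * (4 * 4 ^ k * Λ * √Λg * (B n * C n') * ((σ ^ 2) ^ (n - n' + (n' - n))) ^ 7) := by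
          rw [hK]; ring
        rw [e8]
        have : 0 ≤ 4 * 4 ^ k * Λ * √Λg * (B n * C n') * ((σ ^ 2) ^ (n - n' + (n' - n))) ^ 7 := by
          positivity
        linarith
    have a5 : |∑ x2 ∈ ivm k j2, ∑ x3 ∈ ivm k j3,
        s (p1 * x1 + p2 * x2 + p3 * x3) * g (c0 + q2 * x2 + q3 * x3) * f n x2 * f' n' x3| ≤
        (K * (B n * C n')) * τ ^ 7 := a1.trans (le_of_eq (by rw [hK]))
    have a6 := min7_le (by positivity) (by positivity) a5 a4
    exact a6.trans (le_of_eq (by ring))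
  have h2 := schur_le hσ0 hσ2 (k + 1) B C
  calc |∑ n ∈ range (k + 1), ∑ n' ∈ range (k + 1), ∑ x2 ∈ ivm k j2, ∑ x3 ∈ ivm k j3,
        s (p1 * x1 + p2 * x2 + p3 * x3) * g (c0 + q2 * x2 + q3 * x3) * f n x2 * f' n' x3| ≤
      ∑ n ∈ range (k + 1), ∑ n' ∈ range (k + 1),
        (K * τ ^ 6) * ((σ ^ 2) ^ ((n - n') + (n' - n)) * (B n * C n')) := by
        refine (abs_sum_le_sum_abs _ _).trans (sum_le_sum fun n hn => ?_)
        exact (abs_sum_le_sum_abs _ _).trans (sum_le_sum fun n' hn' => h1 n hn n' hn')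
    _ = (K * τ ^ 6) * ∑ n ∈ range (k + 1), ∑ n' ∈ range (k + 1),
        (σ ^ 2) ^ ((n - n') + (n' - n)) * (B n * C n') := by
        rw [mul_sum]
        exact sum_congr rfl fun n _ => by rw [mul_sum]
    _ ≤ (K * τ ^ 6) * (42 * (√(∑ n ∈ range (k + 1), B n ^ 2) *
          √(∑ n ∈ range (k + 1), C n ^ 2))) := mul_le_mul_of_nonneg_left h2 (by positivity)
    _ ≤ (K * τ ^ 6) * (42 * ((√2 * n2 (ivm k j2) b) * (√2 * n2 (ivm k j3) c))) := by
        refine mul_le_mul_of_nonneg_left (mul_le_mul_of_nonneg_left ?_ (by norm_num))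
          (by positivity)
        unfold H922.n2
        rw [← Real.sqrt_mul (x := 2) (by norm_num) (avg (ivm k j2) fun x => b x ^ 2),
          ← Real.sqrt_mul (x := 2) (by norm_num) (avg (ivm k j3) fun x => c x ^ 2)]
        exact mul_le_mul (Real.sqrt_le_sqrt hfB) (Real.sqrt_le_sqrt hfC) (Real.sqrt_nonneg _)
          (Real.sqrt_nonneg _)
    _ = _ := by
        have : √(2 : ℝ) * √2 = 2 := Real.mul_self_sqrt (by norm_num)
        calc _ = (K * τ ^ 6) * (42 * ((√2 * √2) * (n2 (ivm k j2) b * n2 (ivm k j3) c))) := by ring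
          _ = _ := by rw [this, hK]; ring

/-- **The pair norm in the pair weight**, without the structure `PNH`: if the function
`s (p·x)` is uniform at the level `δ` in the pair weight on the cubes of scale `k` near the box,
then the bilinear form with the kernel `s g` has norm at most `δ ^ (3/8)` times a constant, for all
functions `b`, `c` (all heights). -/
theorem pair_norm2' {δ : ℝ} (hδ0 : 0 < δ) (hδ1 : δ ≤ 1) (hΛ1 : 1 ≤ Λ)
    (hm : m * p1 = p2 * q3 - p3 * q2) (hm0 : m ≠ 0) (hp1 : p1 ≠ 0) (hp2 : p2 ≠ 0) (hp3 : p3 ≠ 0)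
    (hq2 : q2 ≠ 0) (hq3 : q3 ≠ 0) (bm : |m| ≤ 4) (b1 : |p1| ≤ 4) (b2 : |p2| ≤ 4) (b3 : |p3| ≤ 4)
    (bq2 : |q2| ≤ 4) (bq3 : |q3| ≤ 4) (hs : WinSq k Λ s) (hg : WinSq k Λg g) {x1 : ℤ}
    (test : ∀ a1 ∈ Ico (x1 / 2 ^ k - 4) (x1 / 2 ^ k + 5), ∀ a2 ∈ Ico (j2 - 4) (j2 + 5),
      ∀ a3 ∈ Ico (j3 - 4) (j3 + 5), ∀ u : Tri,
        |avg (ivm k a1 ×ˢ ivm k a2 ×ˢ ivm k a3)
          (fun q => s (p1 * q.1 + p2 * q.2.1 + p3 * q.2.2) * atm u q)| ≤
        δ * pw3 (ivm k a1 ×ˢ ivm k a2 ×ˢ ivm k a3) u) (b c : ℤ → ℝ) (c0 : ℤ) :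
    |∑ x2 ∈ ivm k j2, ∑ x3 ∈ ivm k j3, s (p1 * x1 + p2 * x2 + p3 * x3) *
        g (c0 + q2 * x2 + q3 * x3) * b x2 * c x3| ≤
      151200 * 4 ^ k * Λ * √Λg * δ ^ (3 / 8 : ℝ) * (n2 (ivm k j2) b * n2 (ivm k j3) c) := by
  have h16 : (δ ^ (1 / 16 : ℝ)) ^ 16 = δ := by
    rw [← Real.rpow_natCast, ← Real.rpow_mul hδ0.le]
    norm_num
  have h6 : (δ ^ (1 / 16 : ℝ)) ^ 6 = δ ^ (3 / 8 : ℝ) := by
    rw [← Real.rpow_natCast, ← Real.rpow_mul hδ0.le]
    norm_num
  have H : PNH (δ ^ (1 / 16 : ℝ)) Λ Λg k s g p1 p2 p3 q2 q3 m (x1 / 2 ^ k) j2 j3 :=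
    { τ0 := Real.rpow_pos_of_pos hδ0 _
      τ1 := Real.rpow_le_one hδ0.le hδ1 (by norm_num)
      Λ1 := hΛ1
      hm := hm
      hm0 := hm0
      hp1 := hp1
      hp2 := hp2
      hp3 := hp3
      hq2 := hq2
      hq3 := hq3
      bm := bm
      b1 := b1
      b2 := b2
      b3 := b3
      bq2 := bq2
      bq3 := bq3
      hs := hs
      hg := hg
      test := by rw [h16]; exact test }
  have h := pair_norm2 H b c rfl c0
  rwa [h6] at h

end

end Vale.Agent.P141.H550
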