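import Vale.Agent.P141.H550.PN2c
import Vale.Agent.P141.H238.GDef

/-!
# P141, line W: the pair norm in the weight `W_g`

One test: the edges are the shifted `b`, the shifted `c`, and the sum along the invariance line.
-/

namespace Vale.Agent.P141.H550

open Finset Vale.Agent.P141.PL.H315 Vale.Agent.P141.H337
open Vale.Agent.P141.H922 (n2 n2_nonneg n2_sq)
open Vale.Agent.P141.H238 (pG v2 v2_nonneg pG_nonneg)

noncomputable section

/-! ### averages over a box -/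

theorem avg3_12 (A B C : Finset ℤ) (hC : C.Nonempty) (f : ℤ → ℤ → ℝ) :
    avg (A ×ˢ B ×ˢ C) (fun p => f p.1 p.2.1) =
      (A.card : ℝ)⁻¹ * (B.card : ℝ)⁻¹ * ∑ x ∈ A, ∑ y ∈ B, f x y := by
  have hc : (C.card : ℝ) ≠ 0 := by exact_mod_cast hC.card_pos.ne'
  unfold avg
  rw [card_product, card_product, sum_product]
  have h1 : ∀ x, ∑ z ∈ B ×ˢ C, f x z.1 = C.card * ∑ y ∈ B, f x y := by
    intro x
    rw [sum_product, mul_sum]
    refine sum_congr rfl fun y _ => ?_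
    simp only [sum_const, nsmul_eq_mul]
  simp only [h1, ← mul_sum]
  push_cast
  field_simp

theorem avg3_13 (A B C : Finset ℤ) (hB : B.Nonempty) (f : ℤ → ℤ → ℝ) :
    avg (A ×ˢ B ×ˢ C) (fun p => f p.1 p.2.2) =
      (A.card : ℝ)⁻¹ * (C.card : ℝ)⁻¹ * ∑ x ∈ A, ∑ z ∈ C, f x z := by
  have hc : (B.card : ℝ) ≠ 0 := by exact_mod_cast hB.card_pos.ne'
  unfold avg
  rw [card_product, card_product, sum_product]
  have h1 : ∀ x, ∑ z ∈ B ×ˢ C, f x z.2 = B.card * ∑ y ∈ C, f x y := by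
    intro x
    rw [sum_product]
    simp only [sum_const, nsmul_eq_mul]
  simp only [h1, ← mul_sum]
  push_cast
  field_simp

theorem avg3_23 (A B C : Finset ℤ) (hA : A.Nonempty) (f : ℤ → ℤ → ℝ) :
    avg (A ×ˢ B ×ˢ C) (fun p => f p.2.1 p.2.2) =
      (B.card : ℝ)⁻¹ * (C.card : ℝ)⁻¹ * ∑ y ∈ B, ∑ z ∈ C, f y z := by
  have hc : (A.card : ℝ) ≠ 0 := by exact_mod_cast hA.card_pos.ne'
  unfold avg
  rw [card_product, card_product, sum_product]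
  have h1 : ∑ z ∈ B ×ˢ C, f z.1 z.2 = ∑ y ∈ B, ∑ z ∈ C, f y z := by rw [sum_product]
  simp only [sum_const, nsmul_eq_mul, h1]
  push_cast
  field_simp

/-- six numbers -/
theorem six_le {a b c v1 v2' v3 B C N : ℝ} (hB : 0 ≤ B) (hC : 0 ≤ C) (hN : 0 ≤ N) (ha : 0 ≤ a)
    (hb : 0 ≤ b) (hc : 0 ≤ c) (h1 : 0 ≤ v1) (h2 : 0 ≤ v2') (h3 : 0 ≤ v3) (ka : a ≤ B) (kb : b ≤ C)
    (kc : c ≤ N) (k1 : v1 ≤ (B * C) ^ 2) (k2 : v2' ≤ (B * N) ^ 2) (k3 : v3 ≤ (C * N) ^ 2) :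
    (a * b * c) ^ (1 / 3 : ℝ) * (v1 * v2' * v3) ^ (1 / 6 : ℝ) ≤ B * C * N := by
  have hX : 0 ≤ B * C * N := by positivity
  have e1 : (a * b * c) ^ (1 / 3 : ℝ) ≤ (B * C * N) ^ (1 / 3 : ℝ) := by
    refine Real.rpow_le_rpow (by positivity) ?_ (by norm_num)
    exact mul_le_mul (mul_le_mul ka kb hb hB) kc hc (by positivity)
  have e2 : (v1 * v2' * v3) ^ (1 / 6 : ℝ) ≤ (B * C * N) ^ (2 / 3 : ℝ) := by
    have e3 : v1 * v2' * v3 ≤ (B * C * N) ^ (4 : ℝ) := by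
      have : (B * C * N) ^ (4 : ℝ) = (B * C) ^ 2 * (B * N) ^ 2 * (C * N) ^ 2 := by
        rw [show (4 : ℝ) = ((4 : ℕ) : ℝ) by norm_num, Real.rpow_natCast]; ring
      rw [this]
      exact mul_le_mul (mul_le_mul k1 k2 h2 (by positivity)) k3 h3 (by positivity)
    refine (Real.rpow_le_rpow (by positivity) e3 (by norm_num)).trans (le_of_eq ?_)
    rw [← Real.rpow_mul hX]
    norm_num
  calc _ ≤ (B * C * N) ^ (1 / 3 : ℝ) * (B * C * N) ^ (2 / 3 : ℝ) :=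
        mul_le_mul e1 e2 (by positivity) (by positivity)
    _ = B * C * N := by
        rw [← Real.rpow_add' hX (by norm_num)]
        norm_num

/-! ### the edges -/

/-- `b` shifted along the points `x1 + m y` (one copy) -/
def s1 (x1 m r : ℤ) (N : ℕ) (b' : ℤ → ℝ) (w : ℤ × ℤ) : ℝ :=
  ∑ y ∈ range N, if w.1 = x1 + m * y then b' (w.2 + r * y) else 0

theorem s1_at {x1 m r : ℤ} (hm : m ≠ 0) {N : ℕ} (b' : ℤ → ℝ) {y : ℕ} (hy : y < N)
    (x2 : ℤ) : s1 x1 m r N b' (x1 + m * y, x2) = b' (x2 + r * y) := by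
  unfold s1
  rw [sum_eq_single_of_mem y (mem_range.2 hy)]
  · simp
  · intro z _ hz
    rw [if_neg]
    intro h
    have h1 : m * (y : ℤ) = m * z := by simpa using h
    have h2 := mul_left_cancel₀ hm h1
    exact hz (by exact_mod_cast h2.symm)

theorem s1_off {x1 m r : ℤ} {N : ℕ} (b' : ℤ → ℝ) {w : ℤ × ℤ}
    (h : ∀ y : ℕ, y < N → w.1 ≠ x1 + m * y) : s1 x1 m r N b' w = 0 := by
  unfold s1
  exact sum_eq_zero fun y hy => if_neg (h y (mem_range.1 hy))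

/-- row sums: the first variable fixed -/
theorem s1_row {x1 m r : ℤ} (hm : m ≠ 0) {N : ℕ} (I S : Finset ℤ) (b : ℤ → ℝ) (z : ℤ) :
    ∑ x ∈ S, s1 x1 m r N (cutI I b) (z, x) ^ 2 ≤ ∑ x ∈ I, b x ^ 2 := by
  by_cases hx : ∃ y : ℕ, y < N ∧ z = x1 + m * y
  · obtain ⟨y, hy, rfl⟩ := hx
    simp only [s1_at hm _ hy]
    exact sum_cutI_sq_le I S b (fun x => x + r * y) (fun a _ c _ h => by simpa using h)
  · push Not at hx
    have : ∀ x ∈ S, s1 x1 m r N (cutI I b) (z, x) ^ 2 = 0 := by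
      intro x _
      rw [s1_off _ (fun y hy => hx y hy)]
      norm_num
    rw [sum_congr rfl this, sum_const_zero]
    exact sum_nonneg fun _ _ => sq_nonneg _

/-- column sums: the second variable fixed -/
theorem s1_col {x1 m r : ℤ} (hm : m ≠ 0) (hr : r ≠ 0) {N : ℕ} (I S : Finset ℤ) (b : ℤ → ℝ)
    (x : ℤ) : ∑ z ∈ S, s1 x1 m r N (cutI I b) (z, x) ^ 2 ≤ ∑ x ∈ I, b x ^ 2 := by
  classical
  have h3 : ∀ z ∈ S, s1 x1 m r N (cutI I b) (z, x) ^ 2 =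
      ∑ y ∈ range N, if z = x1 + m * y then cutI I b (x + r * y) ^ 2 else 0 := by
    intro z _
    by_cases hx : ∃ y : ℕ, y < N ∧ z = x1 + m * y
    · obtain ⟨y, hy, rfl⟩ := hx
      rw [s1_at hm _ hy, sum_eq_single_of_mem y (mem_range.2 hy)]
      · simp
      · intro z _ hz
        rw [if_neg]
        intro h
        have h1 : m * (y : ℤ) = m * z := by simpa using h
        have h2 := mul_left_cancel₀ hm h1
        exact hz (by exact_mod_cast h2.symm)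
    · push Not at hx
      rw [s1_off _ (fun y hy => hx y hy), sum_eq_zero]
      · simp
      · intro y hy
        exact if_neg (hx y (mem_range.1 hy))
  rw [sum_congr rfl h3, sum_comm]
  have h4 : ∀ y ∈ range N, ∑ z ∈ S, (if z = x1 + m * y then cutI I b (x + r * y) ^ 2 else 0) ≤
      cutI I b (x + r * y) ^ 2 := by
    intro y _
    rw [← sum_filter]
    have hc : (S.filter fun z => z = x1 + m * y).card ≤ 1 :=
      card_le_one.2 fun a ha c hc => by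
        rw [mem_filter] at ha hc
        rw [ha.2, hc.2]
    rw [sum_const, nsmul_eq_mul]
    have : ((S.filter fun z => z = x1 + m * y).card : ℝ) ≤ 1 := by exact_mod_cast hc
    nlinarith [sq_nonneg (cutI I b (x + r * y))]
  refine (sum_le_sum h4).trans ?_
  have h5 : ∑ y ∈ range N, cutI I b (x + r * y) ^ 2 =
      ∑ z ∈ (range N).image (fun y : ℕ => (y : ℤ)), cutI I b (x + r * z) ^ 2 := by
    rw [sum_image fun a _ c _ h => by exact_mod_cast h]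
  rw [h5]
  refine sum_cutI_sq_le _ _ b (fun z => x + r * z) ?_
  intro a _ c _ h
  have h' : r * a = r * c := by simpa using h
  exact mul_left_cancel₀ hr h'

theorem ivm_nonempty (k : ℕ) (j : ℤ) : (ivm k j).Nonempty := by
  rw [← card_pos, card_ivm]; positivity

/-- **the weight of the test** -/
theorem pG_test_le {k : ℕ} {x1 m ρ2 ρ3 j2 j3 : ℤ} (hm : m ≠ 0) (h2 : ρ2 ≠ 0) (h3 : ρ3 ≠ 0)
    (b c : ℤ → ℝ) (φ : ℤ × ℤ → ℝ) (a1 a2 a3 : ℤ) :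
    pG (ivm k a1 ×ˢ ivm k a2 ×ˢ ivm k a3)
      (s1 x1 m ρ2 (2 ^ k) (cutI (ivm k j2) b), s1 x1 m ρ3 (2 ^ k) (cutI (ivm k j3) c), φ) ≤
      n2 (ivm k j2) b * n2 (ivm k j3) c * n2 (ivm k a2 ×ˢ ivm k a3) φ := by
  set b' := cutI (ivm k j2) b with hb'
  set c' := cutI (ivm k j3) c with hc'
  set N : ℕ := 2 ^ k with hN
  set B : ℝ := ∑ x ∈ ivm k j2, b x ^ 2 with hB
  set C : ℝ := ∑ x ∈ ivm k j3, c x ^ 2 with hC
  set P : ℝ := ∑ w ∈ ivm k a2 ×ˢ ivm k a3, φ w ^ 2 with hP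
  have hB0 : 0 ≤ B := sum_nonneg fun _ _ => sq_nonneg _
  have hC0 : 0 ≤ C := sum_nonneg fun _ _ => sq_nonneg _
  have hP0 : 0 ≤ P := sum_nonneg fun _ _ => sq_nonneg _
  have n1 := ivm_nonempty k a1
  have n2' := ivm_nonempty k a2
  have n3 := ivm_nonempty k a3
  have c1 : ((ivm k a1).card : ℝ) = 2 ^ k := by rw [card_ivm]; push_cast; rfl
  have c2 : ((ivm k a2).card : ℝ) = 2 ^ k := by rw [card_ivm]; push_cast; rfl
  have c3 : ((ivm k a3).card : ℝ) = 2 ^ k := by rw [card_ivm]; push_cast; rfl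
  have K0 : (0 : ℝ) < (2 ^ k)⁻¹ := by positivity
  have eB : n2 (ivm k j2) b ^ 2 = (2 ^ k)⁻¹ * B := by
    rw [n2_sq]; unfold avg; rw [card_ivm]; push_cast; rfl
  have eC : n2 (ivm k j3) c ^ 2 = (2 ^ k)⁻¹ * C := by
    rw [n2_sq]; unfold avg; rw [card_ivm]; push_cast; rfl
  have eP : n2 (ivm k a2 ×ˢ ivm k a3) φ ^ 2 = (2 ^ k)⁻¹ * (2 ^ k)⁻¹ * P := by
    rw [n2_sq]; unfold avg; rw [card_product, card_ivm, card_ivm]; push_cast; rw [mul_inv]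
  -- row and column bounds
  have r12 : ∀ x, ∑ y ∈ ivm k a2, s1 x1 m ρ2 N b' (x, y) ^ 2 ≤ B := fun x => s1_row hm _ _ b x
  have q12 : ∀ y, ∑ x ∈ ivm k a1, s1 x1 m ρ2 N b' (x, y) ^ 2 ≤ B := fun y => s1_col hm h2 _ _ b y
  have r13 : ∀ x, ∑ y ∈ ivm k a3, s1 x1 m ρ3 N c' (x, y) ^ 2 ≤ C := fun x => s1_row hm _ _ c x
  have q13 : ∀ y, ∑ x ∈ ivm k a1, s1 x1 m ρ3 N c' (x, y) ^ 2 ≤ C := fun y => s1_col hm h3 _ _ c y
  unfold H238.pG
  refine six_le (n2_nonneg _ _) (n2_nonneg _ _) (n2_nonneg _ _) (n2_nonneg _ _) (n2_nonneg _ _)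
    (n2_nonneg _ _) (v2_nonneg _ _ _) (v2_nonneg _ _ _) (v2_nonneg _ _ _) ?_ ?_ ?_ ?_ ?_ ?_
  · -- n2 of 12
    refine le_of_pow_le_pow_left₀ (n := 2) (by norm_num) (n2_nonneg _ _) ?_
    rw [n2_sq, eB]
    have e := avg3_12 (ivm k a1) (ivm k a2) (ivm k a3) n3 (fun x y => s1 x1 m ρ2 N b' (x, y) ^ 2)
    unfold PL.H315.e12
    rw [e, c1, c2]
    have h : ∑ x ∈ ivm k a1, ∑ y ∈ ivm k a2, s1 x1 m ρ2 N b' (x, y) ^ 2 ≤ 2 ^ k * B := by
      refine (sum_le_card_nsmul _ _ _ fun x _ => r12 x).trans (le_of_eq ?_)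
      rw [nsmul_eq_mul, c1]
    calc _ ≤ (2 ^ k : ℝ)⁻¹ * (2 ^ k)⁻¹ * (2 ^ k * B) :=
          mul_le_mul_of_nonneg_left h (by positivity)
      _ = _ := by field_simp
  · refine le_of_pow_le_pow_left₀ (n := 2) (by norm_num) (n2_nonneg _ _) ?_
    rw [n2_sq, eC]
    have e := avg3_13 (ivm k a1) (ivm k a2) (ivm k a3) n2' (fun x y => s1 x1 m ρ3 N c' (x, y) ^ 2)
    unfold PL.H315.e13
    rw [e, c1, c3]
    have h : ∑ x ∈ ivm k a1, ∑ y ∈ ivm k a3, s1 x1 m ρ3 N c' (x, y) ^ 2 ≤ 2 ^ k * C := by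
      refine (sum_le_card_nsmul _ _ _ fun x _ => r13 x).trans (le_of_eq ?_)
      rw [nsmul_eq_mul, c1]
    calc _ ≤ (2 ^ k : ℝ)⁻¹ * (2 ^ k)⁻¹ * (2 ^ k * C) :=
          mul_le_mul_of_nonneg_left h (by positivity)
      _ = _ := by field_simp
  · refine le_of_pow_le_pow_left₀ (n := 2) (by norm_num) (n2_nonneg _ _) ?_
    rw [n2_sq, eP]
    have e := avg3_23 (ivm k a1) (ivm k a2) (ivm k a3) n1 (fun x y => φ (x, y) ^ 2)
    unfold PL.H315.e23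
    rw [e, c2, c3, hP, sum_product]
  · -- vertex 1
    rw [mul_pow, eB, eC]
    unfold H238.v2 avg
    rw [card_product, card_product, sum_product]
    push_cast
    rw [c1, c2, c3]
    have h : ∑ x ∈ ivm k a1, ∑ w ∈ ivm k a2 ×ˢ ivm k a3,
        e12 (s1 x1 m ρ2 N b') (x, w) ^ 2 * e13 (s1 x1 m ρ3 N c') (x, w) ^ 2 ≤
        2 ^ k * (B * C) := by
      have h' : ∀ x ∈ ivm k a1, ∑ w ∈ ivm k a2 ×ˢ ivm k a3,
          e12 (s1 x1 m ρ2 N b') (x, w) ^ 2 * e13 (s1 x1 m ρ3 N c') (x, w) ^ 2 ≤ B * C := by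
        intro x _
        rw [sum_product]
        simp only [PL.H315.e12, PL.H315.e13]
        rw [← sum_mul_sum]
        exact mul_le_mul (r12 x) (r13 x) (sum_nonneg fun _ _ => sq_nonneg _) hB0
      refine (sum_le_card_nsmul _ _ _ h').trans (le_of_eq ?_)
      rw [nsmul_eq_mul, c1]
    calc _ ≤ ((2 : ℝ) ^ k * (2 ^ k * 2 ^ k))⁻¹ * (2 ^ k * (B * C)) :=
          mul_le_mul_of_nonneg_left h (by positivity)
      _ = _ := by field_simp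
  · -- vertex 2
    rw [mul_pow, eB, eP]
    unfold H238.v2 avg
    rw [card_product, card_product, sum_product_right]
    push_cast
    rw [c1, c2, c3]
    have h : ∑ w ∈ ivm k a2 ×ˢ ivm k a3, ∑ x ∈ ivm k a1,
        e12 (s1 x1 m ρ2 N b') (x, w) ^ 2 * e23 φ (x, w) ^ 2 ≤ B * P := by
      rw [hP, mul_sum]
      refine sum_le_sum fun w _ => ?_
      simp only [PL.H315.e12, PL.H315.e23]
      rw [← sum_mul]
      exact mul_le_mul_of_nonneg_right (q12 w.1) (sq_nonneg _)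
    calc _ ≤ ((2 : ℝ) ^ k * (2 ^ k * 2 ^ k))⁻¹ * (B * P) :=
          mul_le_mul_of_nonneg_left h (by positivity)
      _ = _ := by field_simp
  · rw [mul_pow, eC, eP]
    unfold H238.v2 avg
    rw [card_product, card_product, sum_product_right]
    push_cast
    rw [c1, c2, c3]
    have h : ∑ w ∈ ivm k a2 ×ˢ ivm k a3, ∑ x ∈ ivm k a1,
        e13 (s1 x1 m ρ3 N c') (x, w) ^ 2 * e23 φ (x, w) ^ 2 ≤ C * P := by
      rw [hP, mul_sum]
      refine sum_le_sum fun w _ => ?_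
      simp only [PL.H315.e13, PL.H315.e23]
      rw [← sum_mul]
      exact mul_le_mul_of_nonneg_right (q13 w.2) (sq_nonneg _)
    calc _ ≤ ((2 : ℝ) ^ k * (2 ^ k * 2 ^ k))⁻¹ * (C * P) :=
          mul_le_mul_of_nonneg_left h (by positivity)
      _ = _ := by field_simp

/-! ### the square of the sum along the invariance line is one test -/

theorem Phi_one_test {k : ℕ} {s : ℤ → ℝ} {p1 p2 p3 q2 q3 m : ℤ} (hm0 : m ≠ 0) (bm : |m| ≤ 4)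
    (x1 : ℤ) (b' c' : ℤ → ℝ) (X2 X3 : Finset ℤ) :
    ∑ w ∈ X2 ×ˢ X3, Phi k s p1 p2 p3 q2 q3 m x1 b' c' w.1 w.2 ^ 2 =
      ∑ z1 ∈ Ico (2 ^ k * (x1 / 2 ^ k - 4)) (2 ^ k * (x1 / 2 ^ k + 5)),
        ∑ z2 ∈ X2, ∑ z3 ∈ X3, s (p1 * z1 + p2 * z2 + p3 * z3) *
          atm ((s1 x1 m q3 (2 ^ k) b', s1 x1 m (-q2) (2 ^ k) c',
            fun w => Phi k s p1 p2 p3 q2 q3 m x1 b' c' w.1 w.2) : Tri) (z1, z2, z3) := by
  set N : ℕ := 2 ^ k with hN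
  have h2k : (0 : ℤ) < 2 ^ k := by positivity
  set X1 : Finset ℤ := Ico (2 ^ k * (x1 / 2 ^ k - 4)) (2 ^ k * (x1 / 2 ^ k + 5)) with hX1
  set φ : ℤ × ℤ → ℝ := fun w => Phi k s p1 p2 p3 q2 q3 m x1 b' c' w.1 w.2 with hφ
  set U : Tri := (s1 x1 m q3 N b', s1 x1 m (-q2) N c', φ) with hU
  have h9 : ∀ w ∈ X2 ×ˢ X3, Phi k s p1 p2 p3 q2 q3 m x1 b' c' w.1 w.2 ^ 2 = ∑ z1 ∈ X1,
      s (p1 * z1 + p2 * w.1 + p3 * w.2) * atm U (z1, w.1, w.2) := by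
    intro w _
    -- the sum over `z1` only sees the points `x1 + m y`
    have h8 : ∀ z1 ∈ X1, s (p1 * z1 + p2 * w.1 + p3 * w.2) * atm U (z1, w.1, w.2) =
        ∑ y ∈ range N, if z1 = x1 + m * y then
          s (p1 * (x1 + m * y) + p2 * w.1 + p3 * w.2) *
            (b' (w.1 + q3 * y) * c' (w.2 + -q2 * y)) * φ w else 0 := by
      intro z1 _
      by_cases hx : ∃ y : ℕ, y < N ∧ z1 = x1 + m * y
      · obtain ⟨y, hy, rfl⟩ := hx
        rw [sum_eq_single_of_mem y (mem_range.2 hy)]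
        · rw [if_pos rfl]
          simp only [atm, e12, e13, e23, hU]
          rw [s1_at hm0 b' hy, s1_at hm0 c' hy]
          ring
        · intro z _ hz
          rw [if_neg]
          intro h
          have h1 : m * (y : ℤ) = m * z := by simpa using h
          have h2 := mul_left_cancel₀ hm0 h1
          exact hz (by exact_mod_cast h2.symm)
      · push Not at hx
        rw [sum_eq_zero]
        · simp only [atm, e12, hU]
          rw [s1_off b' (w := (z1, w.1)) (fun y hy => hx y hy)]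
          ring
        · intro y hy
          exact if_neg (hx y (mem_range.1 hy))
    rw [sum_congr rfl h8, sum_comm]
    have h10 : ∀ y ∈ range N, ∑ z1 ∈ X1, (if z1 = x1 + m * y then
          s (p1 * (x1 + m * y) + p2 * w.1 + p3 * w.2) *
            (b' (w.1 + q3 * y) * c' (w.2 + -q2 * y)) * φ w else 0) =
          s (p1 * (x1 + m * y) + p2 * w.1 + p3 * w.2) *
            (b' (w.1 + q3 * y) * c' (w.2 + -q2 * y)) * φ w := by
      intro y hy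
      rw [mem_range] at hy
      have hmem : x1 + m * y ∈ X1 := by
        have hs1 := shift_bd k (r := m) bm hy
        have h3 := Int.mul_ediv_add_emod x1 (2 ^ k)
        have h4 := Int.emod_nonneg x1 h2k.ne'
        have h5 := Int.emod_lt_of_pos x1 h2k
        rw [hX1, mem_Ico]
        constructor <;> nlinarith
      rw [sum_ite_eq' X1 (x1 + m * y), if_pos hmem]
    rw [sum_congr rfl h10, ← sum_mul, sq]
    rfl
  rw [sum_congr rfl h9, sum_comm]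
  refine sum_congr rfl fun z1 _ => ?_
  rw [sum_product]

variable {Λ Λg : ℝ} {k : ℕ} {s g : ℤ → ℝ} {p1 p2 p3 q2 q3 m i1 j2 j3 : ℤ}

theorem sum9 (f : ℤ → ℝ) {i : ℤ} {M : ℝ} (h : ∀ a ∈ Ico (i - 4) (i + 5), f a ≤ M) :
    ∑ a ∈ Ico (i - 4) (i + 5), f a ≤ 9 * M := by
  refine (sum_le_card_nsmul _ _ _ h).trans (le_of_eq ?_)
  rw [Int.card_Ico, nsmul_eq_mul]
  have : (i + 5 - (i - 4)).toNat = 9 := by
    have : i + 5 - (i - 4) = 9 := by ring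
    rw [this]; rfl
  rw [this]; norm_num

/-- the sum over the 729 cubes, with a bound which depends on the square -/
theorem sum3_cs (k : ℕ) (i1 j2 j3 : ℤ) (ψ : ℤ → ℤ → ℤ → ℝ) {M : ℤ → ℤ → ℝ}
    (h : ∀ a1 ∈ Ico (i1 - 4) (i1 + 5), ∀ a2 ∈ Ico (j2 - 4) (j2 + 5), ∀ a3 ∈ Ico (j3 - 4) (j3 + 5),
      ∑ z1 ∈ ivm k a1, ∑ z2 ∈ ivm k a2, ∑ z3 ∈ ivm k a3, ψ z1 z2 z3 ≤ M a2 a3) :
    ∑ z1 ∈ Ico (2 ^ k * (i1 - 4)) (2 ^ k * (i1 + 5)), ∑ z2 ∈ Ico (2 ^ k * (j2 - 4)) (2 ^ k * (j2 + 5)),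
      ∑ z3 ∈ Ico (2 ^ k * (j3 - 4)) (2 ^ k * (j3 + 5)), ψ z1 z2 z3 ≤
      9 * ∑ a2 ∈ Ico (j2 - 4) (j2 + 5), ∑ a3 ∈ Ico (j3 - 4) (j3 + 5), M a2 a3 := by
  rw [sum_long]
  refine sum9 _ fun a1 ha1 => ?_
  rw [sum_comm, sum_long]
  refine sum_le_sum fun a2 ha2 => ?_
  rw [sum_comm]
  have h3 : ∑ z1 ∈ ivm k a1, ∑ z2 ∈ ivm k a2,
      ∑ z3 ∈ Ico (2 ^ k * (j3 - 4)) (2 ^ k * (j3 + 5)), ψ z1 z2 z3 =
      ∑ a3 ∈ Ico (j3 - 4) (j3 + 5), ∑ z1 ∈ ivm k a1, ∑ z2 ∈ ivm k a2, ∑ z3 ∈ ivm k a3,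
        ψ z1 z2 z3 := by
    rw [sum_comm (s := Ico (j3 - 4) (j3 + 5))]
    refine sum_congr rfl fun z1 _ => ?_
    rw [sum_comm (s := Ico (j3 - 4) (j3 + 5))]
    exact sum_congr rfl fun z2 _ => sum_long k _ _ _
  rw [h3]
  exact sum_le_sum fun a3 ha3 => h a1 ha1 a2 ha2 a3 ha3

/-- **The sum of squares along the invariance line in the weight `W_g`.** -/
theorem Phi_sq_leG {δ : ℝ} (hδ : 0 ≤ δ) (hm0 : m ≠ 0) (hq2 : q2 ≠ 0) (hq3 : q3 ≠ 0)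
    (bm : |m| ≤ 4) {x1 : ℤ}
    (test : ∀ a1 ∈ Ico (x1 / 2 ^ k - 4) (x1 / 2 ^ k + 5), ∀ a2 ∈ Ico (j2 - 4) (j2 + 5),
      ∀ a3 ∈ Ico (j3 - 4) (j3 + 5), ∀ u : Tri,
        |avg (ivm k a1 ×ˢ ivm k a2 ×ˢ ivm k a3)
          (fun q => s (p1 * q.1 + p2 * q.2.1 + p3 * q.2.2) * atm u q)| ≤
        δ * pG (ivm k a1 ×ˢ ivm k a2 ×ˢ ivm k a3) u) (b c : ℤ → ℝ) :
    ∑ w ∈ Ico (2 ^ k * (j2 - 4)) (2 ^ k * (j2 + 5)) ×ˢ Ico (2 ^ k * (j3 - 4)) (2 ^ k * (j3 + 5)),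
      Phi k s p1 p2 p3 q2 q3 m x1 (cutI (ivm k j2) b) (cutI (ivm k j3) c) w.1 w.2 ^ 2 ≤
      (81 * 4 ^ k * δ * (n2 (ivm k j2) b * n2 (ivm k j3) c)) ^ 2 := by
  classical
  set B := n2 (ivm k j2) b with hB
  set C := n2 (ivm k j3) c with hC
  have hB0 : 0 ≤ B := n2_nonneg _ _
  have hC0 : 0 ≤ C := n2_nonneg _ _
  set X2 := Ico (2 ^ k * (j2 - 4)) (2 ^ k * (j2 + 5)) with hX2
  set X3 := Ico (2 ^ k * (j3 - 4)) (2 ^ k * (j3 + 5)) with hX3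
  set φ : ℤ × ℤ → ℝ := fun w =>
    Phi k s p1 p2 p3 q2 q3 m x1 (cutI (ivm k j2) b) (cutI (ivm k j3) c) w.1 w.2 with hφ
  set S : ℝ := ∑ w ∈ X2 ×ˢ X3, φ w ^ 2 with hS
  have hS0 : 0 ≤ S := sum_nonneg fun _ _ => sq_nonneg _
  have h1 := Phi_one_test (k := k) (s := s) (p1 := p1) (p2 := p2) (p3 := p3) (q2 := q2) (q3 := q3)
    hm0 bm x1 (cutI (ivm k j2) b) (cutI (ivm k j3) c) X2 X3
  have h2 : S ≤ 9 * ∑ a2 ∈ Ico (j2 - 4) (j2 + 5), ∑ a3 ∈ Ico (j3 - 4) (j3 + 5),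
      (8 : ℝ) ^ k * (δ * (B * C * n2 (ivm k a2 ×ˢ ivm k a3) φ)) := by
    rw [hS]
    refine h1.le.trans (sum3_cs k _ j2 j3 _ fun a1 ha1 a2 ha2 a3 ha3 => ?_)
    have h10 := test a1 ha1 a2 ha2 a3 ha3 (s1 x1 m q3 (2 ^ k) (cutI (ivm k j2) b),
      s1 x1 m (-q2) (2 ^ k) (cutI (ivm k j3) c), φ)
    have h11 := pG_test_le (k := k) (x1 := x1) (j2 := j2) (j3 := j3) hm0 hq3 (neg_ne_zero.2 hq2)
      b c φ a1 a2 a3
    have h13 := (le_abs_self _).trans (h10.trans (mul_le_mul_of_nonneg_left h11 hδ))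
    unfold avg at h13
    rw [card_product, card_product, card_ivm, card_ivm, card_ivm] at h13
    have e8 : (8 : ℝ) ^ k = 2 ^ k * (2 ^ k * 2 ^ k) := by
      rw [← mul_pow, ← mul_pow]; norm_num
    push_cast at h13
    rw [← e8, inv_mul_le_iff₀ (by positivity), sum_product] at h13
    refine le_trans (le_of_eq (sum_congr rfl fun z1 _ => ?_)) h13
    rw [sum_product]
  -- Cauchy-Schwarz over the 81 squares
  have h3 : ∑ a2 ∈ Ico (j2 - 4) (j2 + 5), ∑ a3 ∈ Ico (j3 - 4) (j3 + 5),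
      n2 (ivm k a2 ×ˢ ivm k a3) φ ≤ 9 * (√S / 2 ^ k) := by
    rw [← sum_product' (f := fun a2 a3 => n2 (ivm k a2 ×ˢ ivm k a3) φ)]
    set J := Ico (j2 - 4) (j2 + 5) ×ˢ Ico (j3 - 4) (j3 + 5) with hJ
    have hJc : (J.card : ℝ) = 81 := by
      have card9 : ∀ j : ℤ, (Ico (j - 4) (j + 5)).card = 9 := by
        intro j
        rw [Int.card_Ico]
        have : j + 5 - (j - 4) = 9 := by ring
        rw [this]; rfl
      rw [hJ, card_product, card9, card9]; norm_num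
    have h4 := sum_mul_sq_le_sq_mul_sq J (fun _ => (1 : ℝ))
      (fun a => n2 (ivm k a.1 ×ˢ ivm k a.2) φ)
    simp only [one_mul, one_pow, sum_const, nsmul_eq_mul, mul_one, hJc] at h4
    have h5 : ∑ a ∈ J, n2 (ivm k a.1 ×ˢ ivm k a.2) φ ^ 2 = (4 ^ k)⁻¹ * S := by
      have h6 : ∀ a ∈ J, n2 (ivm k a.1 ×ˢ ivm k a.2) φ ^ 2 =
          (4 ^ k)⁻¹ * ∑ w ∈ ivm k a.1 ×ˢ ivm k a.2, φ w ^ 2 := by
        intro a _
        rw [n2_sq]
        unfold avg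
        rw [card_product, card_ivm, card_ivm]
        push_cast
        rw [← four_pow]
      rw [sum_congr rfl h6, ← mul_sum, hS]
      congr 1
      rw [hJ, sum_product, sum_product]
      rw [hX2, sum_long]
      refine sum_congr rfl fun a2 _ => ?_
      have h7 : ∀ x ∈ ivm k a2, ∑ y ∈ X3, φ (x, y) ^ 2 =
          ∑ a3 ∈ Ico (j3 - 4) (j3 + 5), ∑ y ∈ ivm k a3, φ (x, y) ^ 2 := by
        intro x _
        rw [hX3, sum_long]
      rw [sum_congr rfl h7, sum_comm]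
      refine sum_congr rfl fun a3 _ => ?_
      rw [sum_product]
    rw [h5] at h4
    have h8 : √S ^ 2 = S := Real.sq_sqrt hS0
    have h9 : (∑ a ∈ J, n2 (ivm k a.1 ×ˢ ivm k a.2) φ) ^ 2 ≤ (9 * (√S / 2 ^ k)) ^ 2 := by
      refine h4.trans (le_of_eq ?_)
      rw [mul_pow, div_pow, h8, four_pow, sq (2 ^ k : ℝ)]
      field_simp
      ring
    exact le_of_pow_le_pow_left₀ (n := 2) (by norm_num) (by positivity) h9
  -- the end
  have h4 : S ≤ (81 * 4 ^ k * δ * (B * C)) * √S := by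
    have e1 : ∑ a2 ∈ Ico (j2 - 4) (j2 + 5), ∑ a3 ∈ Ico (j3 - 4) (j3 + 5),
        (8 : ℝ) ^ k * (δ * (B * C * n2 (ivm k a2 ×ˢ ivm k a3) φ)) =
        (8 ^ k * (δ * (B * C))) * ∑ a2 ∈ Ico (j2 - 4) (j2 + 5), ∑ a3 ∈ Ico (j3 - 4) (j3 + 5),
          n2 (ivm k a2 ×ˢ ivm k a3) φ := by
      rw [mul_sum]
      refine sum_congr rfl fun a2 _ => ?_
      rw [mul_sum]
      exact sum_congr rfl fun a3 _ => by ring
    rw [e1] at h2
    refine h2.trans ?_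
    have h5 : (8 ^ k * (δ * (B * C))) * ∑ a2 ∈ Ico (j2 - 4) (j2 + 5), ∑ a3 ∈ Ico (j3 - 4) (j3 + 5),
          n2 (ivm k a2 ×ˢ ivm k a3) φ ≤ (8 ^ k * (δ * (B * C))) * (9 * (√S / 2 ^ k)) :=
      mul_le_mul_of_nonneg_left h3 (by positivity)
    have e8 : (8 : ℝ) ^ k = 2 ^ k * 4 ^ k := by rw [← mul_pow]; norm_num
    calc _ ≤ 9 * ((8 ^ k * (δ * (B * C))) * (9 * (√S / 2 ^ k))) :=
          mul_le_mul_of_nonneg_left h5 (by norm_num)
      _ = _ := by rw [e8]; field_simp; ring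
  have h5 : √S ≤ 81 * 4 ^ k * δ * (B * C) := by
    rcases hS0.eq_or_lt with h | h
    · rw [← h, Real.sqrt_zero]; positivity
    · have h6 : 0 < √S := Real.sqrt_pos.2 h
      have h7 : √S * √S ≤ (81 * 4 ^ k * δ * (B * C)) * √S := by
        rw [Real.mul_self_sqrt hS0]; exact h4
      exact le_of_mul_le_mul_right h7 h6
  calc S = √S ^ 2 := (Real.sq_sqrt hS0).symm
    _ ≤ _ := pow_le_pow_left₀ (Real.sqrt_nonneg _) h5 2

/-- **The pair norm in the weight `W_g`**: full `δ`, every height, no hypothesis on the energy of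
`s`. -/
theorem pair_normG {δ : ℝ} (hδ : 0 ≤ δ) (hm : m * p1 = p2 * q3 - p3 * q2) (hm0 : m ≠ 0)
    (hq2 : q2 ≠ 0) (hq3 : q3 ≠ 0) (bm : |m| ≤ 4) (bq2 : |q2| ≤ 4) (bq3 : |q3| ≤ 4)
    (hg : WinSq k Λg g) {x1 : ℤ}
    (test : ∀ a1 ∈ Ico (x1 / 2 ^ k - 4) (x1 / 2 ^ k + 5), ∀ a2 ∈ Ico (j2 - 4) (j2 + 5),
      ∀ a3 ∈ Ico (j3 - 4) (j3 + 5), ∀ u : Tri,
        |avg (ivm k a1 ×ˢ ivm k a2 ×ˢ ivm k a3)
          (fun q => s (p1 * q.1 + p2 * q.2.1 + p3 * q.2.2) * atm u q)| ≤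
        δ * pG (ivm k a1 ×ˢ ivm k a2 ×ˢ ivm k a3) u) (b c : ℤ → ℝ) (c0 : ℤ) :
    |∑ x2 ∈ ivm k j2, ∑ x3 ∈ ivm k j3, s (p1 * x1 + p2 * x2 + p3 * x3) *
        g (c0 + q2 * x2 + q3 * x3) * b x2 * c x3| ≤
      1458 * 4 ^ k * √Λg * δ * (n2 (ivm k j2) b * n2 (ivm k j3) c) := by
  have hB0 : 0 ≤ n2 (ivm k j2) b := n2_nonneg _ _
  have hC0 : 0 ≤ n2 (ivm k j3) c := n2_nonneg _ _
  have hΛg := hg.nonneg
  have h2 := shift_id (k := k) (s := s) (g := g) hm bq2 bq3 j2 j3 x1 c0 b c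
  set T : ℝ := ∑ x2 ∈ ivm k j2, ∑ x3 ∈ ivm k j3, s (p1 * x1 + p2 * x2 + p3 * x3) *
        g (c0 + q2 * x2 + q3 * x3) * b x2 * c x3 with hT
  have h4 := gsum_le' hg hq3 bq3 (q2 := q2) (j2 := j2) (j3 := j3) c0
  have h8 := Phi_sq_leG (k := k) (s := s) (p1 := p1) (p2 := p2) (p3 := p3) hδ hm0 hq2 hq3 bm test b c
  set Bc := n2 (ivm k j2) b * n2 (ivm k j3) c with hBc
  have h9 : ((2 ^ k : ℝ) * T) ^ 2 ≤ (324 * (4 ^ k * Λg)) * (81 * 4 ^ k * δ * Bc) ^ 2 := by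
    rw [h2]
    exact (sum_mul_sq_le_sq_mul_sq _ _ _).trans
      (mul_le_mul h4 h8 (sum_nonneg fun _ _ => sq_nonneg _) (by positivity))
  have h10 : T ^ 2 ≤ (1458 * 4 ^ k * √Λg * δ * Bc) ^ 2 := by
    have e3 : (324 * (4 ^ k * Λg)) * (81 * 4 ^ k * δ * Bc) ^ 2 =
        (2 ^ k) ^ 2 * (1458 ^ 2 * (4 ^ k) ^ 2 * Λg * δ ^ 2 * Bc ^ 2) := by
      have e4 : (4 : ℝ) ^ k = (2 ^ k) ^ 2 := by rw [four_pow, sq]
      calc _ = (324 * 6561) * 4 ^ k * ((4 ^ k) ^ 2 * Λg * δ ^ 2 * Bc ^ 2) := by ring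
        _ = (324 * 6561) * (2 ^ k) ^ 2 * ((4 ^ k) ^ 2 * Λg * δ ^ 2 * Bc ^ 2) := by rw [e4]
        _ = _ := by ring
    rw [e3, mul_pow] at h9
    have h11 := le_of_mul_le_mul_left h9 (by positivity)
    refine h11.trans (le_of_eq ?_)
    have e5 : √Λg ^ 2 = Λg := Real.sq_sqrt hΛg
    calc _ = 1458 ^ 2 * (4 ^ k) ^ 2 * √Λg ^ 2 * δ ^ 2 * Bc ^ 2 := by rw [e5]
      _ = _ := by ring
  exact abs_le_of_sq_le_sq h10 (by positivity)

end

end Vale.Agent.P141.H550
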