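import Vale.Agent.P141.H550.PN2d
import Vale.Agent.P141.H550.PNG

/-!
# P141, line W: the pair norm, dual form
-/

namespace Vale.Agent.P141.H550

open Finset Vale.Agent.P141.PL.H315 Vale.Agent.P141.H337
open Vale.Agent.P141.H922 (n2 n4 nN n2_nonneg n4_nonneg nN_nonneg pw3 pw3_nonneg n2_sq n4_four)
open Vale.Agent.P141.H238 (pG)

noncomputable section

/-- from a bilinear bound to the bound of the square function -/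
theorem dual_le {k : ℕ} {j2 j3 : ℤ} {M : ℤ → ℤ → ℝ} {c : ℤ → ℝ} {K : ℝ} (hK : 0 ≤ K)
    (h : ∀ b : ℤ → ℝ, |∑ x2 ∈ ivm k j2, ∑ x3 ∈ ivm k j3, M x2 x3 * b x2 * c x3| ≤
      4 ^ k * K * (n2 (ivm k j2) b * n2 (ivm k j3) c)) :
    ∑ x2 ∈ ivm k j2, (∑ x3 ∈ ivm k j3, M x2 x3 * c x3) ^ 2 ≤
      8 ^ k * (K * n2 (ivm k j3) c) ^ 2 := by
  set H : ℤ → ℝ := fun x2 => ∑ x3 ∈ ivm k j3, M x2 x3 * c x3 with hH
  set S : ℝ := ∑ x2 ∈ ivm k j2, H x2 ^ 2 with hS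
  have hS0 : 0 ≤ S := sum_nonneg fun _ _ => sq_nonneg _
  have hc0 : 0 ≤ n2 (ivm k j3) c := n2_nonneg _ _
  have h2k : (0 : ℝ) < 2 ^ k := by positivity
  have e1 : ∑ x2 ∈ ivm k j2, ∑ x3 ∈ ivm k j3, M x2 x3 * H x2 * c x3 = S := by
    rw [hS]
    refine sum_congr rfl fun x2 _ => ?_
    rw [sq]
    nth_rewrite 1 [hH]
    simp only
    rw [sum_mul]
    exact sum_congr rfl fun x3 _ => by ring
  have h1 := h H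
  rw [e1, abs_of_nonneg hS0] at h1
  have h2 : n2 (ivm k j2) H ^ 2 = (2 ^ k)⁻¹ * S := by
    rw [n2_sq]; unfold avg; rw [card_ivm]; push_cast; rfl
  have hn : 0 ≤ n2 (ivm k j2) H := n2_nonneg _ _
  -- `S = 2^k n²`
  have h3 : S = 2 ^ k * n2 (ivm k j2) H ^ 2 := by rw [h2]; field_simp
  have h4 : 2 ^ k * n2 (ivm k j2) H ^ 2 ≤ 4 ^ k * K * (n2 (ivm k j2) H * n2 (ivm k j3) c) := by
    rw [← h3]; exact h1
  have h5 : n2 (ivm k j2) H ≤ 2 ^ k * K * n2 (ivm k j3) c := by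
    rcases hn.eq_or_lt with h0 | h0
    · rw [← h0]; positivity
    · have e4 : (4 : ℝ) ^ k = 2 ^ k * 2 ^ k := four_pow k
      rw [e4] at h4
      have h6 : (2 ^ k * n2 (ivm k j2) H) * n2 (ivm k j2) H ≤
          (2 ^ k * n2 (ivm k j2) H) * (2 ^ k * K * n2 (ivm k j3) c) := by
        calc _ = 2 ^ k * n2 (ivm k j2) H ^ 2 := by ring
          _ ≤ _ := h4
          _ = _ := by ring
      exact le_of_mul_le_mul_left h6 (by positivity)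
  rw [h3]
  have e8 : (8 : ℝ) ^ k = 2 ^ k * (2 ^ k) ^ 2 := by
    rw [← pow_mul, mul_comm k 2, pow_mul, ← mul_pow]; norm_num
  calc 2 ^ k * n2 (ivm k j2) H ^ 2 ≤ 2 ^ k * (2 ^ k * K * n2 (ivm k j3) c) ^ 2 :=
        mul_le_mul_of_nonneg_left (pow_le_pow_left₀ hn h5 2) h2k.le
    _ = _ := by rw [e8]; ring

variable {Λ Λg : ℝ} {k : ℕ} {s g : ℤ → ℝ} {p1 p2 p3 q2 q3 m i1 j2 j3 : ℤ}

/-- **The pair norm in the pair weight, dual form**: no second function. -/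
theorem pair_norm2_dual {δ : ℝ} (hδ0 : 0 < δ) (hδ1 : δ ≤ 1) (hΛ1 : 1 ≤ Λ)
    (hm : m * p1 = p2 * q3 - p3 * q2) (hm0 : m ≠ 0) (hp1 : p1 ≠ 0) (hp2 : p2 ≠ 0) (hp3 : p3 ≠ 0)
    (hq2 : q2 ≠ 0) (hq3 : q3 ≠ 0) (bm : |m| ≤ 4) (b1 : |p1| ≤ 4) (b2 : |p2| ≤ 4) (b3 : |p3| ≤ 4)
    (bq2 : |q2| ≤ 4) (bq3 : |q3| ≤ 4) (hs : WinSq k Λ s) (hg : WinSq k Λg g) {x1 : ℤ}
    (test : ∀ a1 ∈ Ico (x1 / 2 ^ k - 4) (x1 / 2 ^ k + 5), ∀ a2 ∈ Ico (j2 - 4) (j2 + 5),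
      ∀ a3 ∈ Ico (j3 - 4) (j3 + 5), ∀ u : Tri,
        |avg (ivm k a1 ×ˢ ivm k a2 ×ˢ ivm k a3)
          (fun q => s (p1 * q.1 + p2 * q.2.1 + p3 * q.2.2) * atm u q)| ≤
        δ * pw3 (ivm k a1 ×ˢ ivm k a2 ×ˢ ivm k a3) u) (c : ℤ → ℝ) (c0 : ℤ) :
    ∑ x2 ∈ ivm k j2, (∑ x3 ∈ ivm k j3, s (p1 * x1 + p2 * x2 + p3 * x3) *
        g (c0 + q2 * x2 + q3 * x3) * c x3) ^ 2 ≤
      8 ^ k * (151200 * Λ * √Λg * δ ^ (3 / 8 : ℝ) * n2 (ivm k j3) c) ^ 2 := by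
  have hd : 0 ≤ δ ^ (3 / 8 : ℝ) := Real.rpow_nonneg hδ0.le _
  refine dual_le (K := 151200 * Λ * √Λg * δ ^ (3 / 8 : ℝ))
    (M := fun x2 x3 => s (p1 * x1 + p2 * x2 + p3 * x3) * g (c0 + q2 * x2 + q3 * x3))
    (by positivity) fun b => ?_
  have h := pair_norm2' (k := k) (s := s) (g := g) hδ0 hδ1 hΛ1 hm hm0 hp1 hp2 hp3 hq2 hq3 bm b1
    b2 b3 bq2 bq3 hs hg test b c c0
  exact h.trans (le_of_eq (by ring))

/-- **The pair norm in the weight `W_g`, dual form.** -/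
theorem pair_normG_dual {δ : ℝ} (hδ : 0 ≤ δ) (hm : m * p1 = p2 * q3 - p3 * q2) (hm0 : m ≠ 0)
    (hq2 : q2 ≠ 0) (hq3 : q3 ≠ 0) (bm : |m| ≤ 4) (bq2 : |q2| ≤ 4) (bq3 : |q3| ≤ 4)
    (hg : WinSq k Λg g) {x1 : ℤ}
    (test : ∀ a1 ∈ Ico (x1 / 2 ^ k - 4) (x1 / 2 ^ k + 5), ∀ a2 ∈ Ico (j2 - 4) (j2 + 5),
      ∀ a3 ∈ Ico (j3 - 4) (j3 + 5), ∀ u : Tri,
        |avg (ivm k a1 ×ˢ ivm k a2 ×ˢ ivm k a3)
          (fun q => s (p1 * q.1 + p2 * q.2.1 + p3 * q.2.2) * atm u q)| ≤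
        δ * pG (ivm k a1 ×ˢ ivm k a2 ×ˢ ivm k a3) u) (c : ℤ → ℝ) (c0 : ℤ) :
    ∑ x2 ∈ ivm k j2, (∑ x3 ∈ ivm k j3, s (p1 * x1 + p2 * x2 + p3 * x3) *
        g (c0 + q2 * x2 + q3 * x3) * c x3) ^ 2 ≤
      8 ^ k * (1458 * √Λg * δ * n2 (ivm k j3) c) ^ 2 := by
  refine dual_le (K := 1458 * √Λg * δ)
    (M := fun x2 x3 => s (p1 * x1 + p2 * x2 + p3 * x3) * g (c0 + q2 * x2 + q3 * x3))
    (by positivity) fun b => ?_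
  have h := pair_normG (k := k) (s := s) (g := g) hδ hm hm0 hq2 hq3 bm bq2 bq3 hg test b c c0
  exact h.trans (le_of_eq (by ring))

end

end Vale.Agent.P141.H550
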